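import Crest.Agent.R341.Ent

/-! Row 341, task T3: continuity of the entropy (proved). -/

set_option autoImplicit false

namespace Crest.Agent.R341

open Matrix Crest.Quantum Filter Topology
open scoped ComplexOrder Matrix.Norms.L2Operator

variable {n : Type*} [Fintype n] [DecidableEq n]

lemma vnEntropy_eq_trace_cfc {A : Matrix n n ℂ} (h : A.IsHermitian) :
    vnEntropy A = (cfc Real.negMulLog A).trace.re := by
  rw [h.cfc_eq, Matrix.IsHermitian.cfc, Unitary.conjStarAlgAut_apply, Matrix.trace_mul_comm,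
    ← Matrix.mul_assoc, Unitary.coe_star_mul_self, Matrix.one_mul, trace_diagonal,
    vnEntropy_def h, Complex.re_sum]
  rfl

/-- the entropy is continuous on Hermitian matrices (entrywise topology) -/
theorem tendsto_vnEntropy {ι : Type*} {l : Filter ι} {A : ι → Matrix n n ℂ} {A₀ : Matrix n n ℂ}
    (hA : ∀ i, (A i).IsHermitian) (h0 : A₀.IsHermitian) (h : Tendsto A l (𝓝 A₀)) :
    Tendsto (fun i => vnEntropy (A i)) l (𝓝 (vnEntropy A₀)) := by
  cases isEmpty_or_nonempty n
  · have h1 : ∀ i, A i = A₀ := fun i => Subsingleton.elim _ _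
    simp only [h1]
    exact tendsto_const_nhds
  have hs : IsCompact (Metric.closedBall (0 : ℝ) (‖A₀‖ + 1)) := isCompact_closedBall _ _
  have hsub : ∀ B : Matrix n n ℂ, ‖B‖ ≤ ‖A₀‖ + 1 →
      spectrum ℝ B ⊆ Metric.closedBall (0 : ℝ) (‖A₀‖ + 1) := by
    intro B hB x hx
    rw [mem_closedBall_zero_iff]
    exact (spectrum.norm_le_norm_of_mem hx).trans hB
  have hev : ∀ᶠ x in l, ‖A x‖ ≤ ‖A₀‖ + 1 := by
    have := (h.norm).eventually (ge_mem_nhds (show ‖A₀‖ < ‖A₀‖ + 1 by linarith))
    exact this
  have hc : Tendsto (fun x => cfc Real.negMulLog (A x)) l (𝓝 (cfc Real.negMulLog A₀)) :=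
    Filter.Tendsto.cfc (p := IsSelfAdjoint) hs Real.negMulLog h (hev.mono fun x hx => hsub _ hx)
      (Eventually.of_forall fun x => hA x) (hsub _ (by linarith)) h0
      Real.continuous_negMulLog.continuousOn
  have ht : Continuous fun M : Matrix n n ℂ => M.trace.re :=
    Complex.continuous_re.comp (continuous_id.matrix_trace)
  have := (ht.tendsto _).comp hc
  rw [vnEntropy_eq_trace_cfc h0]
  refine this.congr fun i => ?_
  simp only [Function.comp]
  rw [vnEntropy_eq_trace_cfc (hA i)]

end Crest.Agent.R341
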