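import Mathlib
import Crest.Prelude.Def_QState
import Crest.Prelude.Def_QChannel
import Crest.Prelude.Def_AmpDamp

/-! Row 341: shared definitions. -/

namespace Crest.Agent.R341

open Matrix Crest.Quantum
open scoped ComplexOrder

/-- trace function `Tr f(A)` for a Hermitian matrix, `0` otherwise -/
noncomputable def trf {n : Type*} [Fintype n] [DecidableEq n] (f : ℝ → ℝ)
    (A : Matrix n n ℂ) : ℝ :=
  if h : A.IsHermitian then ∑ i, f (h.eigenvalues i) else 0

/-- entropy of a `2 × 2` positive matrix with trace `t` and determinant `d` -/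
noncomputable def ent2 (t d : ℝ) : ℝ :=
  Real.negMulLog ((t + Real.sqrt (t ^ 2 - 4 * d)) / 2) +
    Real.negMulLog ((t - Real.sqrt (t ^ 2 - 4 * d)) / 2)

/-- the determinant of the output of GAD on the (unnormalised) pure state with weights `a, c` -/
noncomputable def vdet (γ ν a c : ℝ) : ℝ :=
  ((1 - γ * ν) * a + γ * (1 - ν) * c) * (γ * ν * a + (1 - γ + γ * ν) * c) - (1 - γ) * a * c

/-- output entropy of the pure state with excited population `p` -/
noncomputable def gadF (γ ν p : ℝ) : ℝ :=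
  Real.binEntropy ((1 + Real.sqrt (1 - 4 * (γ * ν * (1 - ν) + γ * (1 - γ) * (p - ν) ^ 2))) / 2)

/-- the block output of GAD on the block matrix `[[A, B], [Bᴴ, C]]` -/
noncomputable def gadBlk {e : Type*} (γ ν : ℝ) (A B C : Matrix e e ℂ) :
    Matrix (e ⊕ e) (e ⊕ e) ℂ :=
  Matrix.fromBlocks (((1 - γ * ν : ℝ) : ℂ) • A + ((γ * (1 - ν) : ℝ) : ℂ) • C)
    (((Real.sqrt (1 - γ) : ℝ) : ℂ) • B) (((Real.sqrt (1 - γ) : ℝ) : ℂ) • Bᴴ)
    (((γ * ν : ℝ) : ℂ) • A + ((1 - γ + γ * ν : ℝ) : ℂ) • C)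

end Crest.Agent.R341
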