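import Crest.Prelude.Def_AmpDamp

/-!
# Finite-dimensional entropy toolbox (row 341)

Everything is phrased with `vnEntropy` of `Crest.Quantum` and `Real.negMulLog`.
-/

set_option autoImplicit false
open scoped ComplexOrder Matrix
open Crest.Quantum Matrix
set_option linter.unusedSectionVars false

namespace Crest.Agent.R341

variable {d e n m : Type*} [Fintype d] [Fintype e] [Fintype n] [Fintype m]
variable [DecidableEq d] [DecidableEq e] [DecidableEq n] [DecidableEq m]

/-- `U` is a (rectangular index) unitary. -/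
structure IsUni (U : Matrix d n ℂ) : Prop where
  left : Uᴴ * U = 1
  right : U * Uᴴ = 1

lemma IsUni.conjTranspose {U : Matrix d n ℂ} (h : IsUni U) : IsUni Uᴴ :=
  ⟨by simpa using h.right, by simpa using h.left⟩

lemma IsUni.mul {U : Matrix d n ℂ} {V : Matrix n m ℂ} (hU : IsUni U) (hV : IsUni V) :
    IsUni (U * V) := by
  constructor
  · rw [conjTranspose_mul, Matrix.mul_assoc, ← Matrix.mul_assoc Uᴴ, hU.left, Matrix.one_mul,
      hV.left]
  · rw [conjTranspose_mul, Matrix.mul_assoc, ← Matrix.mul_assoc V, hV.right, Matrix.one_mul,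
      hU.right]

lemma IsUni.one : IsUni (1 : Matrix d d ℂ) := ⟨by simp, by simp⟩

lemma isUni_of_mem {U : Matrix d d ℂ} (h : U ∈ Matrix.unitaryGroup d ℂ) : IsUni U := by
  rw [Matrix.mem_unitaryGroup_iff] at h
  refine ⟨?_, ?_⟩
  · have := mul_eq_one_comm.1 h
    simpa [Matrix.star_eq_conjTranspose] using this
  · simpa [Matrix.star_eq_conjTranspose] using h

lemma IsUni.row_sum {W : Matrix m n ℂ} (h : IsUni W) (j : m) :
    ∑ i, Complex.normSq (W j i) = 1 := by
  have h1 : (W * Wᴴ) j j = 1 := by rw [h.right]; simp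
  rw [Matrix.mul_apply] at h1
  have h2 : (∑ i, (Complex.normSq (W j i) : ℂ)) = 1 := by
    rw [← h1]
    refine Finset.sum_congr rfl fun i _ => ?_
    rw [conjTranspose_apply, ← Complex.mul_conj]
    rfl
  exact_mod_cast h2

lemma IsUni.col_sum {W : Matrix m n ℂ} (h : IsUni W) (i : n) :
    ∑ j, Complex.normSq (W j i) = 1 := by
  have := h.conjTranspose.row_sum i
  simpa [conjTranspose_apply, Complex.star_def, Complex.normSq_conj] using this

/-- the real diagonal entry of `Vᴴ M V` -/
noncomputable def dg (M : Matrix d d ℂ) (V : Matrix d n ℂ) (j : n) : ℝ :=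
  ((Vᴴ * M * V) j j).re

lemma dg_add (M N : Matrix d d ℂ) (V : Matrix d n ℂ) (j : n) :
    dg (M + N) V j = dg M V j + dg N V j := by
  simp [dg, Matrix.mul_add, Matrix.add_mul]

lemma dg_smul (c : ℝ) (M : Matrix d d ℂ) (V : Matrix d n ℂ) (j : n) :
    dg ((c : ℂ) • M) V j = c * dg M V j := by
  simp [dg]

lemma dg_nonneg {M : Matrix d d ℂ} (hM : M.PosSemidef) (V : Matrix d n ℂ) (j : n) :
    0 ≤ dg M V j := by
  have h := (hM.conjTranspose_mul_mul_same V).diag_nonneg (i := j)
  exact (Complex.le_def.1 h).1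

lemma sum_dg {M : Matrix d d ℂ} {V : Matrix d n ℂ} (hV : IsUni V) :
    ∑ j, dg M V j = M.trace.re := by
  have : (Vᴴ * M * V).trace = M.trace := by
    rw [Matrix.trace_mul_comm, ← Matrix.mul_assoc, hV.right, Matrix.one_mul]
  rw [← this, Matrix.trace]
  simp [dg]

/-- spectral form with arbitrary index type -/
noncomputable def spec (U : Matrix d n ℂ) (l : n → ℝ) : Matrix d d ℂ :=
  U * diagonal (fun i => (l i : ℂ)) * Uᴴ

lemma dg_spec (U : Matrix d n ℂ) (l : n → ℝ) (V : Matrix d m ℂ) (j : m) :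
    dg (spec U l) V j = ∑ i, Complex.normSq ((Vᴴ * U) j i) * l i := by
  have h1 : Vᴴ * spec U l * V = (Vᴴ * U) * diagonal (fun i => (l i : ℂ)) * (Vᴴ * U)ᴴ := by
    simp [spec, Matrix.mul_assoc]
  rw [dg, h1, Matrix.mul_apply]
  rw [Complex.re_sum]
  refine Finset.sum_congr rfl fun i _ => ?_
  rw [Matrix.mul_diagonal, conjTranspose_apply]
  have : (Vᴴ * U) j i * (l i : ℂ) * star ((Vᴴ * U) j i)
      = ((Complex.normSq ((Vᴴ * U) j i) * l i : ℝ) : ℂ) := by
    push_cast
    rw [← Complex.mul_conj]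
    simp only [Complex.star_def]
    ring
  rw [this, Complex.ofReal_re]

/-- Schur–Horn/Jensen: the diagonal in any orthonormal basis has at least the entropy. -/
lemma sum_negMulLog_le_dg {U : Matrix d n ℂ} (hU : IsUni U) {l : n → ℝ} (hl : ∀ i, 0 ≤ l i)
    {V : Matrix d m ℂ} (hV : IsUni V) :
    ∑ i, Real.negMulLog (l i) ≤ ∑ j, Real.negMulLog (dg (spec U l) V j) := by
  have hW : IsUni (Vᴴ * U) := hV.conjTranspose.mul hU
  have h1 : ∀ j, ∑ i, Complex.normSq ((Vᴴ * U) j i) * Real.negMulLog (l i)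
      ≤ Real.negMulLog (dg (spec U l) V j) := by
    intro j
    rw [dg_spec]
    have := Real.concaveOn_negMulLog.le_map_sum (t := Finset.univ)
      (w := fun i => Complex.normSq ((Vᴴ * U) j i)) (p := l)
      (fun i _ => Complex.normSq_nonneg _) (hW.row_sum j) (fun i _ => hl i)
    simpa [smul_eq_mul] using this
  calc ∑ i, Real.negMulLog (l i)
      = ∑ i, (∑ j, Complex.normSq ((Vᴴ * U) j i)) * Real.negMulLog (l i) := by
        refine Finset.sum_congr rfl fun i _ => ?_
        rw [hW.col_sum, one_mul]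
    _ = ∑ j, ∑ i, Complex.normSq ((Vᴴ * U) j i) * Real.negMulLog (l i) := by
        rw [Finset.sum_comm]
        refine Finset.sum_congr rfl fun i _ => ?_
        rw [Finset.sum_mul]
    _ ≤ _ := Finset.sum_le_sum fun j _ => h1 j

lemma spec_isHermitian (U : Matrix d n ℂ) (l : n → ℝ) : (spec U l).IsHermitian := by
  rw [Matrix.IsHermitian, spec, conjTranspose_mul, conjTranspose_mul, conjTranspose_conjTranspose,
    diagonal_conjTranspose, Matrix.mul_assoc]
  congr 3
  funext i
  simp

lemma spec_posSemidef (U : Matrix d n ℂ) {l : n → ℝ} (hl : ∀ i, 0 ≤ l i) :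
    (spec U l).PosSemidef := by
  have : (diagonal (fun i => (l i : ℂ))).PosSemidef := by
    rw [posSemidef_diagonal_iff]
    intro i
    exact_mod_cast hl i
  exact this.mul_mul_conjTranspose_same U

lemma eigU {M : Matrix d d ℂ} (h : M.IsHermitian) :
    IsUni (h.eigenvectorUnitary : Matrix d d ℂ) :=
  isUni_of_mem h.eigenvectorUnitary.2

lemma spec_eig {M : Matrix d d ℂ} (h : M.IsHermitian) :
    spec (h.eigenvectorUnitary : Matrix d d ℂ) h.eigenvalues = M := by
  conv_rhs => rw [h.spectral_theorem]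
  rw [Unitary.conjStarAlgAut_apply]
  rfl

lemma vnEntropy_def {M : Matrix d d ℂ} (h : M.IsHermitian) :
    vnEntropy M = ∑ i, Real.negMulLog (h.eigenvalues i) := by
  rw [vnEntropy, dif_pos h, ← Finset.sum_neg_distrib]
  refine Finset.sum_congr rfl fun i _ => ?_
  rw [Real.negMulLog]
  ring

/-- Entropy from an explicit diagonalization over an arbitrary index type. -/
theorem vnEntropy_spec {U : Matrix d n ℂ} (hU : IsUni U) {l : n → ℝ} (hl : ∀ i, 0 ≤ l i) :
    vnEntropy (spec U l) = ∑ i, Real.negMulLog (l i) := by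
  have hH := spec_isHermitian U l
  have hP := spec_posSemidef U hl
  rw [vnEntropy_def hH]
  apply le_antisymm
  · have h := sum_negMulLog_le_dg (eigU hH) (l := hH.eigenvalues)
      (fun i => hP.eigenvalues_nonneg i) hU
    rw [spec_eig] at h
    refine h.trans (le_of_eq ?_)
    refine Finset.sum_congr rfl fun j _ => ?_
    rw [dg_spec, hU.left]
    congr 1
    rw [Finset.sum_eq_single j]
    · simp
    · intro b _ hb
      simp [Matrix.one_apply_ne hb.symm]
    · simp
  · have h := sum_negMulLog_le_dg hU hl (eigU hH)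
    refine h.trans (le_of_eq ?_)
    refine Finset.sum_congr rfl fun j _ => ?_
    congr 1
    have h2 : dg (spec (hH.eigenvectorUnitary : Matrix d d ℂ) hH.eigenvalues)
        (hH.eigenvectorUnitary : Matrix d d ℂ) j = hH.eigenvalues j := by
      rw [dg_spec, (eigU hH).left, Finset.sum_eq_single j]
      · simp
      · intro b _ hb
        simp [Matrix.one_apply_ne hb.symm]
      · simp
    rw [spec_eig] at h2
    exact h2

/-- Diagonal bound: pinching to the diagonal in any orthonormal basis increases entropy. -/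
theorem vnEntropy_le_dg {M : Matrix d d ℂ} (hM : M.PosSemidef) {V : Matrix d m ℂ} (hV : IsUni V) :
    vnEntropy M ≤ ∑ j, Real.negMulLog (dg M V j) := by
  rw [vnEntropy_def hM.1]
  have h := sum_negMulLog_le_dg (eigU hM.1) (l := hM.1.eigenvalues)
    (fun i => hM.eigenvalues_nonneg i) hV
  rwa [spec_eig] at h

/-- in the eigenbasis the diagonal bound is an equality -/
lemma vnEntropy_eq_dg {M : Matrix d d ℂ} (hM : M.IsHermitian) :
    vnEntropy M = ∑ j, Real.negMulLog (dg M (hM.eigenvectorUnitary : Matrix d d ℂ) j) := by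
  rw [vnEntropy_def hM]
  refine Finset.sum_congr rfl fun j _ => ?_
  congr 1
  have h2 : dg (spec (hM.eigenvectorUnitary : Matrix d d ℂ) hM.eigenvalues)
      (hM.eigenvectorUnitary : Matrix d d ℂ) j = hM.eigenvalues j := by
    rw [dg_spec, (eigU hM).left, Finset.sum_eq_single j]
    · simp
    · intro b _ hb
      simp [Matrix.one_apply_ne hb.symm]
    · simp
  rw [spec_eig] at h2
  exact h2.symm

/-- every PSD matrix is `spec` of something -/
lemma exists_spec {M : Matrix d d ℂ} (hM : M.PosSemidef) :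
    ∃ (U : Matrix d d ℂ) (l : d → ℝ), IsUni U ∧ (∀ i, 0 ≤ l i) ∧ M = spec U l :=
  ⟨_, _, eigU hM.1, fun i => hM.eigenvalues_nonneg i, (spec_eig hM.1).symm⟩

end Crest.Agent.R341
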