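import Crest.Agent.R341.Ent

/-!
# Entropy toolbox, part 2 (row 341): invariance, concavity, tensor products, subadditivity
-/

set_option autoImplicit false
set_option linter.unusedSectionVars false
open scoped ComplexOrder Matrix Kronecker
open Crest.Quantum Matrix

namespace Crest.Agent.R341

variable {d e n m : Type*} [Fintype d] [Fintype e] [Fintype n] [Fintype m]
variable [DecidableEq d] [DecidableEq e] [DecidableEq n] [DecidableEq m]

lemma spec_trace {U : Matrix d n ℂ} (hU : IsUni U) (l : n → ℝ) :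
    (spec U l).trace = ((∑ i, l i : ℝ) : ℂ) := by
  rw [spec, Matrix.trace_mul_comm, ← Matrix.mul_assoc, hU.left, Matrix.one_mul, trace_diagonal]
  push_cast
  rfl

theorem vnEntropy_conj {M : Matrix d d ℂ} (hM : M.PosSemidef) {U : Matrix d n ℂ} (hU : IsUni U) :
    vnEntropy (Uᴴ * M * U) = vnEntropy M := by
  obtain ⟨V, l, hV, hl, rfl⟩ := exists_spec hM
  have h1 : Uᴴ * spec V l * U = spec (Uᴴ * V) l := by
    simp [spec, Matrix.mul_assoc]
  rw [h1, vnEntropy_spec (hU.conjTranspose.mul hV) hl, vnEntropy_spec hV hl]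

theorem vnEntropy_conj' {M : Matrix d d ℂ} (hM : M.PosSemidef) {U : Matrix n d ℂ} (hU : IsUni U) :
    vnEntropy (U * M * Uᴴ) = vnEntropy M := by
  have := vnEntropy_conj hM hU.conjTranspose
  simpa using this

theorem vnEntropy_submatrix {M : Matrix d d ℂ} (hM : M.PosSemidef) (g : n ≃ d) :
    vnEntropy (M.submatrix g g) = vnEntropy M := by
  obtain ⟨V, l, hV, hl, rfl⟩ := exists_spec hM
  have h1 : (spec V l).submatrix g g = spec (V.submatrix g id) l := by
    ext a b
    simp [spec, Matrix.mul_apply, Matrix.submatrix_apply, diagonal_apply]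
  have h2 : IsUni (V.submatrix g id) := by
    constructor
    · have : (V.submatrix g id)ᴴ * V.submatrix g id = Vᴴ * V := by
        ext a b
        simp only [Matrix.mul_apply, conjTranspose_apply, submatrix_apply, id]
        exact Equiv.sum_comp g (fun x => star (V x a) * V x b)
      rw [this, hV.left]
    · have : V.submatrix g id * (V.submatrix g id)ᴴ = (V * Vᴴ).submatrix g g := by
        ext a b
        simp [Matrix.mul_apply]
      rw [this, hV.right]
      ext a b
      simp [Matrix.one_apply]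
  rw [h1, vnEntropy_spec h2 hl, vnEntropy_spec hV hl]

theorem vnEntropy_reindex {M : Matrix d d ℂ} (hM : M.PosSemidef) (f : d ≃ n) :
    vnEntropy (M.submatrix f.symm f.symm) = vnEntropy M :=
  vnEntropy_submatrix hM f.symm

theorem vnEntropy_diagonal {l : d → ℝ} (hl : ∀ i, 0 ≤ l i) :
    vnEntropy (diagonal fun i => (l i : ℂ)) = ∑ i, Real.negMulLog (l i) := by
  have : (diagonal fun i => (l i : ℂ)) = spec (1 : Matrix d d ℂ) l := by simp [spec]
  rw [this, vnEntropy_spec IsUni.one hl]

theorem vnEntropy_zero : vnEntropy (0 : Matrix d d ℂ) = 0 := by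
  have := vnEntropy_diagonal (d := d) (l := fun _ => 0) (fun _ => le_refl _)
  simpa using this

theorem vnEntropy_smul {M : Matrix d d ℂ} (hM : M.PosSemidef) {c : ℝ} (hc : 0 ≤ c) :
    vnEntropy ((c : ℂ) • M) = c * vnEntropy M + Real.negMulLog c * M.trace.re := by
  obtain ⟨V, l, hV, hl, rfl⟩ := exists_spec hM
  have h1 : (c : ℂ) • spec V l = spec V (fun i => c * l i) := by
    simp only [spec]
    rw [← Matrix.smul_mul, ← Matrix.mul_smul]
    congr 2
    ext i j
    simp only [Matrix.smul_apply, diagonal_apply, smul_eq_mul]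
    split_ifs <;> simp
  rw [h1, vnEntropy_spec hV (fun i => mul_nonneg hc (hl i)), vnEntropy_spec hV hl,
    spec_trace hV, Complex.ofReal_re]
  simp_rw [Real.negMulLog_mul]
  rw [Finset.sum_add_distrib, Finset.mul_sum, Finset.mul_sum, add_comm]
  congr 1
  exact Finset.sum_congr rfl fun i _ => by ring

lemma negMulLog_add_ge {x y t : ℝ} (hx : 0 ≤ x) (hy : 0 ≤ y) (h0 : 0 < t) (h1 : t < 1) :
    Real.negMulLog x + Real.negMulLog y + x * Real.log t + y * Real.log (1 - t)
      ≤ Real.negMulLog (x + y) := by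
  have h1' : 0 < 1 - t := by linarith
  have hc := Real.concaveOn_negMulLog.2 (x := x / t) (y := y / (1 - t))
    (Set.mem_Ici.2 (by positivity)) (Set.mem_Ici.2 (by positivity)) h0.le h1'.le (by ring)
  simp only [smul_eq_mul] at hc
  have e1 : t * (x / t) + (1 - t) * (y / (1 - t)) = x + y := by
    field_simp
  rw [e1] at hc
  have e2 : t * Real.negMulLog (x / t) = Real.negMulLog x + x * Real.log t := by
    rcases hx.eq_or_lt with rfl | hx'
    · simp
    · rw [Real.negMulLog, Real.negMulLog, Real.log_div hx'.ne' h0.ne']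
      field_simp
      ring
  have e3 : (1 - t) * Real.negMulLog (y / (1 - t))
      = Real.negMulLog y + y * Real.log (1 - t) := by
    rcases hy.eq_or_lt with rfl | hy'
    · simp
    · rw [Real.negMulLog, Real.negMulLog, Real.log_div hy'.ne' h1'.ne']
      field_simp
      ring
  rw [e2, e3] at hc
  linarith

/-- Unnormalised concavity. -/
theorem vnEntropy_add_ge {M N : Matrix d d ℂ} (hM : M.PosSemidef) (hN : N.PosSemidef) {t : ℝ}
    (h0 : 0 < t) (h1 : t < 1) :
    vnEntropy M + vnEntropy N + M.trace.re * Real.log t + N.trace.re * Real.log (1 - t)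
      ≤ vnEntropy (M + N) := by
  have hP : (M + N).PosSemidef := hM.add hN
  set V : Matrix d d ℂ := (hP.1.eigenvectorUnitary : Matrix d d ℂ) with hV
  have hVU : IsUni V := eigU hP.1
  rw [vnEntropy_eq_dg hP.1, ← hV]
  have hM' := vnEntropy_le_dg hM hVU
  have hN' := vnEntropy_le_dg hN hVU
  rw [← sum_dg (M := M) hVU, ← sum_dg (M := N) hVU, Finset.sum_mul, Finset.sum_mul]
  have : ∀ j, Real.negMulLog (dg M V j) + Real.negMulLog (dg N V j) + dg M V j * Real.log t
      + dg N V j * Real.log (1 - t) ≤ Real.negMulLog (dg (M + N) V j) := by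
    intro j
    rw [dg_add]
    exact negMulLog_add_ge (dg_nonneg hM V j) (dg_nonneg hN V j) h0 h1
  have hs := Finset.sum_le_sum (s := Finset.univ) fun j _ => this j
  simp only [Finset.sum_add_distrib] at hs
  linarith

lemma dg_sum {ι : Type*} (s : Finset ι) (M : ι → Matrix d d ℂ) (V : Matrix d n ℂ) (j : n) :
    dg (∑ a ∈ s, M a) V j = ∑ a ∈ s, dg (M a) V j := by
  classical
  induction s using Finset.induction_on with
  | empty => simp [dg]
  | insert a s ha ih => rw [Finset.sum_insert ha, Finset.sum_insert ha, dg_add, ih]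

/-- Concavity for finite mixtures. -/
theorem vnEntropy_sum_ge {ι : Type*} [Fintype ι] {q : ι → ℝ} (hq : ∀ a, 0 ≤ q a)
    (hq1 : ∑ a, q a = 1) {ρ : ι → Matrix d d ℂ} (hρ : ∀ a, (ρ a).PosSemidef) :
    ∑ a, q a * vnEntropy (ρ a) ≤ vnEntropy (∑ a, (q a : ℂ) • ρ a) := by
  have hP : (∑ a, (q a : ℂ) • ρ a).PosSemidef := by
    refine posSemidef_sum _ fun a _ => (hρ a).smul ?_
    exact_mod_cast hq a
  set V : Matrix d d ℂ := (hP.1.eigenvectorUnitary : Matrix d d ℂ) with hV
  have hVU : IsUni V := eigU hP.1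
  rw [vnEntropy_eq_dg hP.1, ← hV]
  have h1 : ∀ j, ∑ a, q a * Real.negMulLog (dg (ρ a) V j)
      ≤ Real.negMulLog (dg (∑ a, (q a : ℂ) • ρ a) V j) := by
    intro j
    rw [dg_sum]
    simp_rw [dg_smul]
    have := Real.concaveOn_negMulLog.le_map_sum (t := Finset.univ) (w := q)
      (p := fun a => dg (ρ a) V j) (fun a _ => hq a) hq1 (fun a _ => dg_nonneg (hρ a) V j)
    simpa [smul_eq_mul] using this
  calc ∑ a, q a * vnEntropy (ρ a)
      ≤ ∑ a, q a * ∑ j, Real.negMulLog (dg (ρ a) V j) :=
        Finset.sum_le_sum fun a _ => mul_le_mul_of_nonneg_left (vnEntropy_le_dg (hρ a) hVU) (hq a)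
    _ = ∑ j, ∑ a, q a * Real.negMulLog (dg (ρ a) V j) := by
        rw [Finset.sum_comm]
        exact Finset.sum_congr rfl fun a _ => Finset.mul_sum _ _ _
    _ ≤ _ := Finset.sum_le_sum fun j _ => h1 j

lemma IsUni.kron {U : Matrix d n ℂ} {V : Matrix e m ℂ} (hU : IsUni U) (hV : IsUni V) :
    IsUni (U ⊗ₖ V) := by
  constructor
  · rw [conjTranspose_kronecker, ← mul_kronecker_mul, hU.left, hV.left, one_kronecker_one]
  · rw [conjTranspose_kronecker, ← mul_kronecker_mul, hU.right, hV.right, one_kronecker_one]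

lemma spec_kron (U : Matrix d n ℂ) (V : Matrix e m ℂ) (l : n → ℝ) (k : m → ℝ) :
    spec U l ⊗ₖ spec V k = spec (U ⊗ₖ V) (fun p => l p.1 * k p.2) := by
  rw [spec, spec, spec, conjTranspose_kronecker, mul_kronecker_mul, mul_kronecker_mul,
    diagonal_kronecker_diagonal]
  simp only [Complex.ofReal_mul]

theorem vnEntropy_kron {A : Matrix d d ℂ} {B : Matrix e e ℂ} (hA : A.PosSemidef)
    (hB : B.PosSemidef) :
    vnEntropy (A ⊗ₖ B) = B.trace.re * vnEntropy A + A.trace.re * vnEntropy B := by
  obtain ⟨U, l, hU, hl, rfl⟩ := exists_spec hA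
  obtain ⟨V, k, hV, hk, rfl⟩ := exists_spec hB
  rw [spec_kron, vnEntropy_spec (hU.kron hV) (fun p => mul_nonneg (hl _) (hk _)),
    vnEntropy_spec hU hl, vnEntropy_spec hV hk, spec_trace hU, spec_trace hV,
    Complex.ofReal_re, Complex.ofReal_re, Fintype.sum_prod_type]
  simp_rw [Real.negMulLog_mul, Finset.sum_add_distrib]
  congr 1
  · rw [Finset.sum_mul_sum, Finset.sum_comm]
  · rw [Finset.sum_mul_sum]

end Crest.Agent.R341
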