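import Crest.Agent.R341.Ent2

/-!
# Entropy toolbox, part 3 (row 341): subadditivity, bit strings, product states, qubits
-/

set_option autoImplicit false
set_option linter.unusedSectionVars false
open scoped ComplexOrder Matrix Kronecker
open Crest.Quantum Matrix

namespace Crest.Agent.R341

variable {d e n m : Type*} [Fintype d] [Fintype e] [Fintype n] [Fintype m]
variable [DecidableEq d] [DecidableEq e] [DecidableEq n] [DecidableEq m]

/-- Gibbs inequality. -/
lemma gibbs {ι : Type*} [Fintype ι] {p q : ι → ℝ} (hp : ∀ i, 0 ≤ p i) (hq : ∀ i, 0 ≤ q i)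
    (hs : ∑ i, q i ≤ ∑ i, p i) (hz : ∀ i, q i = 0 → p i = 0) :
    ∑ i, Real.negMulLog (p i) ≤ -∑ i, p i * Real.log (q i) := by
  have h : ∀ i, Real.negMulLog (p i) + p i * Real.log (q i) ≤ q i - p i := by
    intro i
    rcases (hp i).eq_or_lt with h0 | h0
    · rw [← h0]
      simpa using hq i
    · have hq0 : 0 < q i := lt_of_le_of_ne (hq i) (fun h => h0.ne' (hz i h.symm))
      have h1 : Real.log (q i / p i) ≤ q i / p i - 1 := Real.log_le_sub_one_of_pos (by positivity)
      rw [Real.log_div hq0.ne' h0.ne'] at h1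
      have h2 := mul_le_mul_of_nonneg_left h1 h0.le
      have h3 : p i * (q i / p i - 1) = q i - p i := by field_simp
      rw [h3] at h2
      rw [Real.negMulLog]
      linarith
  have hsum := Finset.sum_le_sum (s := Finset.univ) fun i _ => h i
  rw [Finset.sum_add_distrib, Finset.sum_sub_distrib] at hsum
  linarith

/-- Classical subadditivity for a pair. -/
lemma classical_subadd {p : n × m → ℝ} (hp : ∀ x, 0 ≤ p x) (h1 : ∑ x, p x = 1)
    {r : n → ℝ} {c : m → ℝ} (hr : ∀ i, ∑ j, p (i, j) = r i) (hc : ∀ j, ∑ i, p (i, j) = c j) :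
    ∑ x, Real.negMulLog (p x) ≤ ∑ i, Real.negMulLog (r i) + ∑ j, Real.negMulLog (c j) := by
  have hr0 : ∀ i, 0 ≤ r i := fun i => by rw [← hr]; exact Finset.sum_nonneg fun j _ => hp _
  have hc0 : ∀ j, 0 ≤ c j := fun j => by rw [← hc]; exact Finset.sum_nonneg fun i _ => hp _
  have hrs : ∑ i, r i = 1 := by
    rw [← h1, Fintype.sum_prod_type]
    exact Finset.sum_congr rfl fun i _ => (hr i).symm
  have hcs : ∑ j, c j = 1 := by
    rw [← h1, Fintype.sum_prod_type_right]
    exact Finset.sum_congr rfl fun j _ => (hc j).symm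
  have hpr : ∀ i j, p (i, j) ≤ r i := fun i j => by
    rw [← hr]; exact Finset.single_le_sum (f := fun j => p (i, j)) (fun _ _ => hp _) (Finset.mem_univ j)
  have hpc : ∀ i j, p (i, j) ≤ c j := fun i j => by
    rw [← hc]; exact Finset.single_le_sum (f := fun i => p (i, j)) (fun _ _ => hp _) (Finset.mem_univ i)
  have hg := gibbs (p := p) (q := fun x => r x.1 * c x.2) hp
    (fun x => mul_nonneg (hr0 _) (hc0 _))
    (by rw [h1, Fintype.sum_prod_type]; simp_rw [← Finset.mul_sum, hcs, mul_one, hrs]; rfl)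
    (by
      rintro ⟨i, j⟩ h
      rcases mul_eq_zero.1 h with h | h
      · exact le_antisymm (h ▸ hpr i j) (hp _)
      · exact le_antisymm (h ▸ hpc i j) (hp _))
  refine hg.trans (le_of_eq ?_)
  have h2 : ∀ x : n × m, p x * Real.log (r x.1 * c x.2)
      = p x * Real.log (r x.1) + p x * Real.log (c x.2) := by
    rintro ⟨i, j⟩
    rcases (hp (i, j)).eq_or_lt with h0 | h0
    · rw [← h0]; simp
    · have hr' : r i ≠ 0 := (lt_of_lt_of_le h0 (hpr i j)).ne'
      have hc' : c j ≠ 0 := (lt_of_lt_of_le h0 (hpc i j)).ne'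
      simp only
      rw [Real.log_mul hr' hc', mul_add]
  simp_rw [h2, Finset.sum_add_distrib]
  have h3 : ∑ x : n × m, p x * Real.log (r x.1) = -∑ i, Real.negMulLog (r i) := by
    rw [Fintype.sum_prod_type, ← Finset.sum_neg_distrib]
    refine Finset.sum_congr rfl fun i _ => ?_
    simp only
    rw [← Finset.sum_mul, hr, Real.negMulLog]
    ring
  have h4 : ∑ x : n × m, p x * Real.log (c x.2) = -∑ j, Real.negMulLog (c j) := by
    rw [Fintype.sum_prod_type_right, ← Finset.sum_neg_distrib]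
    refine Finset.sum_congr rfl fun j _ => ?_
    simp only
    rw [← Finset.sum_mul, hc, Real.negMulLog]
    ring
  rw [h3, h4]
  ring

/-- trace out the left factor -/
noncomputable def ptrL (M : Matrix (d × e) (d × e) ℂ) : Matrix e e ℂ :=
  Matrix.of fun j j' => ∑ i, M (i, j) (i, j')

/-- trace out the right factor -/
noncomputable def ptrR (M : Matrix (d × e) (d × e) ℂ) : Matrix d d ℂ :=
  Matrix.of fun i i' => ∑ j, M (i, j) (i', j)

lemma ptrL_posSemidef {M : Matrix (d × e) (d × e) ℂ} (hM : M.PosSemidef) :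
    (ptrL M).PosSemidef := by
  have : ptrL M = ∑ i, M.submatrix (fun j => (i, j)) (fun j => (i, j)) := by
    ext j j'
    simp [ptrL, Matrix.sum_apply]
  rw [this]
  exact posSemidef_sum _ fun i _ => hM.submatrix _

lemma ptrR_posSemidef {M : Matrix (d × e) (d × e) ℂ} (hM : M.PosSemidef) :
    (ptrR M).PosSemidef := by
  have : ptrR M = ∑ j, M.submatrix (fun i => (i, j)) (fun i => (i, j)) := by
    ext i i'
    simp [ptrR, Matrix.sum_apply]
  rw [this]
  exact posSemidef_sum _ fun i _ => hM.submatrix _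

lemma ptrL_trace (M : Matrix (d × e) (d × e) ℂ) : (ptrL M).trace = M.trace := by
  simp [ptrL, Matrix.trace, Fintype.sum_prod_type_right]

lemma ptrR_trace (M : Matrix (d × e) (d × e) ℂ) : (ptrR M).trace = M.trace := by
  simp [ptrR, Matrix.trace, Fintype.sum_prod_type]

lemma conj_diag_apply (M : Matrix d d ℂ) (V : Matrix d n ℂ) (j : n) :
    (Vᴴ * M * V) j j = ∑ x, ∑ y, star (V x j) * M x y * V y j := by
  rw [Matrix.mul_apply]
  simp_rw [Matrix.mul_apply, conjTranspose_apply, Finset.sum_mul]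
  rw [Finset.sum_comm]

lemma IsUni.right_apply {V : Matrix e m ℂ} (hV : IsUni V) (j j' : e) :
    ∑ b, star (V j b) * V j' b = if j' = j then 1 else 0 := by
  have h : (V * Vᴴ) j' j = (1 : Matrix e e ℂ) j' j := by rw [hV.right]
  rw [Matrix.mul_apply, Matrix.one_apply] at h
  rw [← h]
  exact Finset.sum_congr rfl fun b _ => by rw [conjTranspose_apply, mul_comm]

lemma dg_kron_sum_right (M : Matrix (d × e) (d × e) ℂ) (U : Matrix d n ℂ) {V : Matrix e m ℂ}
    (hV : IsUni V) (a : n) : ∑ b, dg M (U ⊗ₖ V) (a, b) = dg (ptrR M) U a := by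
  simp only [dg]
  rw [← Complex.re_sum]
  congr 1
  simp_rw [conj_diag_apply]
  have h1 : ∀ b, ∑ x : d × e, ∑ y : d × e,
      star ((U ⊗ₖ V) x (a, b)) * M x y * (U ⊗ₖ V) y (a, b)
      = ∑ x : d × e, ∑ y : d × e,
        (star (U x.1 a) * M x y * U y.1 a) * (star (V x.2 b) * V y.2 b) := by
    intro b
    refine Finset.sum_congr rfl fun x _ => Finset.sum_congr rfl fun y _ => ?_
    simp only [kroneckerMap_apply, star_mul']
    ring
  simp_rw [h1]
  rw [Finset.sum_comm]
  have h2 : ∀ x : d × e, ∑ b, ∑ y : d × e,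
      (star (U x.1 a) * M x y * U y.1 a) * (star (V x.2 b) * V y.2 b)
      = ∑ y : d × e, (star (U x.1 a) * M x y * U y.1 a) * (if y.2 = x.2 then 1 else 0) := by
    intro x
    rw [Finset.sum_comm]
    refine Finset.sum_congr rfl fun y _ => ?_
    rw [← Finset.mul_sum, hV.right_apply]
  simp_rw [h2, Fintype.sum_prod_type]
  simp only [mul_ite, mul_one, mul_zero, Finset.sum_ite_eq', Finset.mem_univ, if_true, ptrR,
    Matrix.of_apply, Finset.mul_sum, Finset.sum_mul]
  refine Finset.sum_congr rfl fun i _ => ?_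
  rw [Finset.sum_comm]

lemma dg_kron_sum_left (M : Matrix (d × e) (d × e) ℂ) {U : Matrix d n ℂ} (V : Matrix e m ℂ)
    (hU : IsUni U) (b : m) : ∑ a, dg M (U ⊗ₖ V) (a, b) = dg (ptrL M) V b := by
  simp only [dg]
  rw [← Complex.re_sum]
  congr 1
  simp_rw [conj_diag_apply]
  have h1 : ∀ a, ∑ x : d × e, ∑ y : d × e,
      star ((U ⊗ₖ V) x (a, b)) * M x y * (U ⊗ₖ V) y (a, b)
      = ∑ x : d × e, ∑ y : d × e,
        (star (V x.2 b) * M x y * V y.2 b) * (star (U x.1 a) * U y.1 a) := by
    intro a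
    refine Finset.sum_congr rfl fun x _ => Finset.sum_congr rfl fun y _ => ?_
    simp only [kroneckerMap_apply, star_mul']
    ring
  simp_rw [h1]
  rw [Finset.sum_comm]
  have h2 : ∀ x : d × e, ∑ a, ∑ y : d × e,
      (star (V x.2 b) * M x y * V y.2 b) * (star (U x.1 a) * U y.1 a)
      = ∑ y : d × e, (star (V x.2 b) * M x y * V y.2 b) * (if y.1 = x.1 then 1 else 0) := by
    intro x
    rw [Finset.sum_comm]
    refine Finset.sum_congr rfl fun y _ => ?_
    rw [← Finset.mul_sum, hU.right_apply]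
  simp_rw [h2, Fintype.sum_prod_type_right]
  simp only [mul_ite, mul_one, mul_zero, Finset.sum_ite_eq', Finset.mem_univ, if_true, ptrL,
    Matrix.of_apply, Finset.mul_sum, Finset.sum_mul]
  refine Finset.sum_congr rfl fun i _ => ?_
  rw [Finset.sum_comm]

/-- Subadditivity, left factor pinched in an arbitrary orthonormal basis. -/
theorem vnEntropy_subadd_dg {M : Matrix (d × e) (d × e) ℂ} (hM : M.PosSemidef)
    (h1 : M.trace = 1) {U : Matrix d n ℂ} (hU : IsUni U) :
    vnEntropy M ≤ ∑ a, Real.negMulLog (dg (ptrR M) U a) + vnEntropy (ptrL M) := by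
  have hL := ptrL_posSemidef hM
  set V : Matrix e e ℂ := (hL.1.eigenvectorUnitary : Matrix e e ℂ) with hVdef
  have hV : IsUni V := eigU hL.1
  rw [vnEntropy_eq_dg hL.1, ← hVdef]
  refine (vnEntropy_le_dg hM (hU.kron hV)).trans ?_
  refine classical_subadd (fun x => dg_nonneg hM _ _) ?_
    (fun a => dg_kron_sum_right M U hV a) (fun b => dg_kron_sum_left M V hU b)
  rw [sum_dg (hU.kron hV), h1, Complex.one_re]

/-- Subadditivity of the von Neumann entropy. -/
theorem vnEntropy_subadd {M : Matrix (d × e) (d × e) ℂ} (hM : M.PosSemidef)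
    (h1 : M.trace = 1) : vnEntropy M ≤ vnEntropy (ptrR M) + vnEntropy (ptrL M) := by
  have hR := ptrR_posSemidef hM
  have := vnEntropy_subadd_dg hM h1 (eigU hR.1)
  rwa [← vnEntropy_eq_dg hR.1] at this

lemma dg_one (M : Matrix d d ℂ) (i : d) : dg M (1 : Matrix d d ℂ) i = (M i i).re := by
  simp [dg]

/-- Subadditivity with the left factor measured in the computational basis. -/
theorem vnEntropy_subadd_diag {M : Matrix (d × e) (d × e) ℂ} (hM : M.PosSemidef)
    (h1 : M.trace = 1) :
    vnEntropy M ≤ ∑ i, Real.negMulLog (block M i i).trace.re + vnEntropy (ptrL M) := by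
  have := vnEntropy_subadd_dg hM h1 (IsUni.one (d := d))
  simpa [dg_one, ptrR, block, Matrix.trace, Matrix.diag] using this

end Crest.Agent.R341
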