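import Crest.Agent.R341.Ent3

/-!
# Entropy toolbox, part 4 (row 341): bit strings, product states, qubits
-/

set_option autoImplicit false
set_option linter.unusedSectionVars false
open scoped ComplexOrder Matrix Kronecker
open Crest.Quantum Matrix

namespace Crest.Agent.R341

variable {d e n m : Type*} [Fintype d] [Fintype e] [Fintype n] [Fintype m]
variable [DecidableEq d] [DecidableEq e] [DecidableEq n] [DecidableEq m]

section product

variable {ι β : Type*} [Fintype ι] [DecidableEq ι] [Fintype β] [DecidableEq β]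

/-- marginalization in a product weight -/
lemma sum_prod_mul_single (w : ι → β → ℝ) (i : ι) (φ : β → ℝ)
    (hw : ∀ j, ∑ b, w j b = 1) :
    ∑ σ : ι → β, (∏ j, w j (σ j)) * φ (σ i) = ∑ b, w i b * φ b := by
  have h1 : ∀ σ : ι → β, (∏ j, w j (σ j)) * φ (σ i)
      = ∏ j, (w j (σ j) * if j = i then φ (σ j) else 1) := by
    intro σ
    rw [Finset.prod_mul_distrib]
    congr 1
    rw [Finset.prod_ite_eq' Finset.univ i (fun j => φ (σ j))]
    simp
  simp_rw [h1]
  rw [← Fintype.piFinset_univ, ← Finset.prod_univ_sum (fun _ => Finset.univ)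
    (fun j b => w j b * if j = i then φ b else 1)]
  rw [Finset.prod_eq_single i]
  · simp
  · intro j _ hj
    simp [hj, hw j]
  · simp

/-- entropy of a product weight -/
lemma sum_negMulLog_prod (w : ι → β → ℝ) (hw : ∀ j, ∑ b, w j b = 1) :
    ∑ σ : ι → β, Real.negMulLog (∏ j, w j (σ j)) = ∑ i, ∑ b, Real.negMulLog (w i b) := by
  have h1 : ∀ σ : ι → β, Real.negMulLog (∏ j, w j (σ j))
      = -∑ i, (∏ j, w j (σ j)) * Real.log (w i (σ i)) := by
    intro σ
    rw [Real.negMulLog]
    by_cases h : ∃ j, w j (σ j) = 0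
    · obtain ⟨j, hj⟩ := h
      rw [Finset.prod_eq_zero (Finset.mem_univ j) hj]
      simp
    · push Not at h
      rw [Real.log_prod (fun j _ => h j), Finset.mul_sum, ← Finset.sum_neg_distrib]
      exact Finset.sum_congr rfl fun i _ => by ring
  simp_rw [h1]
  rw [Finset.sum_neg_distrib, Finset.sum_comm, ← Finset.sum_neg_distrib]
  refine Finset.sum_congr rfl fun i _ => ?_
  rw [sum_prod_mul_single w i (fun b => Real.log (w i b)) hw, ← Finset.sum_neg_distrib]
  exact Finset.sum_congr rfl fun b _ => by rw [Real.negMulLog]; ring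

end product

section bits

variable {ι : Type*} [Fintype ι] [DecidableEq ι]

/-- marginal probability that bit `i` is `true` -/
noncomputable def pop (p : (ι → Bool) → ℝ) (i : ι) : ℝ := ∑ σ : ι → Bool, if σ i then p σ else 0

lemma pop_nonneg {p : (ι → Bool) → ℝ} (hp : ∀ σ, 0 ≤ p σ) (i : ι) : 0 ≤ pop p i :=
  Finset.sum_nonneg fun σ _ => by split_ifs <;> simp [hp]

lemma pop_compl {p : (ι → Bool) → ℝ} (h1 : ∑ σ, p σ = 1) (i : ι) :
    ∑ σ : ι → Bool, (if σ i then 0 else p σ) = 1 - pop p i := by
  rw [pop, ← h1, ← Finset.sum_sub_distrib]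
  exact Finset.sum_congr rfl fun σ _ => by split_ifs <;> simp

lemma pop_le_one {p : (ι → Bool) → ℝ} (hp : ∀ σ, 0 ≤ p σ) (h1 : ∑ σ, p σ = 1) (i : ι) :
    pop p i ≤ 1 := by
  have h := pop_compl h1 i
  have h2 : 0 ≤ ∑ σ : ι → Bool, (if σ i then 0 else p σ) :=
    Finset.sum_nonneg fun σ _ => by split_ifs <;> simp [hp]
  linarith

/-- Classical subadditivity for bit strings. -/
theorem classical_bits {p : (ι → Bool) → ℝ} (hp : ∀ σ, 0 ≤ p σ) (h1 : ∑ σ, p σ = 1) :
    ∑ σ, Real.negMulLog (p σ) ≤ ∑ i, Real.binEntropy (pop p i) := by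
  set w : ι → Bool → ℝ := fun i b => if b then pop p i else 1 - pop p i with hw
  have hw0 : ∀ i b, 0 ≤ w i b := by
    intro i b
    simp only [hw]
    split_ifs
    · exact pop_nonneg hp i
    · have := pop_le_one hp h1 i; linarith
  have hws : ∀ i, ∑ b, w i b = 1 := by intro i; simp [hw]
  have hpw : ∀ σ i, p σ ≤ w i (σ i) := by
    intro σ i
    simp only [hw]
    split_ifs with h
    · have := Finset.single_le_sum (f := fun σ : ι → Bool => if σ i then p σ else 0)
        (fun τ _ => by split_ifs <;> simp [hp]) (Finset.mem_univ σ)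
      simpa [h, pop] using this
    · have := Finset.single_le_sum (f := fun σ : ι → Bool => if σ i then 0 else p σ)
        (fun τ _ => by split_ifs <;> simp [hp]) (Finset.mem_univ σ)
      rw [pop_compl h1 i] at this
      simpa [h] using this
  have hprod : ∑ σ : ι → Bool, ∏ i, w i (σ i) = 1 := by
    rw [← Fintype.piFinset_univ, ← Finset.prod_univ_sum (fun _ => Finset.univ) (fun j b => w j b)]
    exact Finset.prod_eq_one fun i _ => hws i
  have hg := gibbs (p := p) (q := fun σ => ∏ i, w i (σ i)) hp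
    (fun σ => Finset.prod_nonneg fun i _ => hw0 i _) (by rw [hprod, h1])
    (by
      intro σ h
      obtain ⟨i, -, hi⟩ := Finset.prod_eq_zero_iff.1 h
      exact le_antisymm (hi ▸ hpw σ i) (hp σ))
  refine hg.trans (le_of_eq ?_)
  have h2 : ∀ σ : ι → Bool, p σ * Real.log (∏ i, w i (σ i)) = ∑ i, p σ * Real.log (w i (σ i)) := by
    intro σ
    rcases (hp σ).eq_or_lt with h0 | h0
    · simp [← h0]
    · rw [Real.log_prod (fun i _ => (lt_of_lt_of_le h0 (hpw σ i)).ne'), Finset.mul_sum]
  simp_rw [h2]
  rw [Finset.sum_comm, ← Finset.sum_neg_distrib]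
  refine Finset.sum_congr rfl fun i _ => ?_
  have h3 : ∀ σ : ι → Bool, p σ * Real.log (w i (σ i))
      = (if σ i then p σ else 0) * Real.log (pop p i)
        + (if σ i then 0 else p σ) * Real.log (1 - pop p i) := by
    intro σ
    simp only [hw]
    split_ifs <;> simp
  simp_rw [h3]
  rw [Finset.sum_add_distrib, ← Finset.sum_mul, ← Finset.sum_mul, pop_compl h1 i]
  change -(pop p i * Real.log (pop p i) + _) = _
  rw [Real.binEntropy_eq_negMulLog_add_negMulLog_one_sub, Real.negMulLog, Real.negMulLog]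
  ring

/-- `n`-qubit subadditivity in the computational basis. -/
theorem vnEntropy_le_bits {M : Matrix (ι → Bool) (ι → Bool) ℂ} (hM : M.PosSemidef)
    (h1 : M.trace = 1) :
    vnEntropy M ≤ ∑ i, Real.binEntropy (pop (fun σ => (M σ σ).re) i) := by
  have h := vnEntropy_le_dg hM (IsUni.one (d := ι → Bool))
  simp_rw [dg_one] at h
  refine h.trans (classical_bits ?_ ?_)
  · intro σ
    have := dg_nonneg hM (1 : Matrix (ι → Bool) (ι → Bool) ℂ) σ
    rwa [dg_one] at this
  · have := sum_dg (M := M) (IsUni.one (d := ι → Bool))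
    simp_rw [dg_one] at this
    rw [this, h1, Complex.one_re]

end bits

section prodMat

variable {ι β : Type*} [Fintype ι] [DecidableEq ι] [Fintype β] [DecidableEq β]

/-- product (tensor) matrix on words -/
def prodMat (A : ι → Matrix β β ℂ) : Matrix (ι → β) (ι → β) ℂ :=
  Matrix.of fun σ τ => ∏ i, A i (σ i) (τ i)

lemma prodMat_mul (A B : ι → Matrix β β ℂ) :
    prodMat A * prodMat B = prodMat (fun i => A i * B i) := by
  ext σ τ
  rw [Matrix.mul_apply]
  simp only [prodMat, Matrix.of_apply]
  simp_rw [← Finset.prod_mul_distrib]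
  rw [← Fintype.piFinset_univ, ← Finset.prod_univ_sum (fun _ => Finset.univ)
    (fun i b => A i (σ i) b * B i b (τ i))]
  exact Finset.prod_congr rfl fun i _ => by rw [Matrix.mul_apply]

lemma prodMat_conjTranspose (A : ι → Matrix β β ℂ) :
    (prodMat A)ᴴ = prodMat (fun i => (A i)ᴴ) := by
  ext σ τ
  simp [prodMat, conjTranspose_apply]

lemma prodMat_diagonal (l : ι → β → ℂ) :
    prodMat (fun i => diagonal (l i)) = diagonal (fun σ : ι → β => ∏ i, l i (σ i)) := by
  ext σ τ
  simp only [prodMat, Matrix.of_apply, diagonal_apply]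
  by_cases h : σ = τ
  · subst h; simp
  · rw [if_neg h]
    obtain ⟨i, hi⟩ := Function.ne_iff.1 h
    exact Finset.prod_eq_zero (Finset.mem_univ i) (by rw [if_neg hi])

lemma prodMat_one : prodMat (fun _ : ι => (1 : Matrix β β ℂ)) = 1 := by
  have := prodMat_diagonal (ι := ι) (β := β) (fun _ _ => 1)
  simpa using this

lemma IsUni.prodMat {U : ι → Matrix β β ℂ} (hU : ∀ i, IsUni (U i)) :
    IsUni (prodMat U) := by
  constructor
  · rw [prodMat_conjTranspose, prodMat_mul]
    simp_rw [(hU _).left]
    exact prodMat_one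
  · rw [prodMat_conjTranspose, prodMat_mul]
    simp_rw [(hU _).right]
    exact prodMat_one

lemma prodMat_spec (U : ι → Matrix β β ℂ) (l : ι → β → ℝ) :
    prodMat (fun i => spec (U i) (l i)) = spec (prodMat U) (fun σ => ∏ i, l i (σ i)) := by
  simp only [spec]
  rw [← prodMat_mul, ← prodMat_mul, prodMat_diagonal, prodMat_conjTranspose]
  push_cast
  rfl

lemma prodMat_posSemidef {A : ι → Matrix β β ℂ} (hA : ∀ i, (A i).PosSemidef) :
    (prodMat A).PosSemidef := by
  choose U l hU hl hE using fun i => exists_spec (hA i)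
  have : A = fun i => spec (U i) (l i) := funext hE
  rw [this, prodMat_spec]
  exact spec_posSemidef _ fun σ => Finset.prod_nonneg fun i _ => hl i _

lemma prodMat_trace (A : ι → Matrix β β ℂ) : (prodMat A).trace = ∏ i, (A i).trace := by
  simp only [Matrix.trace, diag_apply, prodMat, Matrix.of_apply]
  rw [Finset.prod_univ_sum, Fintype.piFinset_univ]

/-- entropy of a product state -/
theorem vnEntropy_prodMat {A : ι → Matrix β β ℂ} (hA : ∀ i, (A i).PosSemidef)
    (h1 : ∀ i, (A i).trace = 1) : vnEntropy (prodMat A) = ∑ i, vnEntropy (A i) := by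
  choose U l hU hl hE using fun i => exists_spec (hA i)
  have hl1 : ∀ i, ∑ b, l i b = 1 := by
    intro i
    have := h1 i
    rw [hE i, spec_trace (hU i)] at this
    exact_mod_cast this
  have : A = fun i => spec (U i) (l i) := funext hE
  rw [this, prodMat_spec, vnEntropy_spec (IsUni.prodMat hU)
    (fun σ => Finset.prod_nonneg fun i _ => hl i _), sum_negMulLog_prod l hl1]
  exact Finset.sum_congr rfl fun i _ => (vnEntropy_spec (hU i) (hl i)).symm

end prodMat

/-- entropy of a qubit state from its determinant -/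
theorem vnEntropy_two {M : Matrix Bool Bool ℂ} (hM : M.PosSemidef) (h1 : M.trace = 1) :
    vnEntropy M = Real.binEntropy ((1 + Real.sqrt (1 - 4 * M.det.re)) / 2) := by
  rw [vnEntropy_def hM.1, Fintype.sum_bool]
  set a := hM.1.eigenvalues true
  set b := hM.1.eigenvalues false
  have hs : a + b = 1 := by
    have h := hM.1.trace_eq_sum_eigenvalues
    rw [h1, Fintype.sum_bool] at h
    have h2 : ((a + b : ℝ) : ℂ) = 1 := by rw [Complex.ofReal_add]; exact h.symm
    exact_mod_cast h2
  have hd : M.det.re = a * b := by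
    rw [hM.1.det_eq_prod_eigenvalues, Fintype.prod_bool]
    norm_cast
  have hb : b = 1 - a := by linarith
  have hq : 1 - 4 * M.det.re = (2 * a - 1) ^ 2 := by rw [hd, hb]; ring
  rw [hq, Real.sqrt_sq_eq_abs, hb, ← Real.binEntropy_eq_negMulLog_add_negMulLog_one_sub]
  rcases le_total 0 (2 * a - 1) with h | h
  · rw [abs_of_nonneg h]
    congr 1
    ring
  · rw [abs_of_nonpos h, ← Real.binEntropy_one_sub]
    congr 1
    ring

end Crest.Agent.R341
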