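import Mathlib

/-!
# Convexity of the output entropy of a pure state as a function of its population (row 341)
-/

set_option autoImplicit false

namespace Crest.Agent.R341

open Real Set

/-- The entanglement-of-formation function of the concurrence. -/
noncomputable def eof (c : ℝ) : ℝ := Real.binEntropy ((1 + Real.sqrt (1 - c ^ 2)) / 2)

lemma two_mul_le_log_sub_log {r : ℝ} (h0 : 0 ≤ r) (h1 : r < 1) :
    2 * r ≤ Real.log (1 + r) - Real.log (1 - r) := by
  have h := Real.hasSum_log_sub_log_of_abs_lt_one (x := r) (by rw [abs_of_nonneg h0]; exact h1)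
  have h2 := le_hasSum h 0 (fun k _ => by positivity)
  simpa using h2

lemma eof_monotoneOn : MonotoneOn eof (Icc 0 1) := by
  intro x hx y hy hxy
  unfold eof
  have hx2 : 0 ≤ 1 - x ^ 2 := by nlinarith [hx.1, hx.2]
  have hy2 : 0 ≤ 1 - y ^ 2 := by nlinarith [hy.1, hy.2]
  have hle : Real.sqrt (1 - y ^ 2) ≤ Real.sqrt (1 - x ^ 2) :=
    Real.sqrt_le_sqrt (by nlinarith [hx.1, hy.1])
  have hx1 : Real.sqrt (1 - x ^ 2) ≤ 1 := by
    exact Real.sqrt_le_one.2 (by nlinarith [sq_nonneg x])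
  have hy1 : Real.sqrt (1 - y ^ 2) ≤ 1 := hle.trans hx1
  refine Real.binEntropy_strictAntiOn.antitoneOn ?_ ?_ (by linarith)
  · exact ⟨by have := Real.sqrt_nonneg (1 - y ^ 2); norm_num; linarith, by linarith⟩
  · exact ⟨by have := Real.sqrt_nonneg (1 - x ^ 2); norm_num; linarith, by linarith⟩

lemma hasDerivAt_sqrt_one_sub_sq {c : ℝ} (h0 : 0 < c) (h1 : c < 1) :
    HasDerivAt (fun c : ℝ => Real.sqrt (1 - c ^ 2)) (-c / Real.sqrt (1 - c ^ 2)) c := by
  have hpos : 0 < 1 - c ^ 2 := by nlinarith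
  have h0' : HasDerivAt (fun c : ℝ => 1 - c ^ 2) (-(2 * c)) c := by
    have := (hasDerivAt_pow 2 c).const_sub 1
    simpa using this
  have h := h0'.sqrt hpos.ne'
  refine h.congr_deriv ?_
  have := Real.sqrt_pos.2 hpos
  field_simp

lemma eof_convexOn : ConvexOn ℝ (Icc 0 1) eof := by
  have hr : ∀ c ∈ Ioo (0 : ℝ) 1, 0 < Real.sqrt (1 - c ^ 2) ∧ Real.sqrt (1 - c ^ 2) < 1 := by
    intro c hc
    have hpos : 0 < 1 - c ^ 2 := by nlinarith [hc.1, hc.2]
    refine ⟨Real.sqrt_pos.2 hpos, ?_⟩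
    rw [Real.sqrt_lt' one_pos]
    nlinarith [hc.1]
  refine convexOn_of_hasDerivWithinAt2_nonneg (convex_Icc 0 1)
    (f' := fun c => c / (2 * Real.sqrt (1 - c ^ 2)) *
      (Real.log (1 + Real.sqrt (1 - c ^ 2)) - Real.log (1 - Real.sqrt (1 - c ^ 2))))
    (f'' := fun c => (Real.log (1 + Real.sqrt (1 - c ^ 2)) - Real.log (1 - Real.sqrt (1 - c ^ 2))
      - 2 * Real.sqrt (1 - c ^ 2)) / (2 * Real.sqrt (1 - c ^ 2) ^ 3)) ?_ ?_ ?_ ?_
  · apply Continuous.continuousOn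
    unfold eof
    fun_prop
  · intro c hc
    rw [interior_Icc] at hc
    obtain ⟨hr0, hr1⟩ := hr c hc
    apply HasDerivAt.hasDerivWithinAt
    have h1 := hasDerivAt_sqrt_one_sub_sq hc.1 hc.2
    have h2 := (h1.const_add 1).div_const 2
    have h3 := (Real.hasDerivAt_binEntropy (p := (1 + Real.sqrt (1 - c ^ 2)) / 2)
      (by positivity) (by linarith)).comp c h2
    refine (h3.congr_deriv ?_)
    have e1 : 1 - (1 + Real.sqrt (1 - c ^ 2)) / 2 = (1 - Real.sqrt (1 - c ^ 2)) / 2 := by ring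
    rw [e1, Real.log_div (by linarith) two_ne_zero, Real.log_div (by linarith) two_ne_zero]
    field_simp
    ring
  · intro c hc
    rw [interior_Icc] at hc
    obtain ⟨hr0, hr1⟩ := hr c hc
    apply HasDerivAt.hasDerivWithinAt
    have h1 := hasDerivAt_sqrt_one_sub_sq hc.1 hc.2
    have h2 := (hasDerivAt_id c).div (h1.const_mul 2) (by positivity)
    have h3 := (h1.const_add 1).log (by linarith)
    have h4 := (h1.const_sub 1).log (by linarith)
    have h5 := h2.mul (h3.sub h4)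
    refine h5.congr_deriv ?_
    have hsq : Real.sqrt (1 - c ^ 2) ^ 2 = 1 - c ^ 2 := Real.sq_sqrt (by nlinarith [hc.1, hc.2])
    set r := Real.sqrt (1 - c ^ 2) with hrdef
    have hc2 : c ^ 2 = 1 - r ^ 2 := by linarith
    have hne1 : 1 + r ≠ 0 := by linarith
    have hne2 : 1 - r ≠ 0 := by linarith
    simp only [id, Pi.sub_apply, Pi.div_apply, ← hrdef]
    set l1 := Real.log (1 + r)
    set l2 := Real.log (1 - r)
    field_simp
    rw [hc2]
    ring
  · intro c hc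
    rw [interior_Icc] at hc
    obtain ⟨hr0, hr1⟩ := hr c hc
    have := two_mul_le_log_sub_log hr0.le hr1
    apply div_nonneg (by linarith) (by positivity)

/-- `4 v ≤ 1` on `[0,1]`. -/
lemma four_v_le_one {g n p : ℝ} (hg : g ∈ Icc (0 : ℝ) 1) (hp : p ∈ Icc (0 : ℝ) 1) :
    4 * (g * n * (1 - n) + g * (1 - g) * (p - n) ^ 2) ≤ 1 := by
  have h : 1 - 4 * (g * n * (1 - n) + g * (1 - g) * (p - n) ^ 2)
      = (1 - 2 * ((1 - g) * p + g * n)) ^ 2 + 4 * ((1 - g) * (p * (1 - p))) := by ring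
  have h2 : 0 ≤ (1 - g) * (p * (1 - p)) :=
    mul_nonneg (by linarith [hg.2]) (mul_nonneg hp.1 (by linarith [hp.2]))
  nlinarith [sq_nonneg (1 - 2 * ((1 - g) * p + g * n))]

lemma v_nonneg {g n : ℝ} (hg : g ∈ Icc (0 : ℝ) 1) (hn : n ∈ Icc (0 : ℝ) 1) (p : ℝ) :
    0 ≤ g * n * (1 - n) + g * (1 - g) * (p - n) ^ 2 := by
  have h1 : 0 ≤ g * n * (1 - n) := mul_nonneg (mul_nonneg hg.1 hn.1) (by linarith [hn.2])
  have h2 : 0 ≤ g * (1 - g) * (p - n) ^ 2 :=
    mul_nonneg (mul_nonneg hg.1 (by linarith [hg.2])) (sq_nonneg _)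
  linarith

/-- the concurrence-like function `2 √v` is convex -/
lemma conc_convexOn {g n : ℝ} (hg : g ∈ Icc (0 : ℝ) 1) (hn : n ∈ Icc (0 : ℝ) 1) :
    ConvexOn ℝ (Icc 0 1)
      (fun p => Real.sqrt (4 * (g * n * (1 - n) + g * (1 - g) * (p - n) ^ 2))) := by
  have ha : 0 ≤ 4 * (g * n * (1 - n)) :=
    mul_nonneg (by norm_num) (mul_nonneg (mul_nonneg hg.1 hn.1) (by linarith [hn.2]))
  have hb : 0 ≤ 4 * (g * (1 - g)) :=
    mul_nonneg (by norm_num) (mul_nonneg hg.1 (by linarith [hg.2]))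
  set α := Real.sqrt (4 * (g * n * (1 - n))) with hα
  set β := Real.sqrt (4 * (g * (1 - g))) with hβ
  have key : ∀ p : ℝ, Real.sqrt (4 * (g * n * (1 - n) + g * (1 - g) * (p - n) ^ 2))
      = ‖((α : ℂ) + ((β * (p - n) : ℝ) : ℂ) * Complex.I)‖ := by
    intro p
    rw [Complex.norm_add_mul_I]
    congr 1
    rw [mul_pow, hα, hβ, Real.sq_sqrt ha, Real.sq_sqrt hb]
    ring
  refine ⟨convex_Icc 0 1, ?_⟩
  intro x _ y _ a b ha' hb' hab
  simp only [key, smul_eq_mul]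
  have e : ((α : ℂ) + ((β * (a * x + b * y - n) : ℝ) : ℂ) * Complex.I)
      = (a : ℂ) * ((α : ℂ) + ((β * (x - n) : ℝ) : ℂ) * Complex.I)
        + (b : ℂ) * ((α : ℂ) + ((β * (y - n) : ℝ) : ℂ) * Complex.I) := by
    have hab' : (b : ℂ) = 1 - (a : ℂ) := by
      have : b = 1 - a := by linarith
      rw [this]; push_cast; ring
    push_cast
    rw [hab']
    ring
  rw [e]
  refine (norm_add_le _ _).trans ?_
  rw [norm_mul, norm_mul, Complex.norm_real, Complex.norm_real, Real.norm_of_nonneg ha',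
    Real.norm_of_nonneg hb']

/-- The output entropy of the pure states of population `p` is a convex function of `p`. -/
theorem convexOn_fOut_aux {g n : ℝ} (hg : g ∈ Icc (0 : ℝ) 1) (hn : n ∈ Icc (0 : ℝ) 1) :
    ConvexOn ℝ (Icc 0 1) (fun p => Real.binEntropy
      ((1 + Real.sqrt (1 - 4 * (g * n * (1 - n) + g * (1 - g) * (p - n) ^ 2))) / 2)) := by
  have hmem : ∀ p ∈ Icc (0 : ℝ) 1,
      Real.sqrt (4 * (g * n * (1 - n) + g * (1 - g) * (p - n) ^ 2)) ∈ Icc (0 : ℝ) 1 := by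
    intro p hp
    refine ⟨Real.sqrt_nonneg _, ?_⟩
    exact Real.sqrt_le_one.2 (four_v_le_one hg hp)
  have key : ∀ p : ℝ, Real.binEntropy
      ((1 + Real.sqrt (1 - 4 * (g * n * (1 - n) + g * (1 - g) * (p - n) ^ 2))) / 2)
      = eof (Real.sqrt (4 * (g * n * (1 - n) + g * (1 - g) * (p - n) ^ 2))) := by
    intro p
    unfold eof
    rw [Real.sq_sqrt (mul_nonneg (by norm_num) (v_nonneg hg hn p))]
  have hC := conc_convexOn hg hn
  refine ⟨convex_Icc 0 1, ?_⟩
  intro x hx y hy a b ha hb hab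
  simp only [key]
  have hxy := (convex_Icc (0 : ℝ) 1) hx hy ha hb hab
  have hCxy := (convex_Icc (0 : ℝ) 1) (hmem x hx) (hmem y hy) ha hb hab
  exact (eof_monotoneOn (hmem _ hxy) hCxy (hC.2 hx hy ha hb hab)).trans
    (eof_convexOn.2 (hmem x hx) (hmem y hy) ha hb hab)

end Crest.Agent.R341
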