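import Crest.Agent.R341.Power
import Crest.Agent.R341.Ent4
import Crest.Agent.R341.GlueA

/-!
# Row 341: S0534 from the key inequality
-/

set_option autoImplicit false
set_option linter.unusedSectionVars false

namespace Crest.Agent.R341

open Crest.Quantum Crest.MathPhysics.AmpDamp Matrix
open scoped ComplexOrder

/-- populations of a matrix on bit strings -/
noncomputable def mpop {n : ℕ} (M : Matrix (Fin n → Bool) (Fin n → Bool) ℂ) (i : Fin n) : ℝ :=
  pop (fun σ => (M σ σ).re) i

lemma vnEntropy_nonneg {d : Type*} [Fintype d] [DecidableEq d] {M : Matrix d d ℂ}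
    (hM : M.PosSemidef) (h1 : M.trace = 1) : 0 ≤ vnEntropy M := by
  rw [vnEntropy_def hM.1]
  refine Finset.sum_nonneg fun i _ => Real.negMulLog_nonneg (hM.eigenvalues_nonneg i) ?_
  have hs : ∑ i, hM.1.eigenvalues i = 1 := by
    have h := hM.1.trace_eq_sum_eigenvalues
    rw [h1] at h
    have h2 : ((∑ i, hM.1.eigenvalues i : ℝ) : ℂ) = ((1 : ℝ) : ℂ) := by
      rw [Complex.ofReal_sum, Complex.ofReal_one]
      exact h.symm
    exact Complex.ofReal_injective h2
  rw [← hs]
  exact Finset.single_le_sum (fun j _ => hM.eigenvalues_nonneg j) (Finset.mem_univ i)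

lemma psd_of_cp {d e : Type*} [Fintype d] [Fintype e] [DecidableEq d] [DecidableEq e]
    {Ψ : Matrix d d ℂ → Matrix e e ℂ} (hΨ : IsCompletelyPositive Ψ) {M : Matrix d d ℂ}
    (hM : M.PosSemidef) : (Ψ M).PosSemidef := by
  have h := hΨ 1 (M.submatrix Prod.snd Prod.snd) (hM.submatrix _)
  have h2 := h.submatrix (fun i : e => ((0 : Fin 1), i))
  have e1 : Ψ M = (blockwise Ψ (M.submatrix (Prod.snd : Fin 1 × d → d) Prod.snd)).submatrix
      (fun i : e => ((0 : Fin 1), i)) (fun i : e => ((0 : Fin 1), i)) := by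
    ext i j
    simp only [blockwise, Matrix.submatrix_apply, Matrix.of_apply]
    rfl
  rw [e1]
  exact h2

lemma diag_re_nonneg {d : Type*} [Fintype d] [DecidableEq d] {M : Matrix d d ℂ}
    (hM : M.PosSemidef) (i : d) : 0 ≤ (M i i).re :=
  (Complex.le_def.1 (hM.diag_nonneg (i := i))).1

lemma sum_diag_re {d : Type*} [Fintype d] (M : Matrix d d ℂ) :
    ∑ i, (M i i).re = M.trace.re := by
  simp [Matrix.trace]

lemma mpop_nonneg {n : ℕ} {M : Matrix (Fin n → Bool) (Fin n → Bool) ℂ} (hM : M.PosSemidef)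
    (i : Fin n) : 0 ≤ mpop M i :=
  pop_nonneg (fun _ => diag_re_nonneg hM _) i

lemma mpop_le_trace {n : ℕ} {M : Matrix (Fin n → Bool) (Fin n → Bool) ℂ} (hM : M.PosSemidef)
    (i : Fin n) : mpop M i ≤ M.trace.re := by
  rw [← sum_diag_re]
  refine Finset.sum_le_sum fun σ _ => ?_
  simp only
  split_ifs
  · exact le_rfl
  · exact diag_re_nonneg hM _

lemma mpop_smul {n : ℕ} (c : ℝ) (M : Matrix (Fin n → Bool) (Fin n → Bool) ℂ) (i : Fin n) :
    mpop ((c : ℂ) • M) i = c * mpop M i := by
  simp only [mpop, pop, Finset.mul_sum]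
  refine Finset.sum_congr rfl fun σ _ => ?_
  split_ifs <;> simp

lemma mpop_sum {n : ℕ} {ι : Type*} (s : Finset ι)
    (M : ι → Matrix (Fin n → Bool) (Fin n → Bool) ℂ) (i : Fin n) :
    mpop (∑ a ∈ s, M a) i = ∑ a ∈ s, mpop (M a) i := by
  simp only [mpop, pop]
  rw [Finset.sum_comm]
  refine Finset.sum_congr rfl fun σ _ => ?_
  split_ifs
  · rw [Matrix.sum_apply, Complex.re_sum]
  · simp

lemma splitBits_symm_apply (n : ℕ) (b : Bool) (σ : Fin n → Bool) :
    (splitBits n).symm (b, σ) = Fin.cons b σ := rfl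

lemma mpop_zero_eq {n : ℕ} (M : Matrix (Fin (n + 1) → Bool) (Fin (n + 1) → Bool) ℂ) :
    mpop M 0 = (block (M.submatrix (splitBits n).symm (splitBits n).symm) true true).trace.re := by
  rw [← sum_diag_re, mpop, pop, ← Equiv.sum_comp (splitBits n).symm, Fintype.sum_prod_type,
    Fintype.sum_bool]
  simp [splitBits_symm_apply, block]

lemma mpop_succ_eq {n : ℕ} (M : Matrix (Fin (n + 1) → Bool) (Fin (n + 1) → Bool) ℂ) (i : Fin n) :
    mpop M i.succ =
      mpop (block (M.submatrix (splitBits n).symm (splitBits n).symm) false false) i +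
      mpop (block (M.submatrix (splitBits n).symm (splitBits n).symm) true true) i := by
  rw [mpop, pop, ← Equiv.sum_comp (splitBits n).symm, Fintype.sum_prod_type, Fintype.sum_bool,
    add_comm]
  simp [splitBits_symm_apply, block, mpop, pop]

/-- perspective inequality -/
lemma convex_persp {f : ℝ → ℝ} (hf : ConvexOn ℝ (Set.Icc 0 1) f) {p a c : ℝ} (hp0 : 0 ≤ p)
    (hp1 : p ≤ 1) (ha0 : 0 ≤ a) (ha1 : a ≤ 1 - p) (hc0 : 0 ≤ c) (hc1 : c ≤ p) :
    f (a + c) ≤ (1 - p) * f (a / (1 - p)) + p * f (c / p) := by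
  rcases hp0.eq_or_lt with rfl | hp0'
  · have : c = 0 := le_antisymm hc1 hc0
    subst this
    simp
  rcases hp1.eq_or_lt with rfl | hp1'
  · have : a = 0 := le_antisymm (by simpa using ha1) ha0
    subst this
    simp
  have hq : 0 < 1 - p := by linarith
  have h := hf.2 (x := a / (1 - p)) (y := c / p)
    ⟨by positivity, by rw [div_le_one hq]; exact ha1⟩
    ⟨by positivity, by rw [div_le_one hp0']; exact hc1⟩ hq.le hp0'.le (by ring)
  simp only [smul_eq_mul] at h
  have e1 : (1 - p) * (a / (1 - p)) + p * (c / p) = a + c := by field_simp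
  rwa [e1] at h

section lower

variable {γ ν : ℝ}

/-- Lower bound on output entropies by populations, unnormalised form. -/
lemma unnorm {n : ℕ} {Ψ : Matrix (Fin n → Bool) (Fin n → Bool) ℂ →
    Matrix (Fin n → Bool) (Fin n → Bool) ℂ} (hΨ : IsChannel Ψ) {f : ℝ → ℝ}
    (IH : ∀ ρ, IsDensity ρ → ∑ i, f (mpop ρ i) ≤ vnEntropy (Ψ ρ))
    {M : Matrix (Fin n → Bool) (Fin n → Bool) ℂ} (hM : M.PosSemidef) {t : ℝ}
    (ht : M.trace = (t : ℂ)) :
    Real.negMulLog t + t * ∑ i, f (mpop M i / t) ≤ vnEntropy (Ψ M) := by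
  have ht0 : 0 ≤ t := by
    have := hM.trace_nonneg
    rw [ht] at this
    exact_mod_cast this
  rcases ht0.eq_or_lt with rfl | htp
  · have hM0 : M = 0 := by
      rw [← hM.trace_eq_zero_iff, ht]; simp
    subst hM0
    have : Ψ 0 = 0 := hΨ.1.map_zero
    rw [this, vnEntropy_zero]
    simp
  · have hc : (0 : ℂ) ≤ ((t⁻¹ : ℝ) : ℂ) := by
      exact_mod_cast (inv_pos.2 htp).le
    have hρ : IsDensity (((t⁻¹ : ℝ) : ℂ) • M) := by
      refine ⟨hM.smul hc, ?_⟩
      rw [trace_smul, ht, smul_eq_mul, ← Complex.ofReal_mul, inv_mul_cancel₀ htp.ne',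
        Complex.ofReal_one]
    have h1 := IH _ hρ
    have h2 : Ψ M = (t : ℂ) • Ψ (((t⁻¹ : ℝ) : ℂ) • M) := by
      rw [hΨ.1.map_smul, smul_smul, ← Complex.ofReal_mul, mul_inv_cancel₀ htp.ne',
        Complex.ofReal_one, one_smul]
    have h3 : (Ψ (((t⁻¹ : ℝ) : ℂ) • M)).PosSemidef := psd_of_cp hΨ.2.1 hρ.1
    have h4 : (Ψ (((t⁻¹ : ℝ) : ℂ) • M)).trace = 1 := by rw [hΨ.2.2, hρ.2]
    rw [h2, vnEntropy_smul h3 htp.le, h4, Complex.one_re, mul_one]
    simp_rw [mpop_smul] at h1
    have h5 : ∀ i, t⁻¹ * mpop M i = mpop M i / t := fun i => by rw [div_eq_inv_mul]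
    simp_rw [h5] at h1
    have := mul_le_mul_of_nonneg_left h1 htp.le
    linarith

theorem qp_entropy_lower (hγ : γ ∈ Set.Icc (0 : ℝ) 1) (hν : ν ∈ Set.Icc (0 : ℝ) 1)
    (hK : KeyIneq γ ν) (hconv : ConvexOn ℝ (Set.Icc 0 1) (fOut γ ν)) :
    ∀ (n : ℕ) (ρ : Matrix (Fin n → Bool) (Fin n → Bool) ℂ), IsDensity ρ →
      ∑ i, fOut γ ν (mpop ρ i) ≤ vnEntropy (qubitPower n (gadMap γ ν) ρ) := by
  intro n
  induction n with
  | zero =>
    intro ρ hρ
    have hc := qubitPower_isChannel hγ hν 0
    simp only [Finset.univ_eq_empty, Finset.sum_empty]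
    exact vnEntropy_nonneg (psd_of_cp hc.2.1 hρ.1) (by rw [hc.2.2, hρ.2])
  | succ n IH =>
    intro ρ hρ
    have hc := qubitPower_isChannel hγ hν n
    set Ψ := qubitPower n (gadMap γ ν) with hΨdef
    set ρ' := ρ.submatrix (splitBits n).symm (splitBits n).symm with hρ'
    have hρ'P : ρ'.PosSemidef := hρ.1.submatrix _
    have hρ'1 : ρ'.trace = 1 := by
      rw [← hρ.2, hρ']
      simp only [Matrix.trace, diag_apply, submatrix_apply]
      exact Equiv.sum_comp (splitBits n).symm (fun x => ρ x x)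
    have hA := block_posSemidef hρ'P false
    have hC := block_posSemidef hρ'P true
    -- the output
    have hblk := fromBlocks_cp hc.2.1 hρ'P
    have hBt := cp_block_conj hc.2.1 hρ'P
    set A := Ψ (block ρ' false false) with hAdef
    set B := Ψ (block ρ' false true) with hBdef
    set C := Ψ (block ρ' true true) with hCdef
    rw [hBt] at hblk
    have htr : A.trace + C.trace = 1 := by
      rw [hAdef, hCdef, hc.2.2, hc.2.2, trace_block_add, hρ'1]
    have hkey := hK (Fin n → Bool) A B C hblk htr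
    have hout : vnEntropy (qubitPower (n + 1) (gadMap γ ν) ρ)
        = vnEntropy (gadBlocks γ ν A B Bᴴ C) := by
      have hch := qubitPower_isChannel hγ hν (n + 1)
      rw [qubitPower_succ, ← hρ', ← hΨdef]
      have e1 : qubitTensor (gadMap γ ν) Ψ ρ' = (gadBlocks γ ν A B Bᴴ C).submatrix
          (Equiv.boolProdEquivSum _) (Equiv.boolProdEquivSum _) := by
        rw [qubitTensor_gad, ← hBt]
      have hP : (qubitPower (n + 1) (gadMap γ ν) ρ).PosSemidef := psd_of_cp hch.2.1 hρ.1
      rw [qubitPower_succ, ← hρ', ← hΨdef, e1] at hP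
      have hP2 : (gadBlocks γ ν A B Bᴴ C).PosSemidef := by
        have h1 := hP.submatrix (splitBits n).symm
        have h2 := h1.submatrix (Equiv.boolProdEquivSum (Fin n → Bool)).symm
        convert h2 using 1
        ext i j
        rcases i with i | i <;> rcases j with j | j <;> simp [Equiv.boolProdEquivSum]
      rw [e1, vnEntropy_submatrix (hP2.submatrix _), vnEntropy_submatrix hP2]
    -- traces
    set p := (block ρ' true true).trace.re with hp
    have hCtr : (block ρ' true true).trace = (p : ℂ) := by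
      have := hC.trace_nonneg
      rw [hp]
      exact (Complex.ext rfl (by simpa using (Complex.le_def.1 this).2.symm))
    have hAtr : (block ρ' false false).trace = ((1 - p : ℝ) : ℂ) := by
      have := trace_block_add (ρ := ρ')
      rw [hρ'1, hCtr] at this
      push_cast
      exact eq_sub_of_add_eq this
    have hp0 : 0 ≤ p := by
      have := hC.trace_nonneg
      rw [hCtr] at this
      exact_mod_cast this
    have hp1 : p ≤ 1 := by
      have := hA.trace_nonneg
      rw [hAtr] at this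
      have h2 : 0 ≤ 1 - p := by exact_mod_cast this
      linarith
    have hCt : C.trace.re = p := by rw [hCdef, hc.2.2, hCtr, Complex.ofReal_re]
    rw [hCt] at hkey
    have hSA := unnorm hc IH hA hAtr
    have hSC := unnorm hc IH hC hCtr
    rw [hout]
    refine le_trans ?_ hkey
    rw [Fin.sum_univ_succ, mpop_zero_eq, ← hρ', ← hp,
      Real.binEntropy_eq_negMulLog_add_negMulLog_one_sub]
    have hpersp : ∑ i : Fin n, fOut γ ν (mpop ρ i.succ)
        ≤ (1 - p) * ∑ i, fOut γ ν (mpop (block ρ' false false) i / (1 - p))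
          + p * ∑ i, fOut γ ν (mpop (block ρ' true true) i / p) := by
      rw [Finset.mul_sum, Finset.mul_sum, ← Finset.sum_add_distrib]
      refine Finset.sum_le_sum fun i _ => ?_
      rw [mpop_succ_eq, ← hρ']
      refine convex_persp hconv hp0 hp1 (mpop_nonneg hA i) ?_ (mpop_nonneg hC i) ?_
      · have := mpop_le_trace hA i
        rwa [hAtr, Complex.ofReal_re] at this
      · have := mpop_le_trace hC i
        rwa [hCtr, Complex.ofReal_re] at this
    linarith

end lower

end Crest.Agent.R341
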