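import Crest.Agent.R341.Glue534
import Crest.Agent.R341.FConv

/-!
# Row 341: upper bound of S0534
-/

set_option autoImplicit false
set_option linter.unusedSectionVars false

namespace Crest.Agent.R341

open Crest.Quantum Crest.MathPhysics.AmpDamp Matrix
open scoped ComplexOrder

/-- transition probabilities of the diagonal -/
noncomputable def tco (γ ν : ℝ) (s s' : Bool) : ℝ :=
  if s' then (if s then 1 - γ + γ * ν else γ * (1 - ν)) else (if s then γ * ν else 1 - γ * ν)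

lemma tco_sum (γ ν : ℝ) (s' : Bool) : ∑ b, tco γ ν b s' = 1 := by
  cases s' <;> simp [tco] <;> ring

lemma qubitCoeff_gad_diag (γ ν : ℝ) (s s' t' : Bool) :
    qubitCoeff (gadMap γ ν) s s s' t' = if s' = t' then (tco γ ν s s' : ℂ) else 0 := by
  cases s <;> cases s' <;> cases t' <;>
    simp [qubitCoeff, gadMap_ff, gadMap_tt, tco, Matrix.single]

lemma qubitPower_diag (γ ν : ℝ) {n : ℕ} (M : Matrix (Fin n → Bool) (Fin n → Bool) ℂ)
    (σ : Fin n → Bool) :
    qubitPower n (gadMap γ ν) M σ σ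
      = ∑ σ' : Fin n → Bool, ((∏ i, tco γ ν (σ i) (σ' i) : ℝ) : ℂ) * M σ' σ' := by
  simp only [qubitPower, Matrix.of_apply, qubitCoeff_gad_diag]
  refine Finset.sum_congr rfl fun σ' _ => ?_
  rw [Finset.sum_eq_single σ']
  · simp
  · intro τ _ hτ
    obtain ⟨i, hi⟩ := Function.ne_iff.1 hτ
    rw [Finset.prod_eq_zero (Finset.mem_univ i) (by rw [if_neg (Ne.symm hi)]), zero_mul]
  · simp

lemma mpop_qubitPower (γ ν : ℝ) {n : ℕ} (M : Matrix (Fin n → Bool) (Fin n → Bool) ℂ)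
    (i : Fin n) :
    mpop (qubitPower n (gadMap γ ν) M) i = γ * ν * M.trace.re + (1 - γ) * mpop M i := by
  have h1 : ∀ σ : Fin n → Bool, (qubitPower n (gadMap γ ν) M σ σ).re
      = ∑ σ' : Fin n → Bool, (∏ i, tco γ ν (σ i) (σ' i)) * (M σ' σ').re := by
    intro σ
    rw [qubitPower_diag, Complex.re_sum]
    exact Finset.sum_congr rfl fun σ' _ => by rw [Complex.re_ofReal_mul]
  have h2 : mpop (qubitPower n (gadMap γ ν) M) i
      = ∑ σ' : Fin n → Bool, (∑ σ : Fin n → Bool,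
          (∏ j, tco γ ν (σ j) (σ' j)) * (if σ i then 1 else 0)) * (M σ' σ').re := by
    simp only [mpop, pop, h1]
    simp_rw [Finset.sum_mul]
    rw [Finset.sum_comm]
    refine Finset.sum_congr rfl fun σ _ => ?_
    split_ifs
    · exact Finset.sum_congr rfl fun σ' _ => by ring
    · simp
  have h3 : ∀ σ' : Fin n → Bool, (∑ σ : Fin n → Bool,
      (∏ j, tco γ ν (σ j) (σ' j)) * (if σ i then (1 : ℝ) else 0))
      = γ * ν + (1 - γ) * (if σ' i then 1 else 0) := by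
    intro σ'
    rw [sum_prod_mul_single (fun j b => tco γ ν b (σ' j)) i (fun b => if b then (1 : ℝ) else 0)
      (fun j => tco_sum γ ν (σ' j))]
    cases σ' i <;> simp [tco]
    ring
  rw [h2]
  simp_rw [h3]
  rw [← sum_diag_re, mpop, pop, Finset.mul_sum, Finset.mul_sum, ← Finset.sum_add_distrib]
  refine Finset.sum_congr rfl fun σ _ => ?_
  split_ifs <;> ring

lemma isDensity_avg {d : Type*} [Fintype d] {m : ℕ} {q : Fin m → ℝ}
    {ρ : Fin m → Matrix d d ℂ} (h : IsEnsemble q ρ) : IsDensity (∑ a, (q a : ℂ) • ρ a) := by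
  refine ⟨Matrix.posSemidef_sum _ fun a _ => (h.2.2 a).1.smul (by exact_mod_cast h.1 a), ?_⟩
  rw [trace_sum]
  simp_rw [trace_smul, (h.2.2 _).2, smul_eq_mul, mul_one]
  rw [← Complex.ofReal_sum, h.2.1, Complex.ofReal_one]

lemma linear_avg {d e : Type*} {m : ℕ}
    {Φ : Matrix d d ℂ → Matrix e e ℂ} (h : IsLinearMap ℂ Φ) (q : Fin m → ℝ)
    (ρ : Fin m → Matrix d d ℂ) :
    ∑ a, (q a : ℂ) • Φ (ρ a) = Φ (∑ a, (q a : ℂ) • ρ a) := by
  have := map_sum (h.mk' Φ) (fun a => (q a : ℂ) • ρ a) Finset.univ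
  simp only [IsLinearMap.mk'_apply] at this
  rw [this]
  exact Finset.sum_congr rfl fun a _ => (h.map_smul _ _).symm

theorem holevo_upper {γ ν : ℝ} (hγ : γ ∈ Set.Icc (0 : ℝ) 1) (hν : ν ∈ Set.Icc (0 : ℝ) 1)
    (hK : KeyIneq γ ν) (hconv : ConvexOn ℝ (Set.Icc 0 1) (fOut γ ν)) (n : ℕ) (hn : 1 ≤ n)
    (m : ℕ) (q : Fin m → ℝ) (ρ : Fin m → Matrix (Fin n → Bool) (Fin n → Bool) ℂ)
    (h : IsEnsemble q ρ) :
    ∃ p ∈ Set.Icc (0 : ℝ) 1, holevoInfo (qubitPower n (gadMap γ ν)) q ρ ≤ n * gadRate γ ν p := by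
  have hc := qubitPower_isChannel hγ hν n
  set Φ := qubitPower n (gadMap γ ν) with hΦ
  set R := ∑ a, (q a : ℂ) • ρ a with hR
  have hRd : IsDensity R := isDensity_avg h
  have hRp : ∀ i, mpop R i ∈ Set.Icc (0 : ℝ) 1 := fun i =>
    ⟨mpop_nonneg hRd.1 i, by have := mpop_le_trace hRd.1 i; rwa [hRd.2, Complex.one_re] at this⟩
  have hap : ∀ a i, mpop (ρ a) i ∈ Set.Icc (0 : ℝ) 1 := fun a i =>
    ⟨mpop_nonneg (h.2.2 a).1 i, by
      have := mpop_le_trace (h.2.2 a).1 i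
      rwa [(h.2.2 a).2, Complex.one_re] at this⟩
  have hRi : ∀ i, mpop R i = ∑ a, q a * mpop (ρ a) i := by
    intro i
    rw [hR, mpop_sum]
    exact Finset.sum_congr rfl fun a _ => mpop_smul _ _ _
  -- entropy of the average
  have h1 : vnEntropy (∑ a, (q a : ℂ) • Φ (ρ a))
      ≤ ∑ i, Real.binEntropy ((1 - γ) * mpop R i + γ * ν) := by
    rw [linear_avg hc.1, ← hR]
    have h2 := vnEntropy_le_bits (psd_of_cp hc.2.1 hRd.1) (by rw [hc.2.2, hRd.2])
    refine h2.trans (le_of_eq (Finset.sum_congr rfl fun i _ => ?_))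
    have h3 := mpop_qubitPower γ ν R i
    rw [hRd.2, Complex.one_re] at h3
    rw [← hΦ] at h3
    change Real.binEntropy (mpop (Φ R) i) = _
    rw [h3]
    congr 1
    ring
  -- average of the entropies
  have h2 : ∑ i, fOut γ ν (mpop R i) ≤ ∑ a, q a * vnEntropy (Φ (ρ a)) := by
    have h3 : ∀ a, q a * ∑ i, fOut γ ν (mpop (ρ a) i) ≤ q a * vnEntropy (Φ (ρ a)) := fun a =>
      mul_le_mul_of_nonneg_left (qp_entropy_lower hγ hν hK hconv n (ρ a) (h.2.2 a)) (h.1 a)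
    refine le_trans ?_ (Finset.sum_le_sum fun a _ => h3 a)
    simp_rw [Finset.mul_sum]
    rw [Finset.sum_comm]
    refine Finset.sum_le_sum fun i _ => ?_
    have h4 := hconv.map_sum_le (t := Finset.univ) (w := q) (p := fun a => mpop (ρ a) i)
      (fun a _ => h.1 a) h.2.1 (fun a _ => hap a i)
    simp only [smul_eq_mul] at h4
    rw [hRi]
    exact h4
  have h3 : holevoInfo Φ q ρ ≤ ∑ i, gadRate γ ν (mpop R i) := by
    rw [holevoInfo]
    simp_rw [gadRate_eq]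
    rw [Finset.sum_sub_distrib]
    linarith
  have : Nonempty (Fin n) := ⟨⟨0, hn⟩⟩
  obtain ⟨i0, -, hi0⟩ := Finset.exists_max_image Finset.univ (fun i => gadRate γ ν (mpop R i))
    Finset.univ_nonempty
  refine ⟨mpop R i0, hRp i0, h3.trans ?_⟩
  have h4 := Finset.sum_le_card_nsmul Finset.univ (fun i => gadRate γ ν (mpop R i)) _
    (fun i hi => hi0 i hi)
  simpa using h4

end Crest.Agent.R341
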