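import Crest.Agent.R341.Glue534B

/-!
# Row 341: achievability in S0534
-/

set_option autoImplicit false
set_option linter.unusedSectionVars false

namespace Crest.Agent.R341

open Crest.Quantum Crest.MathPhysics.AmpDamp Matrix
open scoped ComplexOrder

/-- a linear map on one qubit through its transfer coefficients -/
lemma gadMap_coeff (γ ν : ℝ) (A : Matrix Bool Bool ℂ) (s t : Bool) :
    gadMap γ ν A s t = ∑ s', ∑ t', qubitCoeff (gadMap γ ν) s t s' t' * A s' t' := by
  cases s <;> cases t <;>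
    simp [qubitCoeff, gadMap_ff, gadMap_tt, gadMap_ft, gadMap_tf, Matrix.single] <;> ring

lemma qubitPower_prodMat (γ ν : ℝ) {n : ℕ} (A : Fin n → Matrix Bool Bool ℂ) :
    qubitPower n (gadMap γ ν) (prodMat A) = prodMat (fun i => gadMap γ ν (A i)) := by
  ext σ τ
  simp only [qubitPower, prodMat, Matrix.of_apply]
  simp_rw [← Finset.prod_mul_distrib]
  have h1 : ∀ i, gadMap γ ν (A i) (σ i) (τ i) = ∑ x ∈ (Finset.univ : Finset Bool),
      ∑ y ∈ (Finset.univ : Finset Bool),
      qubitCoeff (gadMap γ ν) (σ i) (τ i) x y * A i x y := fun i => gadMap_coeff γ ν (A i) _ _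
  simp_rw [h1]
  rw [Finset.prod_univ_sum, Fintype.piFinset_univ]
  refine Finset.sum_congr rfl fun σ' _ => ?_
  rw [Finset.prod_univ_sum, Fintype.piFinset_univ]

/-- the pure qubit states with excited population `p` and real coherence of both signs -/
noncomputable def psi (p : ℝ) (b : Bool) : Matrix Bool Bool ℂ :=
  Matrix.of fun s t =>
    if s = t then (if s then (p : ℂ) else ((1 - p : ℝ) : ℂ))
    else (((if b then 1 else -1) * Real.sqrt (p * (1 - p)) : ℝ) : ℂ)

lemma psi_trace (p : ℝ) (b : Bool) : (psi p b).trace = 1 := by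
  simp [psi, Matrix.trace]

lemma psi_posSemidef {p : ℝ} (hp : p ∈ Set.Icc (0 : ℝ) 1) (b : Bool) : (psi p b).PosSemidef := by
  set v : Bool → ℂ := fun s => if s then (((if b then 1 else -1) * Real.sqrt p : ℝ) : ℂ)
    else ((Real.sqrt (1 - p) : ℝ) : ℂ) with hv
  have h : psi p b = Matrix.vecMulVec v (star v) := by
    have hs : Real.sqrt (p * (1 - p)) = Real.sqrt p * Real.sqrt (1 - p) :=
      Real.sqrt_mul hp.1 _
    have h1 : (Real.sqrt p : ℂ) * (Real.sqrt p : ℂ) = p := by
      rw [← Complex.ofReal_mul, Real.mul_self_sqrt hp.1]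
    have h2 : (Real.sqrt (1 - p) : ℂ) * (Real.sqrt (1 - p) : ℂ) = 1 - p := by
      rw [← Complex.ofReal_mul, Real.mul_self_sqrt (by linarith [hp.2])]
      push_cast
      ring
    ext s t
    cases b <;> cases s <;> cases t <;>
      simp [psi, hv, Matrix.vecMulVec, hs, h1, h2] <;> ring
  rw [h]
  exact Matrix.posSemidef_vecMulVec_self_star v

lemma gad_psi_trace (γ ν p : ℝ) (b : Bool) : (gadMap γ ν (psi p b)).trace = 1 := by
  rw [Matrix.trace, Fintype.sum_bool, diag_apply, diag_apply, gadMap_ff, gadMap_tt]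
  simp [psi]
  ring

lemma gad_psi_det {γ ν p : ℝ} (hγ : γ ∈ Set.Icc (0 : ℝ) 1) (hp : p ∈ Set.Icc (0 : ℝ) 1)
    (b : Bool) :
    (gadMap γ ν (psi p b)).det.re = vOut γ ν p := by
  have hdet : (gadMap γ ν (psi p b)).det
      = gadMap γ ν (psi p b) false false * gadMap γ ν (psi p b) true true
        - gadMap γ ν (psi p b) false true * gadMap γ ν (psi p b) true false := by
    rw [← Matrix.det_submatrix_equiv_self finTwoEquiv, Matrix.det_fin_two]
    rfl
  have h1 : Real.sqrt (1 - γ) * Real.sqrt (1 - γ) = 1 - γ :=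
    Real.mul_self_sqrt (by linarith [hγ.2])
  have h2 : Real.sqrt (p * (1 - p)) * Real.sqrt (p * (1 - p)) = p * (1 - p) :=
    Real.mul_self_sqrt (mul_nonneg hp.1 (by linarith [hp.2]))
  have h3 : (gadMap γ ν (psi p b)).det = ((vOut γ ν p : ℝ) : ℂ) := by
    rw [hdet, gadMap_ff, gadMap_tt, gadMap_ft, gadMap_tf]
    have h4 : psi p b false true * psi p b true false = ((p * (1 - p) : ℝ) : ℂ) := by
      have : psi p b false true * psi p b true false
          = ((((if b then 1 else -1) * (if b then 1 else -1)) *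
              (Real.sqrt (p * (1 - p)) * Real.sqrt (p * (1 - p))) : ℝ) : ℂ) := by
        have e1 : psi p b false true
            = (((if b then 1 else -1) * Real.sqrt (p * (1 - p)) : ℝ) : ℂ) := by
          simp only [psi, Matrix.of_apply]
          rfl
        have e2 : psi p b true false
            = (((if b then 1 else -1) * Real.sqrt (p * (1 - p)) : ℝ) : ℂ) := by
          simp only [psi, Matrix.of_apply]
          rfl
        rw [e1, e2]
        push_cast
        ring
      rw [this, h2]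
      cases b <;> simp
    have h5 : (((Real.sqrt (1 - γ) : ℝ) : ℂ) * psi p b false true)
        * (((Real.sqrt (1 - γ) : ℝ) : ℂ) * psi p b true false)
        = ((((1 - γ) * (p * (1 - p))) : ℝ) : ℂ) := by
      rw [mul_mul_mul_comm, h4, ← Complex.ofReal_mul, h1, ← Complex.ofReal_mul]
    rw [h5]
    simp only [psi, Matrix.of_apply, if_true, vOut]
    simp only [Bool.false_eq_true, if_false]
    push_cast
    ring
  rw [h3, Complex.ofReal_re]

lemma gad_psi_entropy {γ ν p : ℝ} (hγ : γ ∈ Set.Icc (0 : ℝ) 1) (hν : ν ∈ Set.Icc (0 : ℝ) 1)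
    (hp : p ∈ Set.Icc (0 : ℝ) 1) (b : Bool) :
    vnEntropy (gadMap γ ν (psi p b)) = fOut γ ν p := by
  rw [vnEntropy_two (psd_of_cp (gadMap_isChannel hγ hν).2.1 (psi_posSemidef hp b))
    (gad_psi_trace γ ν p b), gad_psi_det hγ hp]
  rfl

theorem holevo_lower {γ ν : ℝ} (hγ : γ ∈ Set.Icc (0 : ℝ) 1) (hν : ν ∈ Set.Icc (0 : ℝ) 1)
    (n : ℕ) (p : ℝ) (hp : p ∈ Set.Icc (0 : ℝ) 1) :
    ∃ (m : ℕ) (q : Fin m → ℝ) (ρ : Fin m → Matrix (Fin n → Bool) (Fin n → Bool) ℂ),
      IsEnsemble q ρ ∧ n * gadRate γ ν p ≤ holevoInfo (qubitPower n (gadMap γ ν)) q ρ := by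
  set E := (Fintype.equivFin (Fin n → Bool)).symm with hE
  set R : (Fin n → Bool) → Matrix (Fin n → Bool) (Fin n → Bool) ℂ :=
    fun s => prodMat (fun i => psi p (s i)) with hR
  refine ⟨_, fun _ => ((2 : ℝ) ^ n)⁻¹, fun a => R (E a), ⟨?_, ?_, ?_⟩, ?_⟩
  · intro a; positivity
  · simp
  · intro a
    refine ⟨prodMat_posSemidef fun i => psi_posSemidef hp _, ?_⟩
    rw [hR]
    simp only
    rw [prodMat_trace]
    simp [psi_trace]
  · rw [holevoInfo]
    have h1 : ∀ s, qubitPower n (gadMap γ ν) (R s) = prodMat (fun i => gadMap γ ν (psi p (s i))) :=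
      fun s => qubitPower_prodMat γ ν _
    have hpsd : ∀ b, (gadMap γ ν (psi p b)).PosSemidef := fun b =>
      psd_of_cp (gadMap_isChannel hγ hν).2.1 (psi_posSemidef hp b)
    have h2 : ∀ s, vnEntropy (qubitPower n (gadMap γ ν) (R s)) = n * fOut γ ν p := by
      intro s
      rw [h1, vnEntropy_prodMat (fun i => hpsd _) (fun i => gad_psi_trace γ ν p _)]
      simp [gad_psi_entropy hγ hν hp]
    set x := (1 - γ) * p + γ * ν with hx
    set D : Matrix Bool Bool ℂ := diagonal fun b => ((if b then x else 1 - x : ℝ) : ℂ) with hD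
    have hD2 : ∀ s t, ∑ b, ((2 : ℝ)⁻¹ : ℂ) * gadMap γ ν (psi p b) s t = D s t := by
      intro s t
      rw [Fintype.sum_bool]
      cases s <;> cases t <;>
        simp [hD, gadMap_ff, gadMap_tt, gadMap_ft, gadMap_tf, psi, hx, diagonal] <;> ring
    have h3 : ∑ a, (((2 : ℝ) ^ n)⁻¹ : ℂ) • qubitPower n (gadMap γ ν) (R (E a))
        = prodMat (fun _ : Fin n => D) := by
      rw [Equiv.sum_comp E (fun s => (((2 : ℝ) ^ n)⁻¹ : ℂ) • qubitPower n (gadMap γ ν) (R s))]
      ext σ τ
      simp only [h1, Matrix.sum_apply, Matrix.smul_apply, smul_eq_mul]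
      simp only [prodMat, Matrix.of_apply]
      simp_rw [← hD2]
      rw [Finset.prod_univ_sum, Fintype.piFinset_univ]
      refine Finset.sum_congr rfl fun s _ => ?_
      rw [Finset.prod_mul_distrib]
      simp
    have hx01 : 0 ≤ x ∧ x ≤ 1 := by
      have a1 := hγ.1
      have a2 := hγ.2
      have b1 := hν.1
      have b2 := hν.2
      have c1 := hp.1
      have c2 := hp.2
      constructor
      · have := mul_nonneg (sub_nonneg.2 a2) c1
        have := mul_nonneg a1 b1
        linarith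
      · have := mul_nonneg (sub_nonneg.2 a2) (sub_nonneg.2 c2)
        have := mul_nonneg a1 (sub_nonneg.2 b2)
        rw [hx]
        nlinarith
    have hD0 : ∀ b : Bool, (0 : ℝ) ≤ (if b then x else 1 - x) := by
      intro b
      split_ifs
      · exact hx01.1
      · linarith [hx01.2]
    have hDp : D.PosSemidef := by
      rw [hD, posSemidef_diagonal_iff]
      intro b
      exact_mod_cast hD0 b
    have hDt : D.trace = 1 := by
      rw [hD, trace_diagonal, Fintype.sum_bool]
      simp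
    have hDe : vnEntropy D = Real.binEntropy x := by
      rw [hD, vnEntropy_diagonal hD0, Fintype.sum_bool,
        Real.binEntropy_eq_negMulLog_add_negMulLog_one_sub]
      simp
    simp only [h2]
    have h4 : ∑ a : Fin (Fintype.card (Fin n → Bool)),
        (((((2 : ℝ) ^ n)⁻¹ : ℝ)) : ℂ) • qubitPower n (gadMap γ ν) (R (E a))
        = prodMat (fun _ : Fin n => D) := by
      rw [← h3]
      push_cast
      rfl
    rw [h4, vnEntropy_prodMat (fun _ => hDp) (fun _ => hDt), ← Finset.sum_mul, gadRate_eq]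
    simp [hDe, hx]
    ring_nf
    rfl

/-- S0534, modulo the key inequality. -/
theorem s0534 {γ ν : ℝ} (hγ : γ ∈ Set.Icc (0 : ℝ) 1) (hν : ν ∈ Set.Icc (0 : ℝ) 1)
    (hK : KeyIneq γ ν) (n : ℕ) (hn : 1 ≤ n) :
    (∀ (m : ℕ) (q : Fin m → ℝ) (ρ : Fin m → Matrix (Fin n → Bool) (Fin n → Bool) ℂ),
        IsEnsemble q ρ → ∃ p ∈ Set.Icc (0 : ℝ) 1,
          holevoInfo (qubitPower n (gadMap γ ν)) q ρ ≤ n * gadRate γ ν p) ∧
    (∀ p ∈ Set.Icc (0 : ℝ) 1, ∃ (m : ℕ) (q : Fin m → ℝ)
        (ρ : Fin m → Matrix (Fin n → Bool) (Fin n → Bool) ℂ),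
        IsEnsemble q ρ ∧ n * gadRate γ ν p ≤ holevoInfo (qubitPower n (gadMap γ ν)) q ρ) :=
  ⟨fun m q ρ h => holevo_upper hγ hν hK (convexOn_fOut_aux hγ hν) n hn m q ρ h,
    fun p hp => holevo_lower hγ hν n p hp⟩

end Crest.Agent.R341
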