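import Crest.Agent.R341.Ent3
import Crest.Agent.R341.GlueA

set_option autoImplicit false

namespace Crest.Agent.R341

open Crest.Quantum Crest.MathPhysics.AmpDamp Matrix
open scoped ComplexOrder Kronecker

set_option linter.unusedSectionVars false

variable {d e : Type*} [Fintype d] [Fintype e] [DecidableEq d] [DecidableEq e]

/-! ### The qubit channel -/

lemma gadMap_linear (γ ν : ℝ) : IsLinearMap ℂ (gadMap γ ν) := by
  constructor
  · intro M N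
    ext s t
    cases s <;> cases t <;> simp [gadMap] <;> ring
  · intro c M
    ext s t
    cases s <;> cases t <;> simp [gadMap] <;> ring

lemma gadMap_tp (γ ν : ℝ) : IsTracePreserving (gadMap γ ν) := by
  intro M
  simp [Matrix.trace, gadMap]
  ring

lemma gadMap_isChan {γ ν : ℝ} (hγ : γ ∈ Set.Icc (0 : ℝ) 1) (hν : ν ∈ Set.Icc (0 : ℝ) 1) :
    IsChannel (gadMap γ ν) :=
  ⟨gadMap_linear γ ν, cp_of_kraus _ (gadMap_kraus hγ hν), gadMap_tp γ ν⟩

/-- a CP map sends PSD matrices to PSD matrices -/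
lemma cp_posSemidef {Ψ : Matrix d d ℂ → Matrix e e ℂ} (hΨ : IsCompletelyPositive Ψ)
    {ρ : Matrix d d ℂ} (hρ : ρ.PosSemidef) : (Ψ ρ).PosSemidef := by
  have h := hΨ 1 (ρ.submatrix Prod.snd Prod.snd) (hρ.submatrix _)
  have h2 := h.submatrix (fun i : e => ((0 : Fin 1), i))
  exact h2

lemma channel_density {Ψ : Matrix d d ℂ → Matrix e e ℂ} (hΨ : IsChannel Ψ)
    {ρ : Matrix d d ℂ} (hρ : IsDensity ρ) : IsDensity (Ψ ρ) :=
  ⟨cp_posSemidef hΨ.2.1 hρ.1, by rw [hΨ.2.2, hρ.2]⟩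

/-! ### The tensor product map -/

lemma qubitTensor_kraus {J : Type*} [Fintype J] (K : J → Matrix Bool Bool ℂ)
    {Φ : Matrix Bool Bool ℂ → Matrix Bool Bool ℂ} (h : ∀ M, Φ M = ∑ j, K j * M * (K j)ᴴ)
    (Ψ : Matrix d d ℂ → Matrix e e ℂ) (ρ : Matrix (Bool × d) (Bool × d) ℂ) :
    qubitTensor Φ Ψ ρ = ∑ j, (K j ⊗ₖ (1 : Matrix e e ℂ)) * blockwise Ψ ρ *
      (K j ⊗ₖ (1 : Matrix e e ℂ))ᴴ := by
  ext ⟨s, i⟩ ⟨t, l⟩
  simp only [qubitTensor, qubitCoeff, Matrix.of_apply, h, Matrix.sum_apply]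
  have h1 : ∀ j s' t', (K j * Matrix.single s' t' (1 : ℂ) * (K j)ᴴ) s t
      = K j s s' * star (K j t t') := by
    intro j s' t'
    simp [Matrix.mul_apply, Matrix.single_apply, Matrix.conjTranspose_apply]
    cases s' <;> cases t' <;> simp
  simp_rw [h1]
  have h2 : ∀ j, ((K j ⊗ₖ (1 : Matrix e e ℂ)) * blockwise Ψ ρ *
      (K j ⊗ₖ (1 : Matrix e e ℂ))ᴴ) (s, i) (t, l)
      = ∑ s', ∑ t', K j s s' * star (K j t t') * (blockwise Ψ ρ (s', i) (t', l)) := by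
    intro j
    simp only [Matrix.mul_apply, Fintype.sum_prod_type, Matrix.kroneckerMap_apply,
      Matrix.conjTranspose_apply, Matrix.one_apply, mul_ite, ite_mul, mul_one, mul_zero,
      zero_mul, Finset.sum_ite_eq, Finset.mem_univ, if_true, apply_ite star, star_zero]
    rw [Finset.sum_comm]
    refine Finset.sum_congr rfl fun t' _ => ?_
    rw [Finset.sum_mul]
    refine Finset.sum_congr rfl fun s' _ => ?_
    ring
  simp_rw [h2]
  simp_rw [Finset.sum_mul]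
  rw [Finset.sum_congr rfl fun s' _ => Finset.sum_comm]
  rw [Finset.sum_comm]
  rfl

lemma gadTensor_posSemidef {γ ν : ℝ} (hγ : γ ∈ Set.Icc (0 : ℝ) 1) (hν : ν ∈ Set.Icc (0 : ℝ) 1)
    {Ψ : Matrix d d ℂ → Matrix e e ℂ} (hΨ : IsCompletelyPositive Ψ)
    {ρ : Matrix (Bool × d) (Bool × d) ℂ} (hρ : ρ.PosSemidef) :
    (qubitTensor (gadMap γ ν) Ψ ρ).PosSemidef := by
  rw [qubitTensor_kraus _ (gadMap_kraus hγ hν)]
  exact Matrix.posSemidef_sum _ fun j _ =>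
    (blockwise_bool_posSemidef hΨ hρ).mul_mul_conjTranspose_same _

lemma block_gadTensor_ff (γ ν : ℝ) (Ψ : Matrix d d ℂ → Matrix e e ℂ)
    (ρ : Matrix (Bool × d) (Bool × d) ℂ) :
    block (qubitTensor (gadMap γ ν) Ψ ρ) false false =
      ((1 - γ * ν : ℝ) : ℂ) • Ψ (block ρ false false) +
        ((γ * (1 - ν) : ℝ) : ℂ) • Ψ (block ρ true true) := by
  rw [qubitTensor_gad]
  ext i j
  simp [block, gadBlocks, Equiv.boolProdEquivSum]

lemma block_gadTensor_tt (γ ν : ℝ) (Ψ : Matrix d d ℂ → Matrix e e ℂ)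
    (ρ : Matrix (Bool × d) (Bool × d) ℂ) :
    block (qubitTensor (gadMap γ ν) Ψ ρ) true true =
      ((γ * ν : ℝ) : ℂ) • Ψ (block ρ false false) +
        ((1 - γ + γ * ν : ℝ) : ℂ) • Ψ (block ρ true true) := by
  rw [qubitTensor_gad]
  ext i j
  simp [block, gadBlocks, Equiv.boolProdEquivSum]

lemma ptrL_eq_blocks (M : Matrix (Bool × e) (Bool × e) ℂ) :
    ptrL M = block M false false + block M true true := by
  ext i j
  simp [ptrL, block, add_comm]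

lemma ptrL_gadTensor (γ ν : ℝ) (Ψ : Matrix d d ℂ → Matrix e e ℂ)
    (ρ : Matrix (Bool × d) (Bool × d) ℂ) :
    ptrL (qubitTensor (gadMap γ ν) Ψ ρ) = Ψ (block ρ false false) + Ψ (block ρ true true) := by
  rw [ptrL_eq_blocks, block_gadTensor_ff, block_gadTensor_tt]
  ext i j
  simp
  ring

lemma gadTensor_trace (γ ν : ℝ) {Ψ : Matrix d d ℂ → Matrix e e ℂ} (hΨ : IsTracePreserving Ψ)
    (ρ : Matrix (Bool × d) (Bool × d) ℂ) :
    (qubitTensor (gadMap γ ν) Ψ ρ).trace = ρ.trace := by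
  rw [← ptrL_trace, ptrL_gadTensor, Matrix.trace_add, hΨ, hΨ, trace_block_add]

lemma gadTensor_density {γ ν : ℝ} (hγ : γ ∈ Set.Icc (0 : ℝ) 1) (hν : ν ∈ Set.Icc (0 : ℝ) 1)
    {Ψ : Matrix d d ℂ → Matrix e e ℂ} (hΨ : IsChannel Ψ)
    {ρ : Matrix (Bool × d) (Bool × d) ℂ} (hρ : IsDensity ρ) :
    IsDensity (qubitTensor (gadMap γ ν) Ψ ρ) :=
  ⟨gadTensor_posSemidef hγ hν hΨ.2.1 hρ.1, by rw [gadTensor_trace _ _ hΨ.2.2, hρ.2]⟩

lemma qubitTensor_kron (γ ν : ℝ) {Ψ : Matrix d d ℂ → Matrix e e ℂ} (hΨ : IsLinearMap ℂ Ψ)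
    (ρ : Matrix Bool Bool ℂ) (σ : Matrix d d ℂ) :
    qubitTensor (gadMap γ ν) Ψ (ρ ⊗ₖ σ) = gadMap γ ν ρ ⊗ₖ Ψ σ := by
  have h1 : ∀ s t, block (ρ ⊗ₖ σ) s t = ρ s t • σ := by
    intro s t
    ext i j
    simp [block]
  rw [qubitTensor_gad]
  simp only [h1, hΨ.map_smul]
  ext ⟨s, i⟩ ⟨t, j⟩
  cases s <;> cases t <;>
    simp [gadBlocks, Equiv.boolProdEquivSum, gadMap] <;> ring

end Crest.Agent.R341
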