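import Crest.Agent.R341.GlueB

set_option autoImplicit false

namespace Crest.Agent.R341

open Crest.Quantum Crest.MathPhysics.AmpDamp Matrix
open scoped ComplexOrder Kronecker

set_option linter.unusedSectionVars false

variable {d e : Type*} [Fintype d] [Fintype e] [DecidableEq d] [DecidableEq e]

/-! ### qubit entropies -/

lemma vnEntropy_qubit {M : Matrix Bool Bool ℂ} (hM : IsDensity M) :
    vnEntropy M = Real.binEntropy ((1 + Real.sqrt (1 - 4 * M.det.re)) / 2) := by
  have hH := hM.1.1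
  rw [vnEntropy_def hH]
  have htr : hH.eigenvalues true + hH.eigenvalues false = 1 := by
    have h := hH.trace_eq_sum_eigenvalues
    rw [hM.2] at h
    simp at h
    exact_mod_cast h.symm
  have hdet : M.det.re = hH.eigenvalues true * hH.eigenvalues false := by
    have h := hH.det_eq_prod_eigenvalues
    rw [h]
    simp
  rw [Fintype.sum_bool, hdet]
  have hx : hH.eigenvalues false = 1 - hH.eigenvalues true := by linarith
  set x := hH.eigenvalues true with hxdef
  rw [hx]
  have h1 : 1 - 4 * (x * (1 - x)) = (2 * x - 1) ^ 2 := by ring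
  rw [h1, Real.sqrt_sq_eq_abs, ← Real.binEntropy_eq_negMulLog_add_negMulLog_one_sub]
  rcases le_total 0 (2 * x - 1) with h | h
  · rw [abs_of_nonneg h]
    congr 1
    ring
  · rw [abs_of_nonpos h, ← Real.binEntropy_one_sub]
    congr 1
    ring

/-- the real amplitude vector of the pure qubit state with excited population `p` -/
noncomputable def pureVec (p : ℝ) (b : Bool) : Bool → ℂ := fun s =>
  if s then (if b then ((Real.sqrt p : ℝ) : ℂ) else ((-Real.sqrt p : ℝ) : ℂ))
    else ((Real.sqrt (1 - p) : ℝ) : ℂ)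

/-- the pure qubit state with excited population `p`, phase `±1` -/
noncomputable def pureQ (p : ℝ) (b : Bool) : Matrix Bool Bool ℂ :=
  Matrix.vecMulVec (pureVec p b) (star (pureVec p b))

lemma pureQ_ff {p : ℝ} (hp : p ∈ Set.Icc (0 : ℝ) 1) (b : Bool) :
    pureQ p b false false = ((1 - p : ℝ) : ℂ) := by
  simp only [pureQ, pureVec, Matrix.vecMulVec_apply, Pi.star_apply]
  simp only [Bool.false_eq_true, if_false, Complex.star_def, Complex.conj_ofReal]
  rw [← Complex.ofReal_mul, Real.mul_self_sqrt (by linarith [hp.2])]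

lemma pureQ_tt {p : ℝ} (hp : p ∈ Set.Icc (0 : ℝ) 1) (b : Bool) :
    pureQ p b true true = ((p : ℝ) : ℂ) := by
  simp only [pureQ, pureVec, Matrix.vecMulVec_apply, Pi.star_apply, if_true]
  cases b
  · simp only [Bool.false_eq_true, if_false, Complex.star_def, Complex.conj_ofReal]
    rw [← Complex.ofReal_mul, neg_mul_neg, Real.mul_self_sqrt hp.1]
  · simp only [if_true, Complex.star_def, Complex.conj_ofReal]
    rw [← Complex.ofReal_mul, Real.mul_self_sqrt hp.1]

/-- the sign attached to a bit -/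
noncomputable def sgnB (b : Bool) : ℝ := if b then 1 else -1

lemma pureQ_ft (p : ℝ) (b : Bool) :
    pureQ p b false true = ((sgnB b * (Real.sqrt (1 - p) * Real.sqrt p) : ℝ) : ℂ) := by
  simp only [pureQ, pureVec, Matrix.vecMulVec_apply, Pi.star_apply, if_true, sgnB]
  cases b <;>
  simp

lemma pureQ_tf (p : ℝ) (b : Bool) :
    pureQ p b true false = ((sgnB b * (Real.sqrt (1 - p) * Real.sqrt p) : ℝ) : ℂ) := by
  simp only [pureQ, pureVec, Matrix.vecMulVec_apply, Pi.star_apply, if_true, sgnB]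
  cases b <;>
  simp [mul_comm]

lemma pureQ_density {p : ℝ} (hp : p ∈ Set.Icc (0 : ℝ) 1) (b : Bool) : IsDensity (pureQ p b) := by
  refine ⟨Matrix.posSemidef_vecMulVec_self_star _, ?_⟩
  rw [Matrix.trace]
  simp only [Matrix.diag_apply, Fintype.sum_bool, pureQ_ff hp, pureQ_tt hp]
  push_cast
  ring

lemma vnEntropy_gad_pureQ {γ ν p : ℝ} (hγ : γ ∈ Set.Icc (0 : ℝ) 1) (hν : ν ∈ Set.Icc (0 : ℝ) 1)
    (hp : p ∈ Set.Icc (0 : ℝ) 1) (b : Bool) :
    vnEntropy (gadMap γ ν (pureQ p b)) = fOut γ ν p := by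
  rw [vnEntropy_qubit (channel_density (gadMap_isChan hγ hν) (pureQ_density hp b)), fOut]
  have h : (gadMap γ ν (pureQ p b)).det = ((vOut γ ν p : ℝ) : ℂ) := by
    have hdet : ∀ M : Matrix Bool Bool ℂ,
        M.det = M false false * M true true - M false true * M true false := by
      intro M
      rw [← Matrix.det_submatrix_equiv_self finTwoEquiv, Matrix.det_fin_two]
      simp [finTwoEquiv]
    rw [hdet, gadMap_ff, gadMap_tt, gadMap_ft, gadMap_tf, pureQ_ff hp, pureQ_tt hp, pureQ_ft,
      pureQ_tf]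
    norm_cast
    have h1 : Real.sqrt (1 - γ) * (sgnB b * (Real.sqrt (1 - p) * Real.sqrt p)) *
        (Real.sqrt (1 - γ) * (sgnB b * (Real.sqrt (1 - p) * Real.sqrt p)))
        = (1 - γ) * ((1 - p) * p) := by
      have s1 : Real.sqrt (1 - γ) * Real.sqrt (1 - γ) = 1 - γ :=
        Real.mul_self_sqrt (by linarith [hγ.2])
      have s2 : Real.sqrt (1 - p) * Real.sqrt (1 - p) = 1 - p :=
        Real.mul_self_sqrt (by linarith [hp.2])
      have s3 : Real.sqrt p * Real.sqrt p = p := Real.mul_self_sqrt hp.1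
      have s4 : sgnB b * sgnB b = 1 := by cases b <;> simp [sgnB]
      calc _ = (Real.sqrt (1 - γ) * Real.sqrt (1 - γ)) * (sgnB b * sgnB b) *
            ((Real.sqrt (1 - p) * Real.sqrt (1 - p)) * (Real.sqrt p * Real.sqrt p)) := by ring
        _ = _ := by rw [s1, s2, s3, s4]; ring
    rw [h1, vOut]
    ring
  rw [h, Complex.ofReal_re]

/-! ### ensembles on arbitrary finite index types -/

/-- an ensemble indexed by an arbitrary finite type can be reindexed by `Fin m` -/
lemma exists_fin_ensemble {ι : Type*} [Fintype ι] {q : ι → ℝ} {ρ : ι → Matrix d d ℂ}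
    (hq : ∀ a, 0 ≤ q a) (hq1 : ∑ a, q a = 1) (hρ : ∀ a, IsDensity (ρ a)) :
    ∃ (m : ℕ) (q' : Fin m → ℝ) (ρ' : Fin m → Matrix d d ℂ), IsEnsemble q' ρ' ∧
      ∀ (Φ : Matrix d d ℂ → Matrix e e ℂ), holevoInfo Φ q' ρ' =
        vnEntropy (∑ a, (q a : ℂ) • Φ (ρ a)) - ∑ a, q a * vnEntropy (Φ (ρ a)) := by
  classical
  refine ⟨Fintype.card ι, q ∘ (Fintype.equivFin ι).symm, ρ ∘ (Fintype.equivFin ι).symm,
    ⟨fun a => hq _, ?_, fun a => hρ _⟩, ?_⟩
  · rw [← hq1]
    exact (Fintype.equivFin ι).symm.sum_comp q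
  · intro Φ
    rw [holevoInfo]
    congr 1
    · congr 1
      exact (Fintype.equivFin ι).symm.sum_comp (fun a => (q a : ℂ) • Φ (ρ a))
    · exact (Fintype.equivFin ι).symm.sum_comp (fun a => q a * vnEntropy (Φ (ρ a)))

/-! ### conditional states of the second system -/

/-- normalise a PSD matrix; for the zero matrix any density matrix will do -/
lemma exists_normalize [Nonempty d] {A : Matrix d d ℂ} (hA : A.PosSemidef) :
    ∃ σ : Matrix d d ℂ, IsDensity σ ∧ A = ((A.trace.re : ℝ) : ℂ) • σ ∧ 0 ≤ A.trace.re := by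
  have htr : 0 ≤ A.trace := hA.trace_nonneg
  have htr' : A.trace = ((A.trace.re : ℝ) : ℂ) := by
    have := (Complex.le_def.1 htr).2
    apply Complex.ext
    · simp
    · simpa using this.symm
  have h0 : 0 ≤ A.trace.re := (Complex.le_def.1 htr).1
  rcases h0.eq_or_lt with h | h
  · have hA0 : A = 0 := by
      rw [← hA.trace_eq_zero_iff, htr', ← h]
      simp
    obtain ⟨i⟩ := (inferInstance : Nonempty d)
    refine ⟨Matrix.diagonal (fun j => if j = i then 1 else 0), ⟨?_, ?_⟩, ?_, h0⟩
    · rw [posSemidef_diagonal_iff]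
      intro j
      split_ifs <;> simp
    · simp [Matrix.trace_diagonal]
    · rw [← h, hA0]
      simp
  · refine ⟨((A.trace.re : ℝ) : ℂ)⁻¹ • A, ⟨?_, ?_⟩, ?_, h0⟩
    · refine hA.smul ?_
      rw [← Complex.ofReal_inv]
      exact_mod_cast (inv_nonneg.2 h0)
    · rw [Matrix.trace_smul, smul_eq_mul]
      nth_rw 2 [htr']
      rw [inv_mul_cancel₀]
      exact_mod_cast h.ne'
    · rw [smul_smul, mul_inv_cancel₀, one_smul]
      exact_mod_cast h.ne'

end Crest.Agent.R341
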