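import Crest.Agent.R341.GlueC

set_option autoImplicit false

namespace Crest.Agent.R341

open Crest.Quantum Crest.MathPhysics.AmpDamp Matrix
open scoped ComplexOrder Kronecker

set_option linter.unusedSectionVars false

section Superadditivity

variable {γ ν : ℝ} {d e : Type} [Fintype d] [Fintype e] [DecidableEq d] [DecidableEq e]

/-- strong superadditivity, block form -/
lemma superadd_blocks (hγ : γ ∈ Set.Icc (0 : ℝ) 1) (hν : ν ∈ Set.Icc (0 : ℝ) 1)
    (hkey : KeyIneq γ ν) {Ψ : Matrix d d ℂ → Matrix e e ℂ} (hΨ : IsChannel Ψ)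
    {ρ : Matrix (Bool × d) (Bool × d) ℂ} (hρ : IsDensity ρ) :
    vnEntropy (Ψ (block ρ false false)) + vnEntropy (Ψ (block ρ true true)) +
      fOut γ ν (block ρ true true).trace.re - Real.binEntropy (block ρ true true).trace.re ≤
      vnEntropy (qubitTensor (gadMap γ ν) Ψ ρ) := by
  have hB := fromBlocks_cp hΨ.2.1 hρ.1
  have hQ := gadTensor_posSemidef hγ hν hΨ.2.1 hρ.1
  have hc := cp_block_conj hΨ.2.1 hρ.1
  rw [qubitTensor_gad] at hQ ⊢
  rw [hc] at hB hQ ⊢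
  have hM := hQ.submatrix (Equiv.boolProdEquivSum e).symm
  rw [Matrix.submatrix_submatrix] at hM
  simp only [Equiv.self_comp_symm, Matrix.submatrix_id_id] at hM
  rw [vnEntropy_submatrix hM]
  have h := hkey e _ _ _ hB (by rw [hΨ.2.2, hΨ.2.2, trace_block_add, hρ.2])
  rw [hΨ.2.2] at h
  exact h

/-- strong superadditivity: every density matrix on qubit × d yields conditional states -/
lemma superadd [Nonempty d] (hγ : γ ∈ Set.Icc (0 : ℝ) 1) (hν : ν ∈ Set.Icc (0 : ℝ) 1)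
    (hkey : KeyIneq γ ν) {Ψ : Matrix d d ℂ → Matrix e e ℂ} (hΨ : IsChannel Ψ)
    {ρ : Matrix (Bool × d) (Bool × d) ℂ} (hρ : IsDensity ρ) :
    ∃ (p : ℝ) (σ : Bool → Matrix d d ℂ), p ∈ Set.Icc (0 : ℝ) 1 ∧ (∀ b, IsDensity (σ b)) ∧
      block ρ false false = ((1 - p : ℝ) : ℂ) • σ false ∧
      block ρ true true = ((p : ℝ) : ℂ) • σ true ∧
      fOut γ ν p + ((1 - p) * vnEntropy (Ψ (σ false)) + p * vnEntropy (Ψ (σ true))) ≤
        vnEntropy (qubitTensor (gadMap γ ν) Ψ ρ) := by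
  have h := superadd_blocks hγ hν hkey hΨ hρ
  obtain ⟨σ0, h0d, h0, h0n⟩ := exists_normalize (block_posSemidef hρ.1 false)
  obtain ⟨σ1, h1d, h1, h1n⟩ := exists_normalize (block_posSemidef hρ.1 true)
  have htr : (block ρ false false).trace.re = 1 - (block ρ true true).trace.re := by
    have h2 := congrArg Complex.re (trace_block_add (ρ := ρ))
    rw [hρ.2] at h2
    simp at h2
    linarith
  set p := (block ρ true true).trace.re with hp
  rw [htr] at h0 h0n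
  refine ⟨p, fun b => if b then σ1 else σ0, ⟨h1n, by linarith⟩, ?_, by simpa using h0,
    by simpa using h1, ?_⟩
  · intro b
    cases b
    · simpa using h0d
    · simpa using h1d
  · simp only [if_true, Bool.false_eq_true, if_false]
    rw [h0, h1, hΨ.1.map_smul, hΨ.1.map_smul,
      vnEntropy_smul (channel_density hΨ h0d).1 h0n, vnEntropy_smul (channel_density hΨ h1d).1 h1n,
      (channel_density hΨ h0d).2, (channel_density hΨ h1d).2,
      Real.binEntropy_eq_negMulLog_add_negMulLog_one_sub] at h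
    simp only [Complex.one_re, mul_one] at h
    linarith

end Superadditivity

section Parts

variable {γ ν : ℝ} {d e : Type} [Fintype d] [Fintype e] [DecidableEq d] [DecidableEq e]

/-- minimum output entropy: superadditivity half (part 3 of S0535, with `ε = 0`) -/
theorem minEntropy_part [Nonempty d] (hγ : γ ∈ Set.Icc (0 : ℝ) 1) (hν : ν ∈ Set.Icc (0 : ℝ) 1)
    (hkey : KeyIneq γ ν) {Ψ : Matrix d d ℂ → Matrix e e ℂ} (hΨ : IsChannel Ψ)
    {ρ : Matrix (Bool × d) (Bool × d) ℂ} (hρ : IsDensity ρ) :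
    ∃ (ρ₁ : Matrix Bool Bool ℂ) (ρ₂ : Matrix d d ℂ), IsDensity ρ₁ ∧ IsDensity ρ₂ ∧
      vnEntropy (gadMap γ ν ρ₁) + vnEntropy (Ψ ρ₂) ≤
        vnEntropy (qubitTensor (gadMap γ ν) Ψ ρ) := by
  obtain ⟨p, σ, hp, hσ, -, -, h⟩ := superadd hγ hν hkey hΨ hρ
  rcases le_total (vnEntropy (Ψ (σ false))) (vnEntropy (Ψ (σ true))) with hle | hle
  · refine ⟨pureQ p true, σ false, pureQ_density hp _, hσ _, ?_⟩
    rw [vnEntropy_gad_pureQ hγ hν hp]
    nlinarith [hp.1, hp.2]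
  · refine ⟨pureQ p true, σ true, pureQ_density hp _, hσ _, ?_⟩
    rw [vnEntropy_gad_pureQ hγ hν hp]
    nlinarith [hp.1, hp.2]

lemma density_kron {d' e' : Type*} [Fintype d'] [Fintype e'] [DecidableEq d'] [DecidableEq e']
    {ρ : Matrix d' d' ℂ} {σ : Matrix e' e' ℂ}
    (hρ : IsDensity ρ) (hσ : IsDensity σ) : IsDensity (ρ ⊗ₖ σ) :=
  ⟨hρ.1.kronecker hσ.1, by rw [Matrix.trace_kronecker, hρ.2, hσ.2, one_mul]⟩

/-- product states (part 4 of S0535) -/
theorem minEntropy_prod (hγ : γ ∈ Set.Icc (0 : ℝ) 1) (hν : ν ∈ Set.Icc (0 : ℝ) 1)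
    {Ψ : Matrix d d ℂ → Matrix e e ℂ} (hΨ : IsChannel Ψ)
    {ρ₁ : Matrix Bool Bool ℂ} {ρ₂ : Matrix d d ℂ} (h₁ : IsDensity ρ₁) (h₂ : IsDensity ρ₂) :
    IsDensity (ρ₁ ⊗ₖ ρ₂) ∧ vnEntropy (qubitTensor (gadMap γ ν) Ψ (ρ₁ ⊗ₖ ρ₂)) =
      vnEntropy (gadMap γ ν ρ₁) + vnEntropy (Ψ ρ₂) := by
  refine ⟨density_kron h₁ h₂, ?_⟩
  have g₁ := channel_density (gadMap_isChan hγ hν) h₁
  have g₂ := channel_density hΨ h₂
  rw [qubitTensor_kron _ _ hΨ.1, vnEntropy_kron g₁.1 g₂.1, g₁.2, g₂.2]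
  simp

/-- product ensembles (part 2 of S0535) -/
theorem holevo_prod (hγ : γ ∈ Set.Icc (0 : ℝ) 1) (hν : ν ∈ Set.Icc (0 : ℝ) 1)
    {Ψ : Matrix d d ℂ → Matrix e e ℂ} (hΨ : IsChannel Ψ)
    {m₁ : ℕ} {q₁ : Fin m₁ → ℝ} {ρ₁ : Fin m₁ → Matrix Bool Bool ℂ}
    {m₂ : ℕ} {q₂ : Fin m₂ → ℝ} {ρ₂ : Fin m₂ → Matrix d d ℂ}
    (h₁ : IsEnsemble q₁ ρ₁) (h₂ : IsEnsemble q₂ ρ₂) :
    ∃ (m : ℕ) (q : Fin m → ℝ) (ρ : Fin m → Matrix (Bool × d) (Bool × d) ℂ), IsEnsemble q ρ ∧
      holevoInfo (gadMap γ ν) q₁ ρ₁ + holevoInfo Ψ q₂ ρ₂ ≤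
        holevoInfo (qubitTensor (gadMap γ ν) Ψ) q ρ := by
  obtain ⟨m, q, ρ, hE, hχ⟩ := exists_fin_ensemble (e := Bool × e)
    (ι := Fin m₁ × Fin m₂) (q := fun a => q₁ a.1 * q₂ a.2)
    (ρ := fun a => ρ₁ a.1 ⊗ₖ ρ₂ a.2) (fun a => mul_nonneg (h₁.1 _) (h₂.1 _))
    (by rw [Fintype.sum_prod_type, ← Finset.sum_mul_sum, h₁.2.1, h₂.2.1, one_mul])
    (fun a => density_kron (h₁.2.2 _) (h₂.2.2 _))
  refine ⟨m, q, ρ, hE, ?_⟩
  rw [hχ]
  have g₁ := fun a => channel_density (gadMap_isChan hγ hν) (h₁.2.2 a)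
  have g₂ := fun a => channel_density hΨ (h₂.2.2 a)
  have hsum1 : ∑ a : Fin m₁ × Fin m₂, ((q₁ a.1 * q₂ a.2 : ℝ) : ℂ) •
      qubitTensor (gadMap γ ν) Ψ (ρ₁ a.1 ⊗ₖ ρ₂ a.2) =
      (∑ a, (q₁ a : ℂ) • gadMap γ ν (ρ₁ a)) ⊗ₖ (∑ b, (q₂ b : ℂ) • Ψ (ρ₂ b)) := by
    simp_rw [qubitTensor_kron _ _ hΨ.1]
    ext ⟨s, i⟩ ⟨t, j⟩
    simp only [Matrix.sum_apply, Matrix.smul_apply, Matrix.kroneckerMap_apply, smul_eq_mul,
      Fintype.sum_prod_type, Finset.sum_mul_sum]
    refine Finset.sum_congr rfl fun a _ => Finset.sum_congr rfl fun b _ => ?_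
    push_cast
    ring
  have hsum2 : ∑ a : Fin m₁ × Fin m₂, (q₁ a.1 * q₂ a.2) *
      vnEntropy (qubitTensor (gadMap γ ν) Ψ (ρ₁ a.1 ⊗ₖ ρ₂ a.2)) =
      ∑ a, q₁ a * vnEntropy (gadMap γ ν (ρ₁ a)) + ∑ b, q₂ b * vnEntropy (Ψ (ρ₂ b)) := by
    have h3 : ∀ a : Fin m₁ × Fin m₂, (q₁ a.1 * q₂ a.2) *
        vnEntropy (qubitTensor (gadMap γ ν) Ψ (ρ₁ a.1 ⊗ₖ ρ₂ a.2)) =
        (q₁ a.1 * vnEntropy (gadMap γ ν (ρ₁ a.1))) * q₂ a.2 +
          q₁ a.1 * (q₂ a.2 * vnEntropy (Ψ (ρ₂ a.2))) := by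
      intro a
      rw [(minEntropy_prod hγ hν hΨ (h₁.2.2 _) (h₂.2.2 _)).2]
      ring
    simp_rw [h3]
    rw [Finset.sum_add_distrib, Fintype.sum_prod_type, Fintype.sum_prod_type]
    dsimp only
    rw [← Finset.sum_mul_sum, ← Finset.sum_mul_sum, h₁.2.1, h₂.2.1, mul_one, one_mul]
  have hP1 : (∑ a, (q₁ a : ℂ) • gadMap γ ν (ρ₁ a)).PosSemidef :=
    posSemidef_sum _ fun a _ => (g₁ a).1.smul (by exact_mod_cast h₁.1 a)
  have hP2 : (∑ b, (q₂ b : ℂ) • Ψ (ρ₂ b)).PosSemidef :=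
    posSemidef_sum _ fun a _ => (g₂ a).1.smul (by exact_mod_cast h₂.1 a)
  have ht1 : (∑ a, (q₁ a : ℂ) • gadMap γ ν (ρ₁ a)).trace = 1 := by
    rw [Matrix.trace_sum]
    simp_rw [Matrix.trace_smul, (g₁ _).2, smul_eq_mul, mul_one]
    exact_mod_cast h₁.2.1
  have ht2 : (∑ b, (q₂ b : ℂ) • Ψ (ρ₂ b)).trace = 1 := by
    rw [Matrix.trace_sum]
    simp_rw [Matrix.trace_smul, (g₂ _).2, smul_eq_mul, mul_one]
    exact_mod_cast h₂.2.1
  rw [hsum1, hsum2, vnEntropy_kron hP1 hP2, ht1, ht2, holevoInfo, holevoInfo]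
  simp only [Complex.one_re, one_mul]
  linarith

/-- the average of the two phases of a pure state is diagonal after the channel -/
lemma gad_pureQ_sum {p : ℝ} (hp : p ∈ Set.Icc (0 : ℝ) 1) :
    ((1 / 2 : ℝ) : ℂ) • gadMap γ ν (pureQ p true) + ((1 / 2 : ℝ) : ℂ) • gadMap γ ν (pureQ p false)
      = Matrix.diagonal (fun b : Bool =>
        (((if b then (1 - γ) * p + γ * ν else 1 - ((1 - γ) * p + γ * ν)) : ℝ) : ℂ)) := by
  ext s t
  cases s <;> cases t <;>
    simp only [Matrix.add_apply, Matrix.smul_apply, gadMap_ff, gadMap_tt, gadMap_ft, gadMap_tf,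
      pureQ_ff hp, pureQ_tt hp, pureQ_ft, pureQ_tf, sgnB, smul_eq_mul, Matrix.diagonal_apply] <;>
    simp <;> ring

/-- Holevo information: subadditivity half (part 1 of S0535, with `ε = 0`), with the first
ensemble made of equatorial-phase pairs of pure states. -/
theorem holevo_part [Nonempty d] (hγ : γ ∈ Set.Icc (0 : ℝ) 1) (hν : ν ∈ Set.Icc (0 : ℝ) 1)
    (hkey : KeyIneq γ ν) {Ψ : Matrix d d ℂ → Matrix e e ℂ} (hΨ : IsChannel Ψ)
    {m : ℕ} {q : Fin m → ℝ} {ρ : Fin m → Matrix (Bool × d) (Bool × d) ℂ} (hE : IsEnsemble q ρ) :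
    ∃ (m₁ : ℕ) (q₁ : Fin m₁ → ℝ) (ρ₁ : Fin m₁ → Matrix Bool Bool ℂ)
        (m₂ : ℕ) (q₂ : Fin m₂ → ℝ) (ρ₂ : Fin m₂ → Matrix d d ℂ),
        IsEnsemble q₁ ρ₁ ∧ IsEnsemble q₂ ρ₂ ∧
          holevoInfo (qubitTensor (gadMap γ ν) Ψ) q ρ ≤
            holevoInfo (gadMap γ ν) q₁ ρ₁ + holevoInfo Ψ q₂ ρ₂ := by
  choose p σ hp hσ hb0 hb1 hS using fun a => superadd hγ hν hkey hΨ (hE.2.2 a)
  obtain ⟨m₁, q₁, ρ₁, hE₁, hχ₁⟩ := exists_fin_ensemble (e := Bool)
    (ι := Fin m × Bool) (q := fun a => q a.1 * (1 / 2))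
    (ρ := fun a => pureQ (p a.1) a.2) (fun a => mul_nonneg (hE.1 _) (by norm_num))
    (by
      rw [Fintype.sum_prod_type]
      simp only [Fintype.sum_bool]
      exact Eq.trans (Finset.sum_congr rfl fun a _ => by ring) hE.2.1)
    (fun a => pureQ_density (hp _) _)
  obtain ⟨m₂, q₂, ρ₂, hE₂, hχ₂⟩ := exists_fin_ensemble (e := e)
    (ι := Fin m × Bool) (q := fun a => q a.1 * (if a.2 then p a.1 else 1 - p a.1))
    (ρ := fun a => σ a.1 a.2)
    (fun a => mul_nonneg (hE.1 _) (by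
      split_ifs
      · exact (hp _).1
      · linarith [(hp a.1).2]))
    (by
      rw [Fintype.sum_prod_type]
      simp only [Fintype.sum_bool]
      exact Eq.trans (Finset.sum_congr rfl fun a _ => by simp; ring) hE.2.1)
    (fun a => hσ _ _)
  refine ⟨m₁, q₁, ρ₁, m₂, q₂, ρ₂, hE₁, hE₂, ?_⟩
  rw [hχ₁, hχ₂, holevoInfo]
  -- outputs
  set R : Fin m → Matrix (Bool × e) (Bool × e) ℂ :=
    fun a => qubitTensor (gadMap γ ν) Ψ (ρ a) with hR
  have hRd : ∀ a, IsDensity (R a) := fun a => gadTensor_density hγ hν hΨ (hE.2.2 a)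
  set P : ℝ := ∑ a, q a * ((1 - γ) * p a + γ * ν) with hPdef
  have hPm : ∀ a, 0 ≤ (1 - γ) * p a + γ * ν ∧ (1 - γ) * p a + γ * ν ≤ 1 := by
    intro a
    obtain ⟨h1, h2⟩ := hp a
    obtain ⟨h3, h4⟩ := hγ
    obtain ⟨h5, h6⟩ := hν
    constructor
    · have := mul_nonneg (sub_nonneg.2 h4) h1
      have := mul_nonneg h3 h5
      linarith
    · nlinarith [mul_nonneg (sub_nonneg.2 h4) (sub_nonneg.2 h2), mul_nonneg h3 (sub_nonneg.2 h6)]
  have hP0 : 0 ≤ P := Finset.sum_nonneg fun a _ => mul_nonneg (hE.1 a) (hPm a).1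
  have hP1 : P ≤ 1 := (Finset.sum_le_sum fun a _ =>
    mul_le_of_le_one_right (hE.1 a) (hPm a).2).trans (le_of_eq hE.2.1)
  -- average output of the first ensemble
  have hA1 : (∑ a : Fin m × Bool, ((q a.1 * (1 / 2) : ℝ) : ℂ) • gadMap γ ν (pureQ (p a.1) a.2))
      = Matrix.diagonal (fun b : Bool => (((if b then P else 1 - P) : ℝ) : ℂ)) := by
    rw [Fintype.sum_prod_type]
    simp only [Fintype.sum_bool]
    have h1 : ∀ a, ((q a * (1 / 2) : ℝ) : ℂ) • gadMap γ ν (pureQ (p a) true) +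
        ((q a * (1 / 2) : ℝ) : ℂ) • gadMap γ ν (pureQ (p a) false) =
        (q a : ℂ) • Matrix.diagonal (fun b : Bool =>
        (((if b then (1 - γ) * p a + γ * ν else 1 - ((1 - γ) * p a + γ * ν)) : ℝ) : ℂ)) := by
      intro a
      rw [← gad_pureQ_sum (hp a), smul_add, smul_smul, smul_smul, ← Complex.ofReal_mul]
    simp_rw [h1]
    ext s t
    simp only [Matrix.sum_apply, Matrix.smul_apply, Matrix.diagonal_apply, smul_eq_mul]
    by_cases hst : s = t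
    · subst hst
      simp only [if_true]
      cases s
      · simp only [Bool.false_eq_true, if_false]
        have : (1 - P : ℝ) = ∑ a, q a * (1 - ((1 - γ) * p a + γ * ν)) := by
          simp_rw [mul_sub, Finset.sum_sub_distrib, mul_one, hE.2.1]
          rw [hPdef]
        rw [this]
        push_cast
        rfl
      · simp only [if_true]
        rw [hPdef]
        push_cast
        rfl
    · simp [hst]
  have hS1 : vnEntropy (∑ a : Fin m × Bool, ((q a.1 * (1 / 2) : ℝ) : ℂ) •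
      gadMap γ ν (pureQ (p a.1) a.2)) = Real.negMulLog (1 - P) + Real.negMulLog P := by
    rw [hA1, vnEntropy_diagonal]
    · simp [add_comm]
    · intro b
      cases b
      · simpa using hP1
      · simpa using hP0
  have hS1' : ∑ a : Fin m × Bool, q a.1 * (1 / 2) * vnEntropy (gadMap γ ν (pureQ (p a.1) a.2))
      = ∑ a, q a * fOut γ ν (p a) := by
    rw [Fintype.sum_prod_type]
    refine Finset.sum_congr rfl fun a _ => ?_
    rw [Fintype.sum_bool]
    dsimp only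
    rw [vnEntropy_gad_pureQ hγ hν (hp a), vnEntropy_gad_pureQ hγ hν (hp a)]
    ring
  -- average output of the second ensemble
  have hblk0 : ∀ a, Ψ (block (ρ a) false false) = ((1 - p a : ℝ) : ℂ) • Ψ (σ a false) := by
    intro a
    rw [hb0 a, hΨ.1.map_smul]
  have hblk1 : ∀ a, Ψ (block (ρ a) true true) = ((p a : ℝ) : ℂ) • Ψ (σ a true) := by
    intro a
    rw [hb1 a, hΨ.1.map_smul]
  have hA2 : (∑ a : Fin m × Bool, ((q a.1 * (if a.2 then p a.1 else 1 - p a.1) : ℝ) : ℂ) •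
      Ψ (σ a.1 a.2)) = ptrL (∑ a, (q a : ℂ) • R a) := by
    have h1 : ptrL (∑ a, (q a : ℂ) • R a) = ∑ a, (q a : ℂ) • ptrL (R a) := by
      ext i j
      simp only [ptrL, Matrix.of_apply, Matrix.sum_apply, Matrix.smul_apply, smul_eq_mul,
        Finset.mul_sum]
      rw [Finset.sum_comm]
    rw [h1, Fintype.sum_prod_type]
    refine Finset.sum_congr rfl fun a _ => ?_
    rw [Fintype.sum_bool, hR]
    dsimp only
    rw [ptrL_gadTensor, hblk0, hblk1, smul_add, smul_smul, smul_smul]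
    simp only [if_true, Bool.false_eq_true, if_false]
    rw [← Complex.ofReal_mul, ← Complex.ofReal_mul, add_comm]
  have hS2' : ∑ a : Fin m × Bool, q a.1 * (if a.2 then p a.1 else 1 - p a.1) *
      vnEntropy (Ψ (σ a.1 a.2)) = ∑ a, q a * ((1 - p a) * vnEntropy (Ψ (σ a false)) +
        p a * vnEntropy (Ψ (σ a true))) := by
    rw [Fintype.sum_prod_type]
    refine Finset.sum_congr rfl fun a _ => ?_
    rw [Fintype.sum_bool]
    simp only [if_true, Bool.false_eq_true, if_false]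
    ring
  -- the average output of the given ensemble
  have hRbar : (∑ a, (q a : ℂ) • R a).PosSemidef :=
    posSemidef_sum _ fun a _ => (hRd a).1.smul (by exact_mod_cast hE.1 a)
  have hRtr : (∑ a, (q a : ℂ) • R a).trace = 1 := by
    rw [Matrix.trace_sum]
    simp_rw [Matrix.trace_smul, (hRd _).2, smul_eq_mul, mul_one]
    exact_mod_cast hE.2.1
  have hsub := vnEntropy_subadd_diag hRbar hRtr
  have hpops : ∀ b, (block (∑ a, (q a : ℂ) • R a) b b).trace.re = if b then P else 1 - P := by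
    intro b
    have h1 : block (∑ a, (q a : ℂ) • R a) b b = ∑ a, (q a : ℂ) • block (R a) b b := by
      ext i j
      simp [block, Matrix.sum_apply]
    rw [h1, Matrix.trace_sum, Complex.re_sum]
    have h2 : ∀ a, (block (R a) b b).trace =
        (((if b then (1 - γ) * p a + γ * ν else 1 - ((1 - γ) * p a + γ * ν)) : ℝ) : ℂ) := by
      intro a
      rw [hR]
      cases b
      · rw [block_gadTensor_ff, hblk0, hblk1, Matrix.trace_add, Matrix.trace_smul,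
          Matrix.trace_smul, Matrix.trace_smul, Matrix.trace_smul, (channel_density hΨ (hσ a _)).2,
          (channel_density hΨ (hσ a _)).2]
        simp
        ring
      · rw [block_gadTensor_tt, hblk0, hblk1, Matrix.trace_add, Matrix.trace_smul,
          Matrix.trace_smul, Matrix.trace_smul, Matrix.trace_smul, (channel_density hΨ (hσ a _)).2,
          (channel_density hΨ (hσ a _)).2]
        simp
        ring
    have h3 : ∀ a, ((q a : ℂ) • block (R a) b b).trace.re =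
        q a * (if b then (1 - γ) * p a + γ * ν else 1 - ((1 - γ) * p a + γ * ν)) := by
      intro a
      rw [Matrix.trace_smul, h2, smul_eq_mul, ← Complex.ofReal_mul, Complex.ofReal_re]
    simp_rw [h3]
    cases b
    · simp only [Bool.false_eq_true, if_false]
      simp_rw [mul_sub, Finset.sum_sub_distrib, mul_one, hE.2.1]
      rw [hPdef]
    · simp only [if_true]
      rw [hPdef]
  simp_rw [hpops] at hsub
  rw [Fintype.sum_bool] at hsub
  simp only [if_true, Bool.false_eq_true, if_false] at hsub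
  rw [hS1, hS1', hA2, hS2']
  have hlow : ∑ a, q a * fOut γ ν (p a) + ∑ a, q a * ((1 - p a) * vnEntropy (Ψ (σ a false)) +
        p a * vnEntropy (Ψ (σ a true))) ≤ ∑ a, q a * vnEntropy (R a) := by
    rw [← Finset.sum_add_distrib]
    refine Finset.sum_le_sum fun a _ => ?_
    rw [← mul_add]
    exact mul_le_mul_of_nonneg_left (hS a) (hE.1 a)
  have hR' : (∑ a, (q a : ℂ) • qubitTensor (gadMap γ ν) Ψ (ρ a)) = ∑ a, (q a : ℂ) • R a := rfl
  have hR'' : (∑ a, q a * vnEntropy (qubitTensor (gadMap γ ν) Ψ (ρ a)))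
      = ∑ a, q a * vnEntropy (R a) := rfl
  rw [hR', hR'']
  linarith

end Parts

end Crest.Agent.R341
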