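import Crest.Agent.R341.Defs

/-! Row 341: integration over `t` (abstract scalar form of the 3-path inequality). -/

namespace Crest.Agent.R341

open Filter Topology Real

/-- `log (T + x) - log T → 0` -/
theorem tendsto_log_add_sub_log (x : ℝ) :
    Tendsto (fun T : ℝ => Real.log (T + x) - Real.log T) atTop (𝓝 0) := by
  have h1 : Tendsto (fun T : ℝ => 1 + x / T) atTop (𝓝 (1 + 0)) :=
    tendsto_const_nhds.add (tendsto_const_nhds.div_atTop tendsto_id)
  have h2 : Tendsto (fun T : ℝ => Real.log (1 + x / T)) atTop (𝓝 (Real.log (1 + 0))) :=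
    (Real.continuousAt_log (by norm_num)).tendsto.comp h1
  rw [add_zero, Real.log_one] at h2
  refine h2.congr' ?_
  filter_upwards [eventually_gt_atTop (max 0 (-x))] with T hT
  have hT0 : 0 < T := lt_of_le_of_lt (le_max_left _ _) hT
  have hTx : 0 < T + x := by
    have := lt_of_le_of_lt (le_max_right _ _) hT
    linarith
  rw [← Real.log_div hTx.ne' hT0.ne']
  congr 1
  field_simp

theorem tendsto_mul_log_add_sub_log (x : ℝ) :
    Tendsto (fun T : ℝ => T * (Real.log (T + x) - Real.log T)) atTop (𝓝 x) := by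
  have h := Real.tendsto_mul_log_one_add_div_atTop x
  refine h.congr' ?_
  filter_upwards [eventually_gt_atTop (max 0 (-x))] with T hT
  have hT0 : 0 < T := lt_of_le_of_lt (le_max_left _ _) hT
  have hTx : 0 < T + x := by
    have := lt_of_le_of_lt (le_max_right _ _) hT
    linarith
  rw [← Real.log_div hTx.ne' hT0.ne']
  congr 2
  field_simp

/-- `η(T+x) - η(T) - x log T → x` with `η(u) = u log u` -/
theorem tendsto_eta (x : ℝ) :
    Tendsto (fun T : ℝ => (T + x) * Real.log (T + x) - T * Real.log T - x * Real.log T)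
      atTop (𝓝 x) := by
  have h1 := tendsto_mul_log_add_sub_log x
  have h2 := (tendsto_log_add_sub_log x).const_mul x
  have h := h1.add h2
  rw [mul_zero, add_zero] at h
  refine h.congr ?_
  intro T
  ring


theorem hasDerivAt_eta (x T : ℝ) (h : 0 < T + x) :
    HasDerivAt (fun T : ℝ => (T + x) * Real.log (T + x)) (Real.log (T + x) + 1) T := by
  have h1 : HasDerivAt (fun u : ℝ => u * Real.log u) (Real.log (T + x) + 1) (T + x) :=
    Real.hasDerivAt_mul_log h.ne'
  exact h1.comp_add_const T x

theorem hasDerivAt_logshift (x T : ℝ) (h : 0 < T + x) :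
    HasDerivAt (fun T : ℝ => Real.log (T + x)) ((T + x)⁻¹) T := by
  have h1 : HasDerivAt (fun u : ℝ => Real.log u) ((T + x)⁻¹) (T + x) :=
    Real.hasDerivAt_log h.ne'
  exact h1.comp_add_const T x

/-- roots `p > q > 0` of `X² - (1+y+z) X + y z` -/
theorem exists_roots {y z : ℝ} (hy : 0 < y) (hz : 0 < z) :
    ∃ p q : ℝ, 0 < q ∧ q < p ∧ p + q = 1 + y + z ∧ p * q = y * z ∧
      ent2 (1 + y + z) (y * z) = Real.negMulLog p + Real.negMulLog q := by
  have hdisc : 0 < (1 + y + z) ^ 2 - 4 * (y * z) := by nlinarith [sq_nonneg (y - z)]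
  set r := Real.sqrt ((1 + y + z) ^ 2 - 4 * (y * z)) with hr
  have hr0 : 0 < r := Real.sqrt_pos.mpr hdisc
  have hr2 : r ^ 2 = (1 + y + z) ^ 2 - 4 * (y * z) := Real.sq_sqrt hdisc.le
  refine ⟨(1 + y + z + r) / 2, (1 + y + z - r) / 2, ?_, by linarith, by ring, ?_, rfl⟩
  · have : r < 1 + y + z := by
      have h1 : r ^ 2 < (1 + y + z) ^ 2 := by rw [hr2]; nlinarith [mul_pos hy hz]
      exact lt_of_pow_lt_pow_left₀ 2 (by positivity) h1
    linarith
  · have : (1 + y + z + r) / 2 * ((1 + y + z - r) / 2) = ((1 + y + z) ^ 2 - r ^ 2) / 4 := by ring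
    rw [this, hr2]; ring

/-- the auxiliary function `ω(T) = log(T+y a) - w₊ log(T+p a) - w₋ log(T + q a)` -/
noncomputable def om (y z p q a T : ℝ) : ℝ :=
  Real.log (T + y * a) - (p - z) / (p - q) * Real.log (T + p * a) -
    (z - q) / (p - q) * Real.log (T + q * a)

theorem hasDerivAt_om {y z p q a T : ℝ} (hy : 0 < y) (hz : 0 < z) (hq : 0 < q) (hpq : q < p)
    (hs : p + q = 1 + y + z) (hm : p * q = y * z) (ha : 0 < a) (hT : 0 < T) :
    HasDerivAt (om y z p q a)
      (T * a / ((T + y * a) * (T + z * a) + T * a) / (T + y * a)) T := by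
  have hp : 0 < p := hq.trans hpq
  have e1 : 0 < T + y * a := by positivity
  have e2 : 0 < T + z * a := by positivity
  have e3 : 0 < T + p * a := by positivity
  have e4 : 0 < T + q * a := by positivity
  have hr : p - q ≠ 0 := (sub_pos.mpr hpq).ne'
  have h1 := hasDerivAt_logshift (y * a) T e1
  have h2 := (hasDerivAt_logshift (p * a) T e3).const_mul ((p - z) / (p - q))
  have h3 := (hasDerivAt_logshift (q * a) T e4).const_mul ((z - q) / (p - q))
  have h := (h1.sub h2).sub h3
  have key : (T + y * a) * (T + z * a) + T * a = (T + p * a) * (T + q * a) := by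
    have : (T + p * a) * (T + q * a) = T ^ 2 + (p + q) * a * T + p * q * a ^ 2 := by ring
    rw [this, hs, hm]; ring
  have hval : (T + y * a)⁻¹ - (p - z) / (p - q) * (T + p * a)⁻¹ -
      (z - q) / (p - q) * (T + q * a)⁻¹ =
      T * a / ((T + y * a) * (T + z * a) + T * a) / (T + y * a) := by
    have hA : (p - z) / (p - q) * (T + p * a)⁻¹ + (z - q) / (p - q) * (T + q * a)⁻¹ =
        (T + z * a) / ((T + p * a) * (T + q * a)) := by
      field_simp
      ring
    have hB : (T + y * a)⁻¹ - (T + z * a) / ((T + p * a) * (T + q * a)) =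
        T * a / ((T + p * a) * (T + q * a)) / (T + y * a) := by
      rw [eq_div_iff e1.ne', eq_div_iff (by positivity : (T + p * a) * (T + q * a) ≠ 0)]
      have : ((T + y * a)⁻¹ - (T + z * a) / ((T + p * a) * (T + q * a))) * (T + y * a) *
          ((T + p * a) * (T + q * a)) = (T + p * a) * (T + q * a) - (T + z * a) * (T + y * a) := by
        field_simp
      rw [this, ← key]; ring
    rw [key, ← hB, ← hA]; ring
  rw [hval] at h
  exact h

theorem tendsto_om {y z p q a : ℝ} (hpq : q < p) :
    Tendsto (om y z p q a) atTop (𝓝 0) := by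
  have hr : p - q ≠ 0 := (sub_pos.mpr hpq).ne'
  have h1 := tendsto_log_add_sub_log (y * a)
  have h2 := (tendsto_log_add_sub_log (p * a)).const_mul ((p - z) / (p - q))
  have h3 := (tendsto_log_add_sub_log (q * a)).const_mul ((z - q) / (p - q))
  have h := (h1.sub h2).sub h3
  simp only [mul_zero, sub_zero] at h
  refine h.congr ?_
  intro T
  unfold om
  have : (p - z) / (p - q) + (z - q) / (p - q) = 1 := by field_simp; ring
  linear_combination (Real.log T) * this

theorem continuousOn_om {y z p q a : ℝ} (hy : 0 < y) (hp : 0 < p) (hq : 0 < q)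
    (ha : 0 < a) : ContinuousOn (om y z p q a) (Set.Ici 0) := by
  unfold om
  refine ((ContinuousOn.log (by fun_prop) ?_).sub ((ContinuousOn.log (by fun_prop) ?_).const_smul
    ((p - z) / (p - q)))).sub ((ContinuousOn.log (by fun_prop) ?_).const_smul
    ((z - q) / (p - q))) <;>
  · intro T hT
    have hT0 : (0 : ℝ) ≤ T := hT
    positivity

theorem om_zero {y z p q a : ℝ} (hy : 0 < y) (hp : 0 < p) (hq : 0 < q) (hpq : q < p)
    (ha : 0 < a) : om y z p q a 0 = om y z p q 1 0 := by
  have hr : p - q ≠ 0 := (sub_pos.mpr hpq).ne'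
  unfold om
  simp only [zero_add, mul_one]
  rw [Real.log_mul hy.ne' ha.ne', Real.log_mul hp.ne' ha.ne', Real.log_mul hq.ne' ha.ne']
  have : (p - z) / (p - q) + (z - q) / (p - q) = 1 := by field_simp; ring
  linear_combination (-(Real.log a)) * this

theorem om_zero_nonpos {y z p q : ℝ} (hy : 0 < y) (hz : 0 < z) (hq : 0 < q) (hpq : q < p)
    (hs : p + q = 1 + y + z) (hm : p * q = y * z) : om y z p q 1 0 ≤ 0 := by
  have hp : 0 < p := hq.trans hpq
  have hmono : MonotoneOn (om y z p q 1) (Set.Ici 0) := by
    refine monotoneOn_of_deriv_nonneg (convex_Ici 0) (continuousOn_om hy hp hq one_pos) ?_ ?_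
    · intro T hT
      rw [interior_Ici] at hT
      exact (hasDerivAt_om hy hz hq hpq hs hm one_pos hT).differentiableAt.differentiableWithinAt
    · intro T hT
      rw [interior_Ici] at hT
      have hT0 : 0 < T := hT
      rw [(hasDerivAt_om hy hz hq hpq hs hm one_pos hT).deriv]
      positivity
  refine ge_of_tendsto (tendsto_om (y := y) (z := z) (a := 1) hpq) ?_
  filter_upwards [eventually_ge_atTop (0 : ℝ)] with T hT
  exact hmono (Set.self_mem_Ici) hT hT


section Main

variable {ι κ : Type*} [Fintype ι] [Fintype κ]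

/-- the antiderivative -/
noncomputable def bigF (m : ι → ℝ) (c d a u v : κ → ℝ) (y z p q T : ℝ) : ℝ :=
  ∑ j, (T + m j) * Real.log (T + m j) - ∑ k, (T + c k) * Real.log (T + c k) -
    ∑ k, (T + d k) * Real.log (T + d k) -
    ∑ k, ((T + p * a k) * Real.log (T + p * a k) + (T + q * a k) * Real.log (T + q * a k) -
      (T + y * a k) * Real.log (T + y * a k) - (T + z * a k) * Real.log (T + z * a k)) +
    ∑ k, (u k - y * a k) * om y z p q (a k) T + ∑ k, (v k - z * a k) * om z y p q (a k) T

theorem continuousOn_eta (x : ℝ) :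
    ContinuousOn (fun T : ℝ => (T + x) * Real.log (T + x)) (Set.Ici 0) :=
  (Real.continuous_mul_log.comp (continuous_id.add continuous_const)).continuousOn

theorem hasDerivAt_bigF {m : ι → ℝ} {c d a u v : κ → ℝ} {y z p q T : ℝ}
    (hcard : Fintype.card ι = 2 * Fintype.card κ)
    (hm : ∀ j, 0 ≤ m j) (hc : ∀ k, 0 ≤ c k) (hd : ∀ k, 0 ≤ d k) (ha : ∀ k, 0 < a k)
    (hy : 0 < y) (hz : 0 < z) (hq : 0 < q) (hpq : q < p)
    (hs : p + q = 1 + y + z) (hmul : p * q = y * z) (hT : 0 < T) :
    HasDerivAt (bigF m c d a u v y z p q)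
      (∑ j, Real.log (T + m j) - (∑ k, Real.log (T + c k) + ∑ k, Real.log (T + d k) +
        ∑ k, (Real.log (1 + T * a k / ((T + y * a k) * (T + z * a k))) -
        T * a k / ((T + y * a k) * (T + z * a k) + T * a k) *
          ((u k - y * a k) / (T + y * a k) + (v k - z * a k) / (T + z * a k))))) T := by
  have hp : 0 < p := hq.trans hpq
  have h1 : HasDerivAt (fun T : ℝ => ∑ j, (T + m j) * Real.log (T + m j))
      (∑ j, (Real.log (T + m j) + 1)) T :=
    HasDerivAt.fun_sum fun j _ => hasDerivAt_eta (m j) T (by have := hm j; linarith)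
  have h2 : HasDerivAt (fun T : ℝ => ∑ k, (T + c k) * Real.log (T + c k))
      (∑ k, (Real.log (T + c k) + 1)) T :=
    HasDerivAt.fun_sum fun j _ => hasDerivAt_eta (c j) T (by have := hc j; linarith)
  have h3 : HasDerivAt (fun T : ℝ => ∑ k, (T + d k) * Real.log (T + d k))
      (∑ k, (Real.log (T + d k) + 1)) T :=
    HasDerivAt.fun_sum fun j _ => hasDerivAt_eta (d j) T (by have := hd j; linarith)
  have h4 : HasDerivAt (fun T : ℝ => ∑ k, ((T + p * a k) * Real.log (T + p * a k) +
      (T + q * a k) * Real.log (T + q * a k) -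
      (T + y * a k) * Real.log (T + y * a k) - (T + z * a k) * Real.log (T + z * a k)))
      (∑ k, ((Real.log (T + p * a k) + 1) + (Real.log (T + q * a k) + 1) -
        (Real.log (T + y * a k) + 1) - (Real.log (T + z * a k) + 1))) T :=
    HasDerivAt.fun_sum fun k _ => by
      have := ha k
      exact (((hasDerivAt_eta (p * a k) T (by positivity)).add
        (hasDerivAt_eta (q * a k) T (by positivity))).sub
        (hasDerivAt_eta (y * a k) T (by positivity))).sub
        (hasDerivAt_eta (z * a k) T (by positivity))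
  have h5 : HasDerivAt (fun T : ℝ => ∑ k, (u k - y * a k) * om y z p q (a k) T)
      (∑ k, (u k - y * a k) *
        (T * a k / ((T + y * a k) * (T + z * a k) + T * a k) / (T + y * a k))) T :=
    HasDerivAt.fun_sum fun k _ =>
      (hasDerivAt_om hy hz hq hpq hs hmul (ha k) hT).const_mul _
  have h6 : HasDerivAt (fun T : ℝ => ∑ k, (v k - z * a k) * om z y p q (a k) T)
      (∑ k, (v k - z * a k) *
        (T * a k / ((T + z * a k) * (T + y * a k) + T * a k) / (T + z * a k))) T :=
    HasDerivAt.fun_sum fun k _ =>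
      (hasDerivAt_om hz hy hq hpq (by rw [hs]; ring) (by rw [hmul]; ring) (ha k) hT).const_mul _
  have h := ((((h1.sub h2).sub h3).sub h4).add h5).add h6
  refine h.congr_deriv ?_
  have hlog : ∀ k, Real.log (1 + T * a k / ((T + y * a k) * (T + z * a k))) =
      Real.log (T + p * a k) + Real.log (T + q * a k) - Real.log (T + y * a k) -
        Real.log (T + z * a k) := by
    intro k
    have hak := ha k
    have e1 : 0 < T + y * a k := by positivity
    have e2 : 0 < T + z * a k := by positivity
    have e3 : 0 < T + p * a k := by positivity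
    have e4 : 0 < T + q * a k := by positivity
    have key : (T + y * a k) * (T + z * a k) + T * a k = (T + p * a k) * (T + q * a k) := by
      have : (T + p * a k) * (T + q * a k) = T ^ 2 + (p + q) * a k * T + p * q * a k ^ 2 := by
        ring
      rw [this, hs, hmul]; ring
    have : 1 + T * a k / ((T + y * a k) * (T + z * a k)) =
        ((T + p * a k) * (T + q * a k)) / ((T + y * a k) * (T + z * a k)) := by
      rw [← key]; field_simp
    rw [this, Real.log_div (by positivity) (by positivity), Real.log_mul e3.ne' e4.ne',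
      Real.log_mul e1.ne' e2.ne']
    ring
  simp only [hlog]
  have hc1 : ∑ _j : ι, (1 : ℝ) = 2 * ∑ _k : κ, (1 : ℝ) := by
    simp only [Finset.sum_const, Finset.card_univ, nsmul_eq_mul, mul_one, hcard]
    push_cast; ring
  simp only [Finset.sum_add_distrib, Finset.sum_sub_distrib, hc1]
  have h56 : ∑ k, (u k - y * a k) *
        (T * a k / ((T + y * a k) * (T + z * a k) + T * a k) / (T + y * a k)) +
      ∑ k, (v k - z * a k) *
        (T * a k / ((T + z * a k) * (T + y * a k) + T * a k) / (T + z * a k)) =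
      ∑ k, T * a k / ((T + y * a k) * (T + z * a k) + T * a k) *
          ((u k - y * a k) / (T + y * a k) + (v k - z * a k) / (T + z * a k)) := by
    rw [← Finset.sum_add_distrib]
    refine Finset.sum_congr rfl fun k _ => ?_
    rw [mul_comm (T + z * a k) (T + y * a k)]
    ring
  linear_combination h56

theorem tendsto_bigF {m : ι → ℝ} {c d a u v : κ → ℝ} {y z p q : ℝ}
    (hcard : Fintype.card ι = 2 * Fintype.card κ)
    (hpq : q < p) (hs : p + q = 1 + y + z)
    (hsum : ∑ j, m j = ∑ k, a k + ∑ k, c k + ∑ k, d k) :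
    Tendsto (bigF m c d a u v y z p q) atTop (𝓝 0) := by
  have h1 : Tendsto (fun T : ℝ => ∑ j, ((T + m j) * Real.log (T + m j) - T * Real.log T -
      m j * Real.log T)) atTop (𝓝 (∑ j, m j)) :=
    tendsto_finsetSum _ fun j _ => tendsto_eta (m j)
  have h2 : Tendsto (fun T : ℝ => ∑ j, ((T + c j) * Real.log (T + c j) - T * Real.log T -
      c j * Real.log T)) atTop (𝓝 (∑ j, c j)) :=
    tendsto_finsetSum _ fun j _ => tendsto_eta (c j)
  have h3 : Tendsto (fun T : ℝ => ∑ j, ((T + d j) * Real.log (T + d j) - T * Real.log T -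
      d j * Real.log T)) atTop (𝓝 (∑ j, d j)) :=
    tendsto_finsetSum _ fun j _ => tendsto_eta (d j)
  have h4 : Tendsto (fun T : ℝ => ∑ k,
      (((T + p * a k) * Real.log (T + p * a k) - T * Real.log T - p * a k * Real.log T) +
      ((T + q * a k) * Real.log (T + q * a k) - T * Real.log T - q * a k * Real.log T) -
      ((T + y * a k) * Real.log (T + y * a k) - T * Real.log T - y * a k * Real.log T) -
      ((T + z * a k) * Real.log (T + z * a k) - T * Real.log T - z * a k * Real.log T)))
      atTop (𝓝 (∑ k, (p * a k + q * a k - y * a k - z * a k))) :=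
    tendsto_finsetSum _ fun k _ =>
      (((tendsto_eta (p * a k)).add (tendsto_eta (q * a k))).sub
        (tendsto_eta (y * a k))).sub (tendsto_eta (z * a k))
  have h5 : Tendsto (fun T : ℝ => ∑ k, (u k - y * a k) * om y z p q (a k) T) atTop
      (𝓝 (∑ k, (u k - y * a k) * 0)) :=
    tendsto_finsetSum _ fun k _ => (tendsto_om hpq).const_mul _
  have h6 : Tendsto (fun T : ℝ => ∑ k, (v k - z * a k) * om z y p q (a k) T) atTop
      (𝓝 (∑ k, (v k - z * a k) * 0)) :=
    tendsto_finsetSum _ fun k _ => (tendsto_om hpq).const_mul _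
  have h := ((((h1.sub h2).sub h3).sub h4).add h5).add h6
  have hlim : ∑ j, m j - ∑ j, c j - ∑ j, d j - ∑ k, (p * a k + q * a k - y * a k - z * a k) +
      ∑ k, (u k - y * a k) * 0 + ∑ k, (v k - z * a k) * 0 = 0 := by
    have : ∀ k, p * a k + q * a k - y * a k - z * a k = a k := by
      intro k
      have : p * a k + q * a k - y * a k - z * a k = (p + q - y - z) * a k := by ring
      rw [this, hs]; ring
    simp only [this, mul_zero, Finset.sum_const_zero, hsum]
    ring
  rw [hlim] at h
  refine h.congr ?_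
  intro T
  have hc1 : ∑ _j : ι, (1 : ℝ) = 2 * ∑ _k : κ, (1 : ℝ) := by
    simp only [Finset.sum_const, Finset.card_univ, nsmul_eq_mul, mul_one, hcard]
    push_cast; ring
  have hc2 : ∀ x : ℝ, ∑ _j : ι, x = 2 * ∑ _k : κ, x := by
    intro x
    have := congrArg (fun w => w * x) hc1
    simp only [Finset.sum_mul, one_mul, mul_assoc] at this
    simpa using this
  have e1 : ∑ j, m j * Real.log T = (∑ k, a k) * Real.log T + (∑ k, c k) * Real.log T +
      (∑ k, d k) * Real.log T := by
    rw [← Finset.sum_mul, hsum]; ring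
  have e2 : ∑ k, (p * a k * Real.log T + q * a k * Real.log T - y * a k * Real.log T -
      z * a k * Real.log T) = (∑ k, a k) * Real.log T := by
    rw [Finset.sum_mul]
    refine Finset.sum_congr rfl fun k _ => ?_
    have : p * a k * Real.log T + q * a k * Real.log T - y * a k * Real.log T -
      z * a k * Real.log T = (p + q - y - z) * (a k * Real.log T) := by ring
    rw [this, hs]; ring
  have e3 : ∑ j, c j * Real.log T = (∑ k, c k) * Real.log T := by rw [Finset.sum_mul]
  have e4 : ∑ j, d j * Real.log T = (∑ k, d k) * Real.log T := by rw [Finset.sum_mul]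
  unfold bigF
  have s1 : ∑ j, ((T + m j) * Real.log (T + m j) - T * Real.log T - m j * Real.log T) =
      ∑ j, (T + m j) * Real.log (T + m j) - 2 * ∑ _k : κ, T * Real.log T -
        ∑ j, m j * Real.log T := by
    rw [Finset.sum_sub_distrib, Finset.sum_sub_distrib, hc2]
  have s2 : ∀ w : κ → ℝ, ∑ j, ((T + w j) * Real.log (T + w j) - T * Real.log T -
      w j * Real.log T) =
      ∑ j, (T + w j) * Real.log (T + w j) - ∑ _k : κ, T * Real.log T -
        ∑ j, w j * Real.log T := by
    intro w
    rw [Finset.sum_sub_distrib, Finset.sum_sub_distrib]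
  have s4 : ∑ k,
      (((T + p * a k) * Real.log (T + p * a k) - T * Real.log T - p * a k * Real.log T) +
      ((T + q * a k) * Real.log (T + q * a k) - T * Real.log T - q * a k * Real.log T) -
      ((T + y * a k) * Real.log (T + y * a k) - T * Real.log T - y * a k * Real.log T) -
      ((T + z * a k) * Real.log (T + z * a k) - T * Real.log T - z * a k * Real.log T)) =
      ∑ k, ((T + p * a k) * Real.log (T + p * a k) + (T + q * a k) * Real.log (T + q * a k) -
      (T + y * a k) * Real.log (T + y * a k) - (T + z * a k) * Real.log (T + z * a k)) -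
      ∑ k, (p * a k * Real.log T + q * a k * Real.log T - y * a k * Real.log T -
      z * a k * Real.log T) := by
    rw [← Finset.sum_sub_distrib]
    refine Finset.sum_congr rfl fun k _ => ?_
    ring
  rw [s1, s2 c, s2 d, s4, e1, e2, e3, e4]
  ring

theorem sum_eta_zero (w : ι → ℝ) :
    ∑ j, (0 + w j) * Real.log (0 + w j) = -∑ j, Real.negMulLog (w j) := by
  rw [← Finset.sum_neg_distrib]
  refine Finset.sum_congr rfl fun k _ => ?_
  simp [Real.negMulLog]

/-- The scalar key lemma. -/
theorem scalar_key {m : ι → ℝ} {c d a u v : κ → ℝ} {y z : ℝ}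
    (hcard : Fintype.card ι = 2 * Fintype.card κ)
    (hm : ∀ j, 0 ≤ m j) (hc : ∀ k, 0 ≤ c k) (hd : ∀ k, 0 ≤ d k) (ha : ∀ k, 0 < a k)
    (hy : 0 < y) (hz : 0 < z)
    (hsum : ∑ j, m j = ∑ k, a k + ∑ k, c k + ∑ k, d k)
    (hu : ∑ k, u k = y * ∑ k, a k) (hv : ∑ k, v k ≤ z * ∑ k, a k)
    (htw : ∀ t : ℝ, 0 < t → ∑ k, Real.log (t + c k) + ∑ k, Real.log (t + d k) +
        ∑ k, (Real.log (1 + t * a k / ((t + y * a k) * (t + z * a k))) -
        t * a k / ((t + y * a k) * (t + z * a k) + t * a k) *
          ((u k - y * a k) / (t + y * a k) + (v k - z * a k) / (t + z * a k))) ≤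
        ∑ j, Real.log (t + m j)) :
    ∑ k, Real.negMulLog (a k) + ∑ k, Real.negMulLog (c k) + ∑ k, Real.negMulLog (d k) +
      (∑ k, a k) * (ent2 (1 + y + z) (y * z) - Real.negMulLog y - Real.negMulLog z) ≤
      ∑ j, Real.negMulLog (m j) := by
  obtain ⟨p, q, hq, hpq, hs, hmul, hent⟩ := exists_roots hy hz
  have hp : 0 < p := hq.trans hpq
  have hcont : ContinuousOn (bigF m c d a u v y z p q) (Set.Ici 0) := by
    unfold bigF
    refine ((((ContinuousOn.sub (ContinuousOn.sub ?_ ?_) ?_).sub ?_).add ?_).add ?_)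
    · exact continuousOn_finsetSum _ fun j _ => continuousOn_eta (m j)
    · exact continuousOn_finsetSum _ fun j _ => continuousOn_eta (c j)
    · exact continuousOn_finsetSum _ fun j _ => continuousOn_eta (d j)
    · exact continuousOn_finsetSum _ fun k _ =>
        (((continuousOn_eta (p * a k)).add (continuousOn_eta (q * a k))).sub
        (continuousOn_eta (y * a k))).sub (continuousOn_eta (z * a k))
    · exact continuousOn_finsetSum _ fun k _ =>
        (continuousOn_om hy hp hq (ha k)).const_smul (u k - y * a k)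
    · exact continuousOn_finsetSum _ fun k _ =>
        (continuousOn_om hz hp hq (ha k)).const_smul (v k - z * a k)
  have hmono : MonotoneOn (bigF m c d a u v y z p q) (Set.Ici 0) := by
    refine monotoneOn_of_deriv_nonneg (convex_Ici 0) hcont ?_ ?_
    · intro T hT
      rw [interior_Ici] at hT
      exact (hasDerivAt_bigF hcard hm hc hd ha hy hz hq hpq hs hmul
        hT).differentiableAt.differentiableWithinAt
    · intro T hT
      rw [interior_Ici] at hT
      have hT0 : 0 < T := hT
      rw [(hasDerivAt_bigF hcard hm hc hd ha hy hz hq hpq hs hmul hT).deriv]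
      have := htw T hT0
      linarith
  have hF0 : bigF m c d a u v y z p q 0 ≤ 0 := by
    refine ge_of_tendsto (tendsto_bigF (u := u) (v := v) hcard hpq hs hsum) ?_
    filter_upwards [eventually_ge_atTop (0 : ℝ)] with T hT
    exact hmono (Set.self_mem_Ici) hT hT
  have hzero : bigF m c d a u v y z p q 0 = -∑ j, Real.negMulLog (m j) +
      ∑ k, Real.negMulLog (c k) + ∑ k, Real.negMulLog (d k) +
      (∑ k, Real.negMulLog (a k) + (∑ k, a k) * (Real.negMulLog p + Real.negMulLog q -
        Real.negMulLog y - Real.negMulLog z)) +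
      (∑ k, v k - z * ∑ k, a k) * om z y p q 1 0 := by
    unfold bigF
    have t2 : ∑ k, ((0 + p * a k) * Real.log (0 + p * a k) +
        (0 + q * a k) * Real.log (0 + q * a k) -
        (0 + y * a k) * Real.log (0 + y * a k) - (0 + z * a k) * Real.log (0 + z * a k)) =
        -(∑ k, Real.negMulLog (a k) + (∑ k, a k) * (Real.negMulLog p + Real.negMulLog q -
        Real.negMulLog y - Real.negMulLog z)) := by
      rw [Finset.sum_mul, ← Finset.sum_add_distrib, ← Finset.sum_neg_distrib]
      refine Finset.sum_congr rfl fun k _ => ?_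
      have hak := ha k
      simp only [zero_add, Real.negMulLog]
      rw [Real.log_mul hp.ne' hak.ne', Real.log_mul hq.ne' hak.ne', Real.log_mul hy.ne' hak.ne',
        Real.log_mul hz.ne' hak.ne']
      have : p = 1 + y + z - q := by linarith
      have h1 : p * a k * Real.log (a k) + q * a k * Real.log (a k) - y * a k * Real.log (a k) -
          z * a k * Real.log (a k) = a k * Real.log (a k) := by
        rw [this]; ring
      linear_combination h1
    have t3 : ∑ k, (u k - y * a k) * om y z p q (a k) 0 = 0 := by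
      have : ∀ k, (u k - y * a k) * om y z p q (a k) 0 =
          (u k - y * a k) * om y z p q 1 0 := fun k => by rw [om_zero hy hp hq hpq (ha k)]
      simp only [this]
      rw [← Finset.sum_mul, Finset.sum_sub_distrib, ← Finset.mul_sum, hu]
      ring
    have t4 : ∑ k, (v k - z * a k) * om z y p q (a k) 0 =
        (∑ k, v k - z * ∑ k, a k) * om z y p q 1 0 := by
      have : ∀ k, (v k - z * a k) * om z y p q (a k) 0 =
          (v k - z * a k) * om z y p q 1 0 := fun k => by rw [om_zero hz hp hq hpq (ha k)]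
      simp only [this]
      rw [← Finset.sum_mul, Finset.sum_sub_distrib, ← Finset.mul_sum]
    rw [sum_eta_zero m, sum_eta_zero c, sum_eta_zero d, t2, t3, t4]
    ring
  have hom : om z y p q 1 0 ≤ 0 :=
    om_zero_nonpos hz hy hq hpq (by rw [hs]; ring) (by rw [hmul]; ring)
  have hprod : 0 ≤ (∑ k, v k - z * ∑ k, a k) * om z y p q 1 0 :=
    mul_nonneg_of_nonpos_of_nonpos (by linarith) hom
  rw [hzero] at hF0
  rw [hent]
  linarith

end Main

end Crest.Agent.R341
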