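import Crest.Agent.R341.TwiseD
import Crest.Agent.R341.ScalarKey

/-! Row 341, task T5a: the 3-path inequality for diagonal positive `A`. -/

namespace Crest.Agent.R341

open Matrix Crest.Quantum
open scoped ComplexOrder

variable {e : Type*} [Fintype e] [DecidableEq e]

theorem ent2_mul' {k t d : ℝ} (hk : 0 < k) (h1 : 0 < t + Real.sqrt (t ^ 2 - 4 * d))
    (h2 : 0 < t - Real.sqrt (t ^ 2 - 4 * d)) :
    ent2 (k * t) (k ^ 2 * d) = k * ent2 t d + Real.negMulLog k * t := by
  have hs : Real.sqrt ((k * t) ^ 2 - 4 * (k ^ 2 * d)) = k * Real.sqrt (t ^ 2 - 4 * d) := by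
    have : (k * t) ^ 2 - 4 * (k ^ 2 * d) = k ^ 2 * (t ^ 2 - 4 * d) := by ring
    rw [this, Real.sqrt_mul (sq_nonneg k), Real.sqrt_sq hk.le]
  unfold ent2
  rw [hs]
  set r := Real.sqrt (t ^ 2 - 4 * d)
  have e1 : (k * t + k * r) / 2 = k * ((t + r) / 2) := by ring
  have e2 : (k * t - k * r) / 2 = k * ((t - r) / 2) := by ring
  rw [e1, e2]
  unfold Real.negMulLog
  rw [Real.log_mul hk.ne' (by positivity), Real.log_mul hk.ne' (by positivity)]
  ring

theorem negMulLog_mul' {x y : ℝ} (hx : 0 < x) (hy : 0 < y) :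
    Real.negMulLog (x * y) = x * Real.negMulLog y + y * Real.negMulLog x := by
  unfold Real.negMulLog
  rw [Real.log_mul hx.ne' hy.ne']
  ring

/-- the constants agree -/
theorem const_eq {A c d : ℝ} (hA : 0 < A) (hc : 0 < c) (hd : 0 < d) :
    A * (ent2 (1 + d / A + c / A) (d / A * (c / A)) - Real.negMulLog (d / A) -
        Real.negMulLog (c / A)) =
      ent2 (A + c + d) (c * d) - Real.negMulLog A - Real.negMulLog c - Real.negMulLog d := by
  have hy : 0 < d / A := div_pos hd hA
  have hz : 0 < c / A := div_pos hc hA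
  obtain ⟨p, q, hq, hpq, hs, hmul, hent⟩ := exists_roots hy hz
  have hdisc : 0 ≤ (1 + d / A + c / A) ^ 2 - 4 * (d / A * (c / A)) := by
    nlinarith [sq_nonneg (d / A - c / A)]
  have hr : Real.sqrt ((1 + d / A + c / A) ^ 2 - 4 * (d / A * (c / A))) < 1 + d / A + c / A := by
    rw [Real.sqrt_lt' (by positivity)]
    have := mul_pos hy hz
    linarith
  have h := ent2_mul' (k := A) (t := 1 + d / A + c / A) (d := d / A * (c / A)) hA
    (by have := Real.sqrt_nonneg ((1 + d / A + c / A) ^ 2 - 4 * (d / A * (c / A))); positivity)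
    (by linarith)
  have e1 : A * (1 + d / A + c / A) = A + c + d := by field_simp; ring
  have e2 : A ^ 2 * (d / A * (c / A)) = c * d := by field_simp
  rw [e1, e2] at h
  have hn1 := negMulLog_mul' hA hy
  have hn2 := negMulLog_mul' hA hz
  have e3 : A * (d / A) = d := by field_simp
  have e4 : A * (c / A) = c := by field_simp
  rw [e3] at hn1
  rw [e4] at hn2
  rw [h, hn1, hn2]
  ring

omit [Fintype e] [DecidableEq e] in
theorem posSemidef_lower {A B C : Matrix e e ℂ}
    (hP : (Matrix.fromBlocks A B Bᴴ C).PosSemidef) : C.PosSemidef := by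
  have := hP.submatrix (Sum.inr : e → e ⊕ e)
  have h2 : (Matrix.fromBlocks A B Bᴴ C).submatrix (Sum.inr : e → e ⊕ e) Sum.inr = C := by
    ext i j
    simp
  rwa [h2] at this

theorem posSemidef_add_upper {A B C D : Matrix e e ℂ}
    (hP : (Matrix.fromBlocks A B Bᴴ C).PosSemidef) (hD : D.PosSemidef) :
    (Matrix.fromBlocks (A + D) B Bᴴ C).PosSemidef := by
  have h1 : (Matrix.fromBlocks D 0 0 (0 : Matrix e e ℂ)).PosSemidef := by
    have := hD.conjTranspose_mul_mul_same (Matrix.fromCols (1 : Matrix e e ℂ) (0 : Matrix e e ℂ))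
    convert this using 1
    ext i j
    rcases i with i | i <;> rcases j with j | j <;>
      simp [Matrix.mul_apply, Matrix.fromCols, Matrix.one_apply]
  have h2 := hP.add h1
  convert h2 using 1
  ext i j
  rcases i with i | i <;> rcases j with j | j <;> simp

/-- trace of a Hermitian matrix as the sum of its eigenvalues -/
theorem sum_eigenvalues_re {n : Type*} [Fintype n] [DecidableEq n] {A : Matrix n n ℂ}
    (hA : A.IsHermitian) : ∑ i, hA.eigenvalues i = A.trace.re := by
  have := hA.trace_eq_sum_eigenvalues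
  rw [this]
  simp

/-- 3-path inequality, positive diagonal `A`, nonzero `C`, `D`. -/
theorem threePath_diag [Nonempty e] {a : e → ℝ} (ha : ∀ i, 0 < a i) {B C D : Matrix e e ℂ}
    (hP : (Matrix.fromBlocks (Matrix.diagonal (fun i => (a i : ℂ))) B Bᴴ C).PosSemidef)
    (hD : D.PosSemidef) (hc : 0 < C.trace.re) (hd : 0 < D.trace.re) :
    ∑ i, Real.negMulLog (a i) + vnEntropy C + vnEntropy D +
      (ent2 (∑ i, a i + C.trace.re + D.trace.re) (C.trace.re * D.trace.re) -
        Real.negMulLog (∑ i, a i) - Real.negMulLog C.trace.re - Real.negMulLog D.trace.re) ≤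
    vnEntropy (Matrix.fromBlocks (Matrix.diagonal (fun i => (a i : ℂ)) + D) B Bᴴ C) := by
  have hC : C.PosSemidef := posSemidef_lower hP
  have hM := posSemidef_add_upper hP hD
  set M := Matrix.fromBlocks (Matrix.diagonal (fun i => (a i : ℂ)) + D) B Bᴴ C with hMdef
  set A₀ := ∑ i, a i with hA₀
  have hA0 : 0 < A₀ := Finset.sum_pos (fun i _ => ha i) Finset.univ_nonempty
  have hy : 0 < D.trace.re / A₀ := div_pos hd hA0
  have hz : 0 < C.trace.re / A₀ := div_pos hc hA0
  have hkey := scalar_key (ι := e ⊕ e) (κ := e) (m := hM.1.eigenvalues) (c := hC.1.eigenvalues)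
    (d := hD.1.eigenvalues) (a := a) (u := fun i => (D i i).re)
    (v := fun i => ((B * Bᴴ) i i).re / a i) (y := D.trace.re / A₀) (z := C.trace.re / A₀)
    (by simp [Fintype.card_sum]; ring) (fun j => hM.eigenvalues_nonneg j)
    (fun j => hC.eigenvalues_nonneg j) (fun j => hD.eigenvalues_nonneg j) ha hy hz
    (by
      rw [sum_eigenvalues_re, sum_eigenvalues_re, sum_eigenvalues_re, hMdef]
      simp only [Matrix.trace, Matrix.diag, Fintype.sum_sum_type, Matrix.fromBlocks_apply₁₁,
        Matrix.fromBlocks_apply₂₂, Matrix.add_apply, Matrix.diagonal_apply_eq,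
        Finset.sum_add_distrib, Complex.add_re, Complex.re_sum, Complex.ofReal_re]
      ring)
    (by
      rw [← hA₀, div_mul_cancel₀ _ hA0.ne']
      simp [Matrix.trace, Matrix.diag])
    (by
      rw [← hA₀, div_mul_cancel₀ _ hA0.ne']
      exact trace_schur_le ha hP)
    (by
      intro t ht
      have h := twise ha hP hD hy hz ht
      rw [trf_of_isHermitian _ hC.1, trf_of_isHermitian _ hD.1, ← hMdef,
        trf_of_isHermitian _ hM.1] at h
      exact h)
  have e1 : ∀ {n : Type _} [Fintype n] [DecidableEq n] {X : Matrix n n ℂ} (hX : X.IsHermitian),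
      vnEntropy X = ∑ i, Real.negMulLog (hX.eigenvalues i) := by
    intro n _ _ X hX
    unfold vnEntropy
    rw [dif_pos hX, ← Finset.sum_neg_distrib]
    refine Finset.sum_congr rfl fun i _ => ?_
    simp [Real.negMulLog]
  rw [e1 hC.1, e1 hD.1, e1 hM.1, ← const_eq hA0 hc hd]
  exact hkey

end Crest.Agent.R341
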