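import Crest.Agent.R341.Ent3
import Crest.Agent.R341.Defs

/-!
# Row 341, task T5b: the general 3-path inequality from the diagonal one

`threePath_of_diag` takes the statement of `threePath_diag` as a hypothesis.
-/

set_option autoImplicit false
set_option linter.unusedSectionVars false
open scoped ComplexOrder Matrix
open Crest.Quantum Matrix Filter Topology

namespace Crest.Agent.R341

variable {d e n : Type*} [Fintype d] [Fintype e] [Fintype n]
variable [DecidableEq d] [DecidableEq e] [DecidableEq n]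

/-- the statement of `threePath_diag` -/
def ThreePathDiag (e : Type*) [Fintype e] [DecidableEq e] : Prop :=
  ∀ (a : e → ℝ) (B C D : Matrix e e ℂ), (∀ i, 0 < a i) →
    (Matrix.fromBlocks (Matrix.diagonal (fun i => (a i : ℂ))) B Bᴴ C).PosSemidef →
    D.PosSemidef → 0 < C.trace.re → 0 < D.trace.re →
    ∑ i, Real.negMulLog (a i) + vnEntropy C + vnEntropy D +
      (ent2 (∑ i, a i + C.trace.re + D.trace.re) (C.trace.re * D.trace.re) -
        Real.negMulLog (∑ i, a i) - Real.negMulLog C.trace.re - Real.negMulLog D.trace.re) ≤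
    vnEntropy (Matrix.fromBlocks (Matrix.diagonal (fun i => (a i : ℂ)) + D) B Bᴴ C)

/-- `IsUni` for a block diagonal matrix -/
lemma IsUni.fromBlocks {U : Matrix d d ℂ} {V : Matrix e e ℂ} (hU : IsUni U) (hV : IsUni V) :
    IsUni (Matrix.fromBlocks U 0 0 V) := by
  constructor
  · rw [Matrix.fromBlocks_conjTranspose, Matrix.fromBlocks_multiply]
    simp [hU.left, hV.left, Matrix.fromBlocks_one]
  · rw [Matrix.fromBlocks_conjTranspose, Matrix.fromBlocks_multiply]
    simp [hU.right, hV.right, Matrix.fromBlocks_one]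

/-- `D ⊕ 0` is positive semidefinite -/
lemma posSemidef_fromBlocks_zero {D : Matrix e e ℂ} (hD : D.PosSemidef) :
    (Matrix.fromBlocks D 0 0 (0 : Matrix e e ℂ)).PosSemidef := by
  have h3 : (Matrix.fromBlocks D 0 0 (0 : Matrix e e ℂ)) =
      (Matrix.fromRows (1 : Matrix e e ℂ) (0 : Matrix e e ℂ)) * D *
        (Matrix.fromRows (1 : Matrix e e ℂ) (0 : Matrix e e ℂ))ᴴ := by
    rw [Matrix.conjTranspose_fromRows_eq_fromCols_conjTranspose, Matrix.fromRows_mul,
      Matrix.fromRows_mul_fromCols]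
    simp
  rw [h3]
  exact hD.mul_mul_conjTranspose_same _

/-- 3-path inequality for positive definite `A` (and nonzero `C`, `D`) -/
theorem threePath_posDef (hdiag : ThreePathDiag e) {A B C D : Matrix e e ℂ}
    (hA : A.PosDef)
    (hP : (Matrix.fromBlocks A B Bᴴ C).PosSemidef) (hD : D.PosSemidef)
    (hc : 0 < C.trace.re) (hd : 0 < D.trace.re) :
    vnEntropy A + vnEntropy C + vnEntropy D +
      (ent2 (A.trace.re + C.trace.re + D.trace.re) (C.trace.re * D.trace.re) -
        Real.negMulLog A.trace.re - Real.negMulLog C.trace.re - Real.negMulLog D.trace.re) ≤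
    vnEntropy (Matrix.fromBlocks (A + D) B Bᴴ C) := by
  set U : Matrix e e ℂ := (hA.isHermitian.eigenvectorUnitary : Matrix e e ℂ) with hUdef
  have hU : IsUni U := eigU hA.isHermitian
  set a : e → ℝ := hA.isHermitian.eigenvalues with hadef
  have ha : ∀ i, 0 < a i := fun i => hA.eigenvalues_pos i
  have hspec : spec U a = A := spec_eig hA.isHermitian
  have hdg : Uᴴ * A * U = diagonal (fun i => (a i : ℂ)) := by
    rw [← hspec, spec]
    simp only [Matrix.mul_assoc, hU.left, Matrix.mul_one]
    rw [← Matrix.mul_assoc, hU.left, Matrix.one_mul]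
  have hV : IsUni (Matrix.fromBlocks U 0 0 (1 : Matrix e e ℂ)) := IsUni.fromBlocks hU IsUni.one
  have hconj : ∀ X Y Z W : Matrix e e ℂ, (Matrix.fromBlocks U 0 0 (1 : Matrix e e ℂ))ᴴ *
      Matrix.fromBlocks X Y Z W * Matrix.fromBlocks U 0 0 (1 : Matrix e e ℂ) =
      Matrix.fromBlocks (Uᴴ * X * U) (Uᴴ * Y) (Z * U) W := by
    intro X Y Z W
    rw [Matrix.fromBlocks_conjTranspose, Matrix.fromBlocks_multiply, Matrix.fromBlocks_multiply]
    simp
  have hB : (Uᴴ * B)ᴴ = Bᴴ * U := by simp
  have hDtr : (Uᴴ * D * U).trace = D.trace := by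
    rw [Matrix.trace_mul_comm, ← Matrix.mul_assoc, hU.right, Matrix.one_mul]
  have hAtr : A.trace.re = ∑ i, a i := by
    rw [← hspec, spec_trace hU, Complex.ofReal_re]
  have h1 := hdiag a (Uᴴ * B) C (Uᴴ * D * U) ha
    (by
      have := hP.conjTranspose_mul_mul_same (Matrix.fromBlocks U 0 0 (1 : Matrix e e ℂ))
      rw [hconj, hdg, ← hB] at this
      exact this)
    (hD.conjTranspose_mul_mul_same U) hc (by rw [hDtr]; exact hd)
  have hM : (Matrix.fromBlocks (A + D) B Bᴴ C).PosSemidef := by
    have h2 : (Matrix.fromBlocks (A + D) B Bᴴ C) =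
        Matrix.fromBlocks A B Bᴴ C + Matrix.fromBlocks D 0 0 0 := by
      rw [Matrix.fromBlocks_add]; simp
    rw [h2]
    exact hP.add (posSemidef_fromBlocks_zero hD)
  have h4 : vnEntropy (Matrix.fromBlocks (A + D) B Bᴴ C) =
      vnEntropy (Matrix.fromBlocks (Matrix.diagonal (fun i => (a i : ℂ)) + Uᴴ * D * U)
        (Uᴴ * B) (Uᴴ * B)ᴴ C) := by
    rw [← vnEntropy_conj hM hV, hconj, hB, Matrix.mul_add, Matrix.add_mul, hdg]
  rw [h4]
  refine le_trans (le_of_eq ?_) h1
  rw [hDtr, hAtr, vnEntropy_conj hD hU]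
  congr 2
  congr 1
  conv_lhs => rw [← hspec]
  rw [vnEntropy_spec hU (fun i => (ha i).le)]

/-- adding a multiple of the identity to a matrix in spectral form -/
lemma spec_add_smul_one {U : Matrix d d ℂ} (hU : IsUni U) (l : d → ℝ) (ε : ℝ) :
    spec U l + (ε : ℂ) • (1 : Matrix d d ℂ) = spec U (fun i => l i + ε) := by
  have h1 : (ε : ℂ) • (1 : Matrix d d ℂ) = U * diagonal (fun _ => (ε : ℂ)) * Uᴴ := by
    have : (diagonal (fun _ => (ε : ℂ)) : Matrix d d ℂ) = (ε : ℂ) • (1 : Matrix d d ℂ) := by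
      ext i j
      simp [diagonal_apply, Matrix.one_apply]
    rw [this, Matrix.mul_smul, Matrix.smul_mul, Matrix.mul_one, hU.right]
  rw [h1, spec, spec, ← Matrix.add_mul, ← Matrix.mul_add]
  congr 2
  ext i j
  simp only [Matrix.add_apply, diagonal_apply]
  split_ifs <;> simp

/-- `S(A + ε) → S(A)` -/
lemma tendsto_vnEntropy_add_smul_one {A : Matrix d d ℂ} (hA : A.PosSemidef) :
    Tendsto (fun ε : ℝ => vnEntropy (A + (ε : ℂ) • (1 : Matrix d d ℂ))) (𝓝[>] 0)
      (𝓝 (vnEntropy A)) := by
  obtain ⟨U, l, hU, hl, rfl⟩ := exists_spec hA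
  rw [vnEntropy_spec hU hl]
  have h1 : Tendsto (fun ε : ℝ => ∑ i, Real.negMulLog (l i + ε)) (𝓝[>] 0)
      (𝓝 (∑ i, Real.negMulLog (l i))) := by
    have hcont : Continuous (fun ε : ℝ => ∑ i, Real.negMulLog (l i + ε)) := by
      refine continuous_finsetSum _ fun i _ => ?_
      exact Real.continuous_negMulLog.comp (continuous_const.add continuous_id)
    have := (hcont.tendsto 0).mono_left (nhdsWithin_le_nhds (s := Set.Ioi (0 : ℝ)))
    simpa using this
  refine h1.congr' ?_
  filter_upwards [self_mem_nhdsWithin] with ε hε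
  rw [spec_add_smul_one hU, vnEntropy_spec hU (fun i => add_nonneg (hl i) (le_of_lt hε))]

lemma continuous_ent2' : Continuous (fun x : ℝ × ℝ => ent2 x.1 x.2) := by
  unfold ent2
  refine Continuous.add ?_ ?_
  · exact Real.continuous_negMulLog.comp (by fun_prop)
  · exact Real.continuous_negMulLog.comp (by fun_prop)

/-- 3-path inequality, general, from the diagonal case. -/
theorem threePath_of_diag (hdiag : Nonempty e → ThreePathDiag e) {A B C D : Matrix e e ℂ}
    (hP : (Matrix.fromBlocks A B Bᴴ C).PosSemidef) (hD : D.PosSemidef) :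
    vnEntropy A + vnEntropy C + vnEntropy D +
      (ent2 (A.trace.re + C.trace.re + D.trace.re) (C.trace.re * D.trace.re) -
        Real.negMulLog A.trace.re - Real.negMulLog C.trace.re - Real.negMulLog D.trace.re) ≤
    vnEntropy (Matrix.fromBlocks (A + D) B Bᴴ C) := by
  rcases isEmpty_or_nonempty e with he | he
  · have h0 : ∀ X : Matrix e e ℂ, X = 0 := fun X => by ext i; exact he.elim i
    have h1 : ∀ X : Matrix (e ⊕ e) (e ⊕ e) ℂ, X = 0 := fun X => by
      ext i; rcases i with i | i <;> exact he.elim i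
    rw [h1 (Matrix.fromBlocks (A + D) B Bᴴ C), h0 A, h0 C, h0 D]
    simp [vnEntropy_zero, ent2]
  have hdiag' := hdiag he
  have hA : A.PosSemidef := by
    have := hP.submatrix (Sum.inl : e → e ⊕ e)
    have h2 : (Matrix.fromBlocks A B Bᴴ C).submatrix (Sum.inl : e → e ⊕ e) Sum.inl = A := by
      ext i j; simp
    rwa [h2] at this
  have hC : C.PosSemidef := by
    have := hP.submatrix (Sum.inr : e → e ⊕ e)
    have h2 : (Matrix.fromBlocks A B Bᴴ C).submatrix (Sum.inr : e → e ⊕ e) Sum.inr = C := by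
      ext i j; simp
    rwa [h2] at this
  have hDB := posSemidef_fromBlocks_zero hD
  have hM : (Matrix.fromBlocks (A + D) B Bᴴ C).PosSemidef := by
    have h2 : (Matrix.fromBlocks (A + D) B Bᴴ C) =
        Matrix.fromBlocks A B Bᴴ C + Matrix.fromBlocks D 0 0 0 := by
      rw [Matrix.fromBlocks_add]; simp
    rw [h2]
    exact hP.add hDB
  set M : Matrix (e ⊕ e) (e ⊕ e) ℂ := Matrix.fromBlocks (A + D) B Bᴴ C with hMdef
  set K : Matrix (e ⊕ e) (e ⊕ e) ℂ := Matrix.fromBlocks (2 : Matrix e e ℂ) 0 0 1 with hKdef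
  obtain ⟨V, l, hV, hl, hMV⟩ := exists_spec hM
  have hdgV : ∀ j, dg M V j = l j := by
    intro j
    rw [hMV, dg_spec, hV.left, Finset.sum_eq_single j]
    · simp
    · intro b _ hb
      simp [Matrix.one_apply_ne hb.symm]
    · simp
  have hSM : vnEntropy M = ∑ j, Real.negMulLog (l j) := by
    rw [hMV, vnEntropy_spec hV hl]
  -- the right hand side at level ε
  have hR : ∀ ε : ℝ, 0 < ε →
      vnEntropy (Matrix.fromBlocks ((A + (ε : ℂ) • 1) + (D + (ε : ℂ) • 1)) B Bᴴ
        (C + (ε : ℂ) • 1)) ≤ ∑ j, Real.negMulLog (l j + ε * dg K V j) := by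
    intro ε hε
    have hεc : (0 : ℂ) ≤ (ε : ℂ) := by exact_mod_cast hε.le
    have hMe : Matrix.fromBlocks ((A + (ε : ℂ) • 1) + (D + (ε : ℂ) • 1)) B Bᴴ
        (C + (ε : ℂ) • 1) = M + (ε : ℂ) • K := by
      rw [hMdef, hKdef, Matrix.fromBlocks_smul, Matrix.fromBlocks_add]
      congr 1
      · have : (2 : Matrix e e ℂ) = 1 + 1 := by norm_num
        rw [this, smul_add]
        abel
      · simp
      · simp
    have hK : K.PosSemidef := by
      have hK1 : K = 1 + Matrix.fromBlocks (1 : Matrix e e ℂ) 0 0 0 := by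
        rw [hKdef, ← Matrix.fromBlocks_one, Matrix.fromBlocks_add]
        congr 1
        · norm_num
        · simp
        · simp
        · simp
      rw [hK1]
      exact PosSemidef.one.add (posSemidef_fromBlocks_zero PosSemidef.one)
    rw [hMe]
    refine (vnEntropy_le_dg (hM.add (hK.smul hεc)) hV).trans (le_of_eq ?_)
    refine Finset.sum_congr rfl fun j _ => ?_
    rw [dg_add, dg_smul, hdgV]
  have hRlim : Tendsto (fun ε : ℝ => ∑ j, Real.negMulLog (l j + ε * dg K V j)) (𝓝[>] 0)
      (𝓝 (vnEntropy M)) := by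
    have hcont : Continuous (fun ε : ℝ => ∑ j, Real.negMulLog (l j + ε * dg K V j)) := by
      refine continuous_finsetSum _ fun i _ => ?_
      exact Real.continuous_negMulLog.comp (by fun_prop)
    have := (hcont.tendsto 0).mono_left (nhdsWithin_le_nhds (s := Set.Ioi (0 : ℝ)))
    simpa [hSM] using this
  -- traces
  have htr : ∀ (X : Matrix e e ℂ) (ε : ℝ), (X + (ε : ℂ) • (1 : Matrix e e ℂ)).trace.re =
      X.trace.re + ε * Fintype.card e := by
    intro X ε
    rw [Matrix.trace_add, Matrix.trace_smul, Matrix.trace_one, Complex.add_re, smul_eq_mul,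
      Complex.mul_re]
    simp
  have hcard : (0 : ℝ) < Fintype.card e := by exact_mod_cast Fintype.card_pos
  -- the inequality at level ε
  have hL : ∀ ε : ℝ, 0 < ε →
      vnEntropy (A + (ε : ℂ) • 1) + vnEntropy (C + (ε : ℂ) • 1) + vnEntropy (D + (ε : ℂ) • 1) +
      (ent2 ((A.trace.re + ε * Fintype.card e) + (C.trace.re + ε * Fintype.card e) +
          (D.trace.re + ε * Fintype.card e))
          ((C.trace.re + ε * Fintype.card e) * (D.trace.re + ε * Fintype.card e)) -
        Real.negMulLog (A.trace.re + ε * Fintype.card e) -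
        Real.negMulLog (C.trace.re + ε * Fintype.card e) -
        Real.negMulLog (D.trace.re + ε * Fintype.card e)) ≤
      ∑ j, Real.negMulLog (l j + ε * dg K V j) := by
    intro ε hε
    have hεc : (0 : ℂ) < (ε : ℂ) := by exact_mod_cast hε
    have hone : ((ε : ℂ) • (1 : Matrix e e ℂ)).PosDef := PosDef.one.smul hεc
    have hone' : ((ε : ℂ) • (1 : Matrix (e ⊕ e) (e ⊕ e) ℂ)).PosSemidef :=
      (PosDef.one.smul hεc).posSemidef
    have hPe : (Matrix.fromBlocks (A + (ε : ℂ) • 1) B Bᴴ (C + (ε : ℂ) • 1)).PosSemidef := by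
      have h2 : Matrix.fromBlocks (A + (ε : ℂ) • 1) B Bᴴ (C + (ε : ℂ) • 1) =
          Matrix.fromBlocks A B Bᴴ C + (ε : ℂ) • (1 : Matrix (e ⊕ e) (e ⊕ e) ℂ) := by
        rw [← Matrix.fromBlocks_one, Matrix.fromBlocks_smul, Matrix.fromBlocks_add]
        simp
      rw [h2]
      exact hP.add hone'
    have hCtr : 0 ≤ C.trace.re := (Complex.le_def.1 hC.trace_nonneg).1
    have hDtr : 0 ≤ D.trace.re := (Complex.le_def.1 hD.trace_nonneg).1
    have h5 := threePath_posDef hdiag' (A := A + (ε : ℂ) • 1) (B := B) (C := C + (ε : ℂ) • 1)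
      (D := D + (ε : ℂ) • 1) (hone.posSemidef_add hA) hPe (hD.add hone.posSemidef)
      (by rw [htr]; positivity) (by rw [htr]; positivity)
    rw [htr, htr, htr] at h5
    exact h5.trans (hR ε hε)
  have hscal : Continuous (fun ε : ℝ =>
      (ent2 ((A.trace.re + ε * Fintype.card e) + (C.trace.re + ε * Fintype.card e) +
          (D.trace.re + ε * Fintype.card e))
          ((C.trace.re + ε * Fintype.card e) * (D.trace.re + ε * Fintype.card e)) -
        Real.negMulLog (A.trace.re + ε * Fintype.card e) -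
        Real.negMulLog (C.trace.re + ε * Fintype.card e) -
        Real.negMulLog (D.trace.re + ε * Fintype.card e))) := by
    refine Continuous.sub (Continuous.sub (Continuous.sub ?_ ?_) ?_) ?_
    · have h6 : Continuous (fun ε : ℝ =>
          (((A.trace.re + ε * Fintype.card e) + (C.trace.re + ε * Fintype.card e) +
            (D.trace.re + ε * Fintype.card e),
          (C.trace.re + ε * Fintype.card e) * (D.trace.re + ε * Fintype.card e)) : ℝ × ℝ)) := by
        fun_prop
      exact continuous_ent2'.comp h6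
    · exact Real.continuous_negMulLog.comp (by fun_prop)
    · exact Real.continuous_negMulLog.comp (by fun_prop)
    · exact Real.continuous_negMulLog.comp (by fun_prop)
  have hscal' := (hscal.tendsto 0).mono_left (nhdsWithin_le_nhds (s := Set.Ioi (0 : ℝ)))
  have hLlim := (((tendsto_vnEntropy_add_smul_one hA).add
    (tendsto_vnEntropy_add_smul_one hC)).add (tendsto_vnEntropy_add_smul_one hD)).add hscal'
  have hfin := le_of_tendsto_of_tendsto hLlim hRlim
    (by filter_upwards [self_mem_nhdsWithin] with ε hε using hL ε hε)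
  simpa using hfin

end Crest.Agent.R341
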