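import Crest.Agent.R341.Defs
import Crest.Agent.R341.GlueA

/-! Row 341, task T6b: closure of the key inequality and the form `KeyIneq`. -/

set_option autoImplicit false

namespace Crest.Agent.R341

open Matrix Crest.Quantum Filter Topology
open scoped ComplexOrder

/-- interior form (T6a), as a hypothesis -/
def GadKeyInt : Prop :=
  ∀ (e : Type) [Fintype e] [DecidableEq e] (γ ν : ℝ), γ ∈ Set.Ioo (0 : ℝ) 1 →
    ν ∈ Set.Ioo (0 : ℝ) 1 → ∀ (A B C : Matrix e e ℂ),
    (Matrix.fromBlocks A B Bᴴ C).PosSemidef → 0 < A.trace.re → 0 < C.trace.re →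
    vnEntropy A + vnEntropy C + (ent2 (A.trace.re + C.trace.re) (vdet γ ν A.trace.re C.trace.re) -
        Real.negMulLog A.trace.re - Real.negMulLog C.trace.re) ≤
      vnEntropy (gadBlk γ ν A B C)

/-- continuity of the entropy (T3), as a hypothesis -/
def VnCont : Prop :=
  ∀ (n : Type) [Fintype n] [DecidableEq n] (l : Filter ℝ) (A : ℝ → Matrix n n ℂ)
    (A₀ : Matrix n n ℂ), (∀ i, (A i).IsHermitian) → A₀.IsHermitian → Tendsto A l (𝓝 A₀) →
    Tendsto (fun i => vnEntropy (A i)) l (𝓝 (vnEntropy A₀))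

lemma ent2_one_eq (d : ℝ) : ent2 1 d = Real.binEntropy ((1 + Real.sqrt (1 - 4 * d)) / 2) := by
  unfold ent2
  rw [Real.binEntropy_eq_negMulLog_add_negMulLog_one_sub]
  have h1 : (1 : ℝ) ^ 2 - 4 * d = 1 - 4 * d := by ring
  rw [h1]
  congr 2
  ring

lemma continuous_ent2_kg2 : Continuous (fun x : ℝ × ℝ => ent2 x.1 x.2) := by
  unfold ent2
  have h := Real.continuous_negMulLog
  fun_prop

lemma gadBlk_isHermitian {e : Type*} (γ ν : ℝ) {A B C : Matrix e e ℂ}
    (hA : A.IsHermitian) (hC : C.IsHermitian) : (gadBlk γ ν A B C).IsHermitian := by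
  unfold gadBlk Matrix.IsHermitian
  rw [Matrix.fromBlocks_conjTranspose]
  have hs : ∀ (c : ℝ) (M : Matrix e e ℂ), (((c : ℝ) : ℂ) • M)ᴴ = ((c : ℝ) : ℂ) • Mᴴ := by
    intro c M
    rw [Matrix.conjTranspose_smul]
    simp
  rw [Matrix.conjTranspose_add, Matrix.conjTranspose_add, hs, hs, hs, hs, hs, hs, hA.eq, hC.eq,
    Matrix.conjTranspose_conjTranspose]

lemma gadBlk_eq {e : Type*} (γ ν : ℝ) (A B C : Matrix e e ℂ) :
    gadBlk γ ν A B C = gadBlocks γ ν A B Bᴴ C := rfl

/-- the key inequality `(*)` for all parameters, by continuity -/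
theorem gadKey_of (hI : GadKeyInt) (hV : VnCont) {e : Type} [Fintype e] [DecidableEq e]
    {γ ν : ℝ} (hγ : γ ∈ Set.Icc (0 : ℝ) 1) (hν : ν ∈ Set.Icc (0 : ℝ) 1)
    {A B C : Matrix e e ℂ} (hP : (Matrix.fromBlocks A B Bᴴ C).PosSemidef) :
    vnEntropy A + vnEntropy C + (ent2 (A.trace.re + C.trace.re) (vdet γ ν A.trace.re C.trace.re) -
        Real.negMulLog A.trace.re - Real.negMulLog C.trace.re) ≤
      vnEntropy (gadBlk γ ν A B C) := by
  classical
  have hA : A.PosSemidef := by
    have := hP.submatrix (Sum.inl : e → e ⊕ e)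
    convert this using 1
    ext i j; simp
  have hC : C.PosSemidef := by
    have := hP.submatrix (Sum.inr : e → e ⊕ e)
    convert this using 1
    ext i j; simp
  rcases isEmpty_or_nonempty e with he | he
  · have h1 : ∀ M : Matrix e e ℂ, vnEntropy M = 0 := by
      intro M
      unfold vnEntropy
      split_ifs <;> simp
    have h2 : ∀ M : Matrix (e ⊕ e) (e ⊕ e) ℂ, vnEntropy M = 0 := by
      intro M
      unfold vnEntropy
      split_ifs <;> simp
    have h3 : ∀ M : Matrix e e ℂ, M.trace = 0 := by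
      intro M; simp [Matrix.trace]
    rw [h1, h1, h2, h3, h3]
    simp [ent2, vdet]
  -- perturbation
  set G : ℝ → ℝ := fun t => γ + t * (1 / 2 - γ) with hG
  set N : ℝ → ℝ := fun t => ν + t * (1 / 2 - ν) with hN
  set A' : ℝ → Matrix e e ℂ := fun t => A + ((t : ℝ) : ℂ) • 1 with hA'
  set C' : ℝ → Matrix e e ℂ := fun t => C + ((t : ℝ) : ℂ) • 1 with hC'
  have hherm : ∀ t : ℝ, (((t : ℝ) : ℂ) • (1 : Matrix e e ℂ)).IsHermitian := by
    intro t
    unfold Matrix.IsHermitian
    rw [Matrix.conjTranspose_smul]; simp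
  have hA'h : ∀ t, (A' t).IsHermitian := fun t => hA.1.add (hherm t)
  have hC'h : ∀ t, (C' t).IsHermitian := fun t => hC.1.add (hherm t)
  have hGc : Continuous G := by simp only [hG]; fun_prop
  have hNc : Continuous N := by simp only [hN]; fun_prop
  have hofc : Continuous (fun t : ℝ => ((t : ℝ) : ℂ)) := Complex.continuous_ofReal
  have hA'c : Continuous A' := by simp only [hA']; fun_prop
  have hC'c : Continuous C' := by simp only [hC']; fun_prop
  have hG0 : G 0 = γ := by simp [hG]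
  have hN0 : N 0 = ν := by simp [hN]
  have hA0 : A' 0 = A := by simp [hA']
  have hC0 : C' 0 = C := by simp [hC']
  have htrA : Continuous (fun t => (A' t).trace.re) :=
    Complex.continuous_re.comp (hA'c.matrix_trace)
  have htrC : Continuous (fun t => (C' t).trace.re) :=
    Complex.continuous_re.comp (hC'c.matrix_trace)
  have hlim : ∀ {X : Type} [TopologicalSpace X] (f : ℝ → X), Continuous f →
      Tendsto f (𝓝[>] (0 : ℝ)) (𝓝 (f 0)) := by
    intro X _ f hf
    exact (hf.tendsto 0).mono_left nhdsWithin_le_nhds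
  have hpos : ∀ᶠ t in 𝓝[>] (0 : ℝ), t ∈ Set.Ioo (0 : ℝ) 1 :=
    Ioo_mem_nhdsGT one_pos
  have hcard : (0 : ℝ) < Fintype.card e := by
    have := Fintype.card_pos (α := e)
    exact_mod_cast this
  have htr : ∀ (M : Matrix e e ℂ) (t : ℝ), (M + ((t : ℝ) : ℂ) • (1 : Matrix e e ℂ)).trace.re
      = M.trace.re + t * Fintype.card e := by
    intro M t
    rw [Matrix.trace_add, Matrix.trace_smul, Matrix.trace_one, Complex.add_re]
    simp
  -- entropy limits
  have hL1 : Tendsto (fun t => vnEntropy (A' t)) (𝓝[>] (0 : ℝ)) (𝓝 (vnEntropy A)) :=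
    hV e _ A' A hA'h hA.1 (by have := hlim A' hA'c; rwa [hA0] at this)
  have hL2 : Tendsto (fun t => vnEntropy (C' t)) (𝓝[>] (0 : ℝ)) (𝓝 (vnEntropy C)) :=
    hV e _ C' C hC'h hC.1 (by have := hlim C' hC'c; rwa [hC0] at this)
  have hBc : Continuous (fun t => gadBlk (G t) (N t) (A' t) B (C' t)) := by
    unfold gadBlk
    have h1 : Continuous fun t => (((1 - G t * N t : ℝ) : ℂ) • A' t + ((G t * (1 - N t) : ℝ) : ℂ) • C' t) := by
      fun_prop
    have h2 : Continuous fun t => (((G t * N t : ℝ) : ℂ) • A' t + ((1 - G t + G t * N t : ℝ) : ℂ) • C' t) := by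
      fun_prop
    have h3 : Continuous fun t => (((Real.sqrt (1 - G t) : ℝ) : ℂ) • B) := by
      fun_prop
    have h4 : Continuous fun t => (((Real.sqrt (1 - G t) : ℝ) : ℂ) • Bᴴ) := by
      fun_prop
    exact Continuous.matrix_fromBlocks h1 h3 h4 h2
  have hL3 : Tendsto (fun t => vnEntropy (gadBlk (G t) (N t) (A' t) B (C' t))) (𝓝[>] (0 : ℝ))
      (𝓝 (vnEntropy (gadBlk γ ν A B C))) :=
    hV (e ⊕ e) _ _ _ (fun t => gadBlk_isHermitian _ _ (hA'h t) (hC'h t))
      (gadBlk_isHermitian _ _ hA.1 hC.1)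
      (by have := hlim _ hBc; rwa [hG0, hN0, hA0, hC0] at this)
  have hL4 : Tendsto (fun t => ent2 ((A' t).trace.re + (C' t).trace.re)
      (vdet (G t) (N t) (A' t).trace.re (C' t).trace.re)) (𝓝[>] (0 : ℝ))
      (𝓝 (ent2 (A.trace.re + C.trace.re) (vdet γ ν A.trace.re C.trace.re))) := by
    have hv : Continuous (fun t => vdet (G t) (N t) (A' t).trace.re (C' t).trace.re) := by
      unfold vdet
      fun_prop
    have := hlim _ (continuous_ent2_kg2.comp ((htrA.add htrC).prodMk hv))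
    simp only [Function.comp_def, Pi.add_apply] at this
    rwa [hG0, hN0, hA0, hC0] at this
  have hL5 : Tendsto (fun t => Real.negMulLog (A' t).trace.re) (𝓝[>] (0 : ℝ))
      (𝓝 (Real.negMulLog A.trace.re)) := by
    have := hlim _ (Real.continuous_negMulLog.comp htrA)
    simp only [Function.comp_def] at this
    rwa [hA0] at this
  have hL6 : Tendsto (fun t => Real.negMulLog (C' t).trace.re) (𝓝[>] (0 : ℝ))
      (𝓝 (Real.negMulLog C.trace.re)) := by
    have := hlim _ (Real.continuous_negMulLog.comp htrC)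
    simp only [Function.comp_def] at this
    rwa [hC0] at this
  refine le_of_tendsto_of_tendsto ((hL1.add hL2).add ((hL4.sub hL5).sub hL6)) hL3 ?_
  filter_upwards [hpos] with t ht
  have hGt : G t ∈ Set.Ioo (0 : ℝ) 1 := by
    simp only [hG, Set.mem_Ioo]
    obtain ⟨h0, h1⟩ := hγ
    constructor <;> nlinarith [ht.1, ht.2]
  have hNt : N t ∈ Set.Ioo (0 : ℝ) 1 := by
    simp only [hN, Set.mem_Ioo]
    obtain ⟨h0, h1⟩ := hν
    constructor <;> nlinarith [ht.1, ht.2]
  have hAtr : 0 ≤ A.trace.re := by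
    have := hA.trace_nonneg
    exact (Complex.le_def.1 this).1
  have hCtr : 0 ≤ C.trace.re := by
    have := hC.trace_nonneg
    exact (Complex.le_def.1 this).1
  refine hI e (G t) (N t) hGt hNt (A' t) B (C' t) ?_ ?_ ?_
  · have hone : (((t : ℝ) : ℂ) • (1 : Matrix (e ⊕ e) (e ⊕ e) ℂ)).PosSemidef := by
      refine Matrix.PosSemidef.one.smul ?_
      exact_mod_cast ht.1.le
    have := hP.add hone
    convert this using 1
    rw [← Matrix.fromBlocks_one, Matrix.fromBlocks_smul, Matrix.fromBlocks_add]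
    simp [hA', hC']
  · rw [hA', htr]; have := mul_pos ht.1 hcard; linarith
  · rw [hC', htr]; have := mul_pos ht.1 hcard; linarith

theorem keyIneq_of (hI : GadKeyInt) (hV : VnCont) {γ ν : ℝ} (hγ : γ ∈ Set.Icc (0 : ℝ) 1)
    (hν : ν ∈ Set.Icc (0 : ℝ) 1) : KeyIneq γ ν := by
  intro e _ _ A B C hP htr
  have h := gadKey_of hI hV hγ hν hP
  have htr' : A.trace.re + C.trace.re = 1 := by
    have := congrArg Complex.re htr
    simpa using this
  rw [gadBlk_eq, htr', ent2_one_eq] at h
  have hA : A.trace.re = 1 - C.trace.re := by linarith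
  rw [hA] at h
  have hv : vdet γ ν (1 - C.trace.re) C.trace.re = vOut γ ν C.trace.re := by
    unfold vdet vOut; ring
  rw [hv] at h
  unfold fOut
  rw [Real.binEntropy_eq_negMulLog_add_negMulLog_one_sub C.trace.re]
  linarith

end Crest.Agent.R341
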