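import Crest.Agent.R341.Defs
import Crest.Agent.R341.Ent2

/-! Row 341, task T6a: the key inequality for GAD, interior parameters, from the 3-path inequality. -/

set_option autoImplicit false

namespace Crest.Agent.R341

open Matrix Crest.Quantum
open scoped ComplexOrder

/-- the 3-path inequality as a hypothesis -/
def ThreePath (e : Type*) [Fintype e] [DecidableEq e] : Prop :=
  ∀ A B C D : Matrix e e ℂ, (Matrix.fromBlocks A B Bᴴ C).PosSemidef → D.PosSemidef →
    vnEntropy A + vnEntropy C + vnEntropy D +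
      (ent2 (A.trace.re + C.trace.re + D.trace.re) (C.trace.re * D.trace.re) -
        Real.negMulLog A.trace.re - Real.negMulLog C.trace.re - Real.negMulLog D.trace.re) ≤
    vnEntropy (Matrix.fromBlocks (A + D) B Bᴴ C)

lemma ent2_smul {θ : ℝ} (hθ : 0 ≤ θ) (t v : ℝ) :
    ent2 (θ * t) (θ ^ 2 * v) = θ * ent2 t v + Real.negMulLog θ * t := by
  have h1 : Real.sqrt ((θ * t) ^ 2 - 4 * (θ ^ 2 * v)) = θ * Real.sqrt (t ^ 2 - 4 * v) := by
    rw [show (θ * t) ^ 2 - 4 * (θ ^ 2 * v) = θ ^ 2 * (t ^ 2 - 4 * v) by ring,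
      Real.sqrt_mul (sq_nonneg θ), Real.sqrt_sq hθ]
  rw [ent2, h1, ent2, show (θ * t + θ * Real.sqrt (t ^ 2 - 4 * v)) / 2
      = θ * ((t + Real.sqrt (t ^ 2 - 4 * v)) / 2) by ring,
    show (θ * t - θ * Real.sqrt (t ^ 2 - 4 * v)) / 2
      = θ * ((t - Real.sqrt (t ^ 2 - 4 * v)) / 2) by ring,
    Real.negMulLog_mul, Real.negMulLog_mul]
  ring

variable {e : Type*} [Fintype e] [DecidableEq e]

lemma fromBlocks_PSD_left {A B C : Matrix e e ℂ} (hP : (Matrix.fromBlocks A B Bᴴ C).PosSemidef) :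
    A.PosSemidef := by
  have := hP.submatrix (Sum.inl : e → e ⊕ e)
  convert this using 1
  ext i j; simp

lemma fromBlocks_PSD_right {A B C : Matrix e e ℂ} (hP : (Matrix.fromBlocks A B Bᴴ C).PosSemidef) :
    C.PosSemidef := by
  have := hP.submatrix (Sum.inr : e → e ⊕ e)
  convert this using 1
  ext i j; simp

lemma trace_fromBlocks (A B C D : Matrix e e ℂ) :
    (Matrix.fromBlocks A B C D).trace = A.trace + D.trace := by
  simp [Matrix.trace]

lemma fromBlocks_swap_PSD {A B C : Matrix e e ℂ} (hP : (Matrix.fromBlocks A B Bᴴ C).PosSemidef) :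
    (Matrix.fromBlocks C Bᴴ (Bᴴ)ᴴ A).PosSemidef := by
  have := hP.submatrix (Sum.swap : e ⊕ e → e ⊕ e)
  rw [Matrix.fromBlocks_submatrix_sum_swap_sum_swap] at this
  rwa [Matrix.conjTranspose_conjTranspose]

lemma fromBlocks_add_left {A B C D : Matrix e e ℂ} (hP : (Matrix.fromBlocks A B Bᴴ C).PosSemidef)
    (hD : D.PosSemidef) : (Matrix.fromBlocks (A + D) B Bᴴ C).PosSemidef := by
  have h1 : (Matrix.fromBlocks D (0 : Matrix e e ℂ) 0 0).PosSemidef := by
    have h2 := hD.conjTranspose_mul_mul_same (Matrix.fromCols (1 : Matrix e e ℂ) (0 : Matrix e e ℂ))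
    convert h2 using 1
    ext i j
    rcases i with i | i <;> rcases j with j | j <;>
      simp [Matrix.mul_apply, Matrix.one_apply, Matrix.fromBlocks]
  have h3 := hP.add h1
  rw [Matrix.fromBlocks_add] at h3
  simpa using h3

/-- scaling the two blocks of a PSD block matrix by `α, k ≥ 0` and the coherence by `σ`,
`σ^2 = α k`. -/
lemma fromBlocks_scale {A B C : Matrix e e ℂ} (hP : (Matrix.fromBlocks A B Bᴴ C).PosSemidef)
    {α k σ : ℝ} (hα : 0 < α) (hk : σ ^ 2 = α * k) :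
    (Matrix.fromBlocks ((α : ℂ) • A) ((σ : ℂ) • B) ((σ : ℂ) • B)ᴴ ((k : ℂ) • C)).PosSemidef := by
  -- conjugate with `diag(√α, σ/√α)`
  have hs : 0 < Real.sqrt α := Real.sqrt_pos.2 hα
  set x : ℝ := Real.sqrt α with hx
  set y : ℝ := σ / x with hy
  have hxx : x * x = α := Real.mul_self_sqrt hα.le
  have hxy : x * y = σ := by rw [hy]; field_simp
  have hyy : y * y = k := by
    rw [hy, div_mul_div_comm, hxx, ← pow_two, hk]; field_simp
  set W : Matrix (e ⊕ e) (e ⊕ e) ℂ :=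
    Matrix.fromBlocks ((x : ℂ) • 1) 0 0 ((y : ℂ) • 1) with hW
  have h := hP.mul_mul_conjTranspose_same W
  convert h using 1
  rw [hW, Matrix.fromBlocks_conjTranspose, Matrix.fromBlocks_multiply, Matrix.fromBlocks_multiply]
  congr 1
  · ext i j; simp [← hxx]; ring
  · ext i j; simp [← hxy]; ring
  · ext i j; simp [← hxy]; ring
  · ext i j; simp [← hyy]; ring

/-- interior parameters -/
theorem gadKey_interior_of (h3 : ThreePath e) {γ ν : ℝ} (hγ : γ ∈ Set.Ioo (0 : ℝ) 1)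
    (hν : ν ∈ Set.Ioo (0 : ℝ) 1)
    {A B C : Matrix e e ℂ} (hP : (Matrix.fromBlocks A B Bᴴ C).PosSemidef)
    (ha : 0 < A.trace.re) (hc : 0 < C.trace.re) :
    vnEntropy A + vnEntropy C + (ent2 (A.trace.re + C.trace.re) (vdet γ ν A.trace.re C.trace.re) -
        Real.negMulLog A.trace.re - Real.negMulLog C.trace.re) ≤
      vnEntropy (gadBlk γ ν A B C) := by
  obtain ⟨hγ0, hγ1⟩ := hγ
  obtain ⟨hν0, hν1⟩ := hν
  have hA := fromBlocks_PSD_left hP
  have hC := fromBlocks_PSD_right hP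
  set a := A.trace.re with ha_def
  set c := C.trace.re with hc_def
  set s := Real.sqrt (1 - γ) with hs_def
  have hs0 : 0 < s := Real.sqrt_pos.2 (by linarith)
  have hs2 : s * s = 1 - γ := Real.mul_self_sqrt (by linarith)
  set n0 := (1 - γ * ν) * a + γ * (1 - ν) * c with hn0
  set n1 := γ * ν * a + (1 - γ + γ * ν) * c with hn1
  have hγν : 0 < γ * ν := mul_pos hγ0 hν0
  have hγν' : 0 < γ * (1 - ν) := mul_pos hγ0 (by linarith)
  have h1γν : 0 < 1 - γ * ν := by nlinarith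
  have hn0pos : 0 < n0 := by positivity
  have h1γ' : 0 < 1 - γ + γ * ν := by nlinarith
  have hn1pos : 0 < n1 := by positivity
  set v := vdet γ ν a c with hv
  have hvdef : v = n0 * n1 - (1 - γ) * a * c := by rw [hv, vdet, hn0, hn1]
  have hveq : v = γ * ν * a * n0 + γ * (1 - ν) * c * n1 := by
    rw [hvdef, hn0, hn1]; ring
  have hvpos : 0 < v := by rw [hveq]; positivity
  set θ := γ * (1 - ν) * c * n1 / v with hθ
  have hθpos : 0 < θ := by positivity
  have hθ' : 1 - θ = γ * ν * a * n0 / v := by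
    rw [hθ, eq_div_iff hvpos.ne', sub_mul, div_mul_cancel₀ _ hvpos.ne', hveq]; ring
  have hθ'pos : 0 < 1 - θ := by rw [hθ']; positivity
  have hθ1 : θ < 1 := by linarith
  have hθv : θ * v = γ * (1 - ν) * c * n1 := by rw [hθ, div_mul_cancel₀ _ hvpos.ne']
  have hθv' : (1 - θ) * v = γ * ν * a * n0 := by rw [hθ', div_mul_cancel₀ _ hvpos.ne']
  set k1 := θ * n1 / c with hk1
  set α1 := θ * (1 - γ) * c / n1 with hα1
  set α2 := (1 - θ) * n0 / a with hα2
  set k2 := (1 - θ) * (1 - γ) * a / n0 with hk2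
  have hk1pos : 0 < k1 := by positivity
  have h1γ : 0 < 1 - γ := by linarith
  have hα1pos : 0 < α1 := by positivity
  have hα2pos : 0 < α2 := by positivity
  have hk2pos : 0 < k2 := by positivity
  have hsum0 : α1 + α2 = 1 - γ * ν := by
    rw [hα1, hα2, hθ, hθ', hveq]
    have : 0 < γ * ν * a * n0 + γ * (1 - ν) * c * n1 := by rw [← hveq]; exact hvpos
    field_simp
    rw [hn0, hn1]
    ring
  have hsum1 : k1 + k2 = 1 - γ + γ * ν := by
    rw [hk1, hk2, hθ, hθ', hveq]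
    have : 0 < γ * ν * a * n0 + γ * (1 - ν) * c * n1 := by rw [← hveq]; exact hvpos
    field_simp
    rw [hn0, hn1]
    ring
  -- scalar identities
  have hβc : γ * (1 - ν) * c = θ * v / n1 := by rw [hθv]; field_simp
  have hβa : γ * ν * a = (1 - θ) * v / n0 := by rw [hθv']; field_simp
  have ht1 : α1 * a + k1 * c + γ * (1 - ν) * c = θ * (a + c) := by
    rw [hβc, hvdef, hα1, hk1]
    have : a + c = n0 + n1 := by rw [hn0, hn1]; ring
    rw [this]
    field_simp
    ring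
  have ht2 : k2 * c + α2 * a + γ * ν * a = (1 - θ) * (a + c) := by
    rw [hβa, hvdef, hα2, hk2]
    have : a + c = n0 + n1 := by rw [hn0, hn1]; ring
    rw [this]
    field_simp
    ring
  have hd1 : k1 * c * (γ * (1 - ν) * c) = θ ^ 2 * v := by
    rw [hβc, hk1]; field_simp
  have hd2 : α2 * a * (γ * ν * a) = (1 - θ) ^ 2 * v := by
    rw [hβa, hα2]; field_simp
  have hσ1 : (θ * s) ^ 2 = α1 * k1 := by
    rw [hα1, hk1, mul_pow, pow_two s, hs2]; field_simp
  have hσ2 : ((1 - θ) * s) ^ 2 = α2 * k2 := by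
    rw [hα2, hk2, mul_pow, pow_two s, hs2]; field_simp
  set β : ℝ := γ * (1 - ν) with hβ
  set β' : ℝ := γ * ν with hβ'
  have hPSDs : ∀ (r : ℝ) (X : Matrix e e ℂ), 0 < r → X.PosSemidef → ((r : ℂ) • X).PosSemidef := by
    intro r X hr hX
    exact hX.smul (by exact_mod_cast hr.le)
  have htr : ∀ (r : ℝ) (X : Matrix e e ℂ), ((r : ℂ) • X).trace.re = r * X.trace.re := by
    intro r X
    simp [Matrix.trace_smul]
  have hP1 := fromBlocks_scale hP hα1pos hσ1
  have hP2 := fromBlocks_scale hP hα2pos hσ2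
  have hP2' := fromBlocks_swap_PSD hP2
  have hD1 := hPSDs β C hγν' hC
  have hD2 := hPSDs β' A hγν hA
  have key1 := h3 _ _ _ _ hP1 hD1
  have key2 := h3 _ _ _ _ hP2' hD2
  have hM1 := fromBlocks_add_left hP1 hD1
  have hM2 := fromBlocks_add_left hP2' hD2
  have hsplit : gadBlk γ ν A B C =
      Matrix.fromBlocks ((α1 : ℂ) • A + (β : ℂ) • C) (((θ * s : ℝ) : ℂ) • B)
        (((θ * s : ℝ) : ℂ) • B)ᴴ ((k1 : ℂ) • C) +
      (Matrix.fromBlocks ((k2 : ℂ) • C + (β' : ℂ) • A) ((((1 - θ) * s : ℝ) : ℂ) • B)ᴴ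
        (((((1 - θ) * s : ℝ) : ℂ) • B)ᴴ)ᴴ ((α2 : ℂ) • A)).submatrix (Equiv.sumComm e e)
          (Equiv.sumComm e e) := by
    rw [gadBlk, show ((Equiv.sumComm e e : e ⊕ e ≃ e ⊕ e) : e ⊕ e → e ⊕ e) = Sum.swap from rfl,
      Matrix.fromBlocks_submatrix_sum_swap_sum_swap, Matrix.fromBlocks_add]
    congr 1
    · rw [show γ * (1 - ν) = β from rfl, show γ * ν = β' from rfl, ← hsum0]
      ext i j; simp; ring
    · ext i j; simp [← hs_def]; ring
    · ext i j; simp [← hs_def]; ring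
    · rw [show γ * ν = β' from rfl, ← hsum1]
      ext i j; simp; ring
  rw [hsplit]
  have hM2' := hM2.submatrix (Equiv.sumComm e e)
  have hadd := vnEntropy_add_ge hM1 hM2' hθpos hθ1
  rw [vnEntropy_submatrix hM2] at hadd
  refine le_trans ?_ hadd
  have htM1 : (Matrix.fromBlocks ((α1 : ℂ) • A + (β : ℂ) • C) (((θ * s : ℝ) : ℂ) • B)
        (((θ * s : ℝ) : ℂ) • B)ᴴ ((k1 : ℂ) • C)).trace.re = θ * (a + c) := by
    rw [trace_fromBlocks, Matrix.trace_add, Complex.add_re, Complex.add_re, htr, htr, htr,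
      ← ht1]
    ring
  have htM2 : ((Matrix.fromBlocks ((k2 : ℂ) • C + (β' : ℂ) • A) ((((1 - θ) * s : ℝ) : ℂ) • B)ᴴ
        (((((1 - θ) * s : ℝ) : ℂ) • B)ᴴ)ᴴ ((α2 : ℂ) • A)).submatrix (Equiv.sumComm e e)
          (Equiv.sumComm e e)).trace.re = (1 - θ) * (a + c) := by
    rw [show ((Equiv.sumComm e e : e ⊕ e ≃ e ⊕ e) : e ⊕ e → e ⊕ e) = Sum.swap from rfl,
      Matrix.fromBlocks_submatrix_sum_swap_sum_swap,
      trace_fromBlocks, Matrix.trace_add, Complex.add_re, Complex.add_re, htr, htr, htr,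
      ← ht2]
    ring
  rw [htM1, htM2]
  clear_value β β'
  rw [htr, htr, htr, ← ha_def, ← hc_def, vnEntropy_smul hA hα1pos.le, vnEntropy_smul hC hk1pos.le,
    vnEntropy_smul hC hγν'.le, ← ha_def, ← hc_def, ht1, hd1, ent2_smul hθpos.le,
    Real.negMulLog_mul, Real.negMulLog_mul, Real.negMulLog_mul] at key1
  rw [htr, htr, htr, ← ha_def, ← hc_def, vnEntropy_smul hA hα2pos.le, vnEntropy_smul hC hk2pos.le,
    vnEntropy_smul hA hγν.le, ← ha_def, ← hc_def, ht2, hd2, ent2_smul hθ'pos.le,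
    Real.negMulLog_mul, Real.negMulLog_mul, Real.negMulLog_mul] at key2
  have e1 : Real.negMulLog θ = - θ * Real.log θ := rfl
  have e2 : Real.negMulLog (1 - θ) = - (1 - θ) * Real.log (1 - θ) := rfl
  rw [e1] at key1
  rw [e2] at key2
  have hsum1' : k1 + k2 = 1 - β := by
    have : 1 - γ + γ * ν = 1 - β := by rw [hβ]; ring
    rw [← this, ← hβ', ← hsum1]
  linear_combination key1 + key2 - (vnEntropy A - Real.negMulLog a) * hsum0 -
    (vnEntropy C - Real.negMulLog c) * hsum1'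

end Crest.Agent.R341
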