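import Crest.Agent.R341.Key3A
import Crest.Agent.R341.Key3B
import Crest.Agent.R341.KeyGADA
import Crest.Agent.R341.KeyGAD2
import Crest.Agent.R341.ContA

/-! Row 341: the key inequality, assembled. -/

namespace Crest.Agent.R341

open Matrix Crest.Quantum
open scoped ComplexOrder

theorem threePath_all (e : Type) [Fintype e] [DecidableEq e] : ThreePath e := by
  intro A B C D hP hD
  exact threePath_of_diag
    (fun _ => fun a B C D ha hP hD hc hd => threePath_diag ha hP hD hc hd) hP hD

theorem gadKeyInt_all : GadKeyInt := by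
  intro e _ _ γ ν hγ hν A B C hP ha hc
  exact gadKey_interior_of (threePath_all e) hγ hν hP ha hc

theorem vnCont_all : VnCont := by
  intro n _ _ l A A₀ hA h0 h
  exact tendsto_vnEntropy hA h0 h

/-- the key inequality `(*)` -/
theorem key {γ ν : ℝ} (hγ : γ ∈ Set.Icc (0 : ℝ) 1) (hν : ν ∈ Set.Icc (0 : ℝ) 1) :
    KeyIneq γ ν :=
  keyIneq_of gadKeyInt_all vnCont_all hγ hν

end Crest.Agent.R341
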