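import Crest.Agent.R341.Key3A
import Crest.Agent.R341.Key3B
import Crest.Agent.R341.KeyGADA
import Crest.Agent.R341.KeyGAD2
import Crest.Agent.R341.ContA

/-! Row 341: the key inequality `KeyIneq γ ν`. -/

set_option autoImplicit false

namespace Crest.Agent.R341

open Crest.Quantum Crest.MathPhysics.AmpDamp Matrix
open scoped ComplexOrder

theorem threePathAll (e : Type*) [Fintype e] [DecidableEq e] : ThreePath e :=
  fun _ _ _ _ hP hD => threePath_of_diag
    (fun _ => fun _ _ _ _ ha hP hD hc hd => threePath_diag ha hP hD hc hd) hP hD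

theorem keyIneq {γ ν : ℝ} (hγ : γ ∈ Set.Icc (0 : ℝ) 1) (hν : ν ∈ Set.Icc (0 : ℝ) 1) :
    KeyIneq γ ν :=
  keyIneq_of
    (fun e _ _ _ _ hγ hν _ _ _ hP ha hc => gadKey_interior_of (threePathAll e) hγ hν hP ha hc)
    (fun _ _ _ _ _ _ hA h0 h => tendsto_vnEntropy hA h0 h) hγ hν

end Crest.Agent.R341
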