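import Crest.Agent.R341.Ent
import Crest.Prelude.Def_AmpDamp

set_option autoImplicit false

namespace Crest.Agent.R341

open Crest.Quantum Crest.MathPhysics.AmpDamp Matrix
open scoped ComplexOrder

set_option linter.unusedSectionVars false

variable {d e : Type*} [Fintype d] [Fintype e] [DecidableEq d] [DecidableEq e]

/-- complete positivity (any auxiliary index type) from a Kraus form -/
theorem blockwise_posSemidef_of_kraus {J : Type*} [Fintype J] (K : J → Matrix e d ℂ)
    {Ψ : Matrix d d ℂ → Matrix e e ℂ} (h : ∀ M, Ψ M = ∑ j, K j * M * (K j)ᴴ)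
    {k : Type*} [Fintype k] [DecidableEq k] {M : Matrix (k × d) (k × d) ℂ} (hM : M.PosSemidef) :
    (blockwise Ψ M).PosSemidef := by
  have h1 : blockwise Ψ M = ∑ j, (kroneckerMap (· * ·) (1 : Matrix k k ℂ) (K j)) * M *
      (kroneckerMap (· * ·) (1 : Matrix k k ℂ) (K j))ᴴ := by
    ext ⟨s, i⟩ ⟨t, l⟩
    simp only [blockwise, block, Matrix.of_apply, h, Matrix.sum_apply]
    refine Finset.sum_congr rfl fun j _ => ?_
    simp only [Matrix.mul_apply, Matrix.kroneckerMap_apply, Fintype.sum_prod_type,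
      Matrix.conjTranspose_apply, Matrix.one_apply, Matrix.of_apply]
    simp only [Finset.sum_mul, ite_mul, one_mul, zero_mul, Finset.sum_ite_irrel,
      Finset.sum_const_zero, Finset.sum_ite_eq, Finset.mem_univ, if_true, apply_ite star, star_zero,
      mul_ite, mul_zero]
  rw [h1]
  exact Matrix.posSemidef_sum _ fun j _ => hM.mul_mul_conjTranspose_same _

theorem cp_of_kraus {J : Type*} [Fintype J] (K : J → Matrix e d ℂ)
    {Ψ : Matrix d d ℂ → Matrix e e ℂ} (h : ∀ M, Ψ M = ∑ j, K j * M * (K j)ᴴ) :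
    IsCompletelyPositive Ψ :=
  fun _ _ hM => blockwise_posSemidef_of_kraus K h hM

/-- Kraus operators of the generalized amplitude damping channel -/
noncomputable def gadK (γ ν : ℝ) (j : Fin 4) : Matrix Bool Bool ℂ :=
  Matrix.of fun s t =>
    if j = 0 then
      (if s = t then (if s then ((Real.sqrt (1 - ν) * Real.sqrt (1 - γ) : ℝ) : ℂ)
        else ((Real.sqrt (1 - ν) : ℝ) : ℂ)) else 0)
    else if j = 1 then
      (if s = false ∧ t = true then ((Real.sqrt (1 - ν) * Real.sqrt γ : ℝ) : ℂ) else 0)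
    else if j = 2 then
      (if s = t then (if s then ((Real.sqrt ν : ℝ) : ℂ)
        else ((Real.sqrt ν * Real.sqrt (1 - γ) : ℝ) : ℂ)) else 0)
    else
      (if s = true ∧ t = false then ((Real.sqrt ν * Real.sqrt γ : ℝ) : ℂ) else 0)

theorem gadMap_kraus {γ ν : ℝ} (hγ : γ ∈ Set.Icc (0 : ℝ) 1) (hν : ν ∈ Set.Icc (0 : ℝ) 1)
    (M : Matrix Bool Bool ℂ) :
    gadMap γ ν M = ∑ j, gadK γ ν j * M * (gadK γ ν j)ᴴ := by
  have a1 : (((Real.sqrt (1 - ν) : ℝ) : ℂ)) * ((Real.sqrt (1 - ν) : ℝ) : ℂ) = 1 - ν := by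
    rw [← Complex.ofReal_mul, Real.mul_self_sqrt (by linarith [hν.2])]; simp
  have a2 : (((Real.sqrt ν : ℝ) : ℂ)) * ((Real.sqrt ν : ℝ) : ℂ) = ν := by
    rw [← Complex.ofReal_mul, Real.mul_self_sqrt hν.1]
  have a3 : (((Real.sqrt (1 - γ) : ℝ) : ℂ)) * ((Real.sqrt (1 - γ) : ℝ) : ℂ) = 1 - γ := by
    rw [← Complex.ofReal_mul, Real.mul_self_sqrt (by linarith [hγ.2])]; simp
  have a4 : (((Real.sqrt γ : ℝ) : ℂ)) * ((Real.sqrt γ : ℝ) : ℂ) = γ := by
    rw [← Complex.ofReal_mul, Real.mul_self_sqrt hγ.1]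
  ext s t
  rw [Matrix.sum_apply]
  cases s <;> cases t <;>
    simp [gadMap, gadK, Matrix.mul_apply, Fin.sum_univ_four]
  · linear_combination (-(γ : ℂ) * M true true) * a1 + (-M false false) * a1
      - (Real.sqrt (1 - ν) * Real.sqrt (1 - ν)) * M true true * a4 - (1-γ) * M false false * a2
      - (Real.sqrt ν * Real.sqrt ν) * M false false * a3
  · linear_combination (-(Real.sqrt (1 - γ)) * M false true) * a1 + (-(Real.sqrt (1 - γ)) * M false true) * a2
  · linear_combination (-(Real.sqrt (1 - γ)) * M true false) * a1 + (-(Real.sqrt (1 - γ)) * M true false) * a2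
  · linear_combination (-(1 - (γ : ℂ)) * M true true) * a1 + (-M true true) * a2
      - (Real.sqrt (1 - ν) * Real.sqrt (1 - ν)) * M true true * a3 - (γ) * M false false * a2
      - (Real.sqrt ν * Real.sqrt ν) * M false false * a4

end Crest.Agent.R341
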