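import Crest.Agent.R341.Defs

/-! Row 341, task T10: `qubitPower`. -/

namespace Crest.Agent.R341

open Matrix Crest.Quantum Crest.MathPhysics.AmpDamp
open scoped ComplexOrder Kronecker

section
variable {d e κ : Type*} [Fintype d] [DecidableEq d] [Fintype e] [DecidableEq e] [Fintype κ]

/-- Kraus-type maps are channels -/
theorem isChannel_of_kraus (K : κ → Matrix e d ℂ) (hK : ∑ k, (K k)ᴴ * K k = 1) :
    IsChannel (fun M : Matrix d d ℂ => ∑ k, K k * M * (K k)ᴴ) := by
  refine ⟨⟨?_, ?_⟩, ?_, ?_⟩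
  · intro M N
    simp [Matrix.mul_add, Matrix.add_mul, Finset.sum_add_distrib]
  · intro c M
    simp [Finset.smul_sum]
  · intro m M hM
    have h : blockwise (k := Fin m) (fun M : Matrix d d ℂ => ∑ k, K k * M * (K k)ᴴ) M =
        ∑ k, (Matrix.of fun (p : Fin m × e) (q : Fin m × d) => if p.1 = q.1 then K k p.2 q.2 else 0) *
          M * (Matrix.of fun (p : Fin m × e) (q : Fin m × d) =>
            if p.1 = q.1 then K k p.2 q.2 else 0)ᴴ := by
      ext p q
      simp only [blockwise, block, Matrix.of_apply, Matrix.sum_apply, Matrix.mul_apply,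
        Matrix.conjTranspose_apply]
      refine Finset.sum_congr rfl fun k _ => ?_
      rw [Fintype.sum_prod_type]
      rw [Finset.sum_eq_single q.1]
      · refine Finset.sum_congr rfl fun j _ => ?_
        congr 1
        · rw [Fintype.sum_prod_type, Finset.sum_eq_single p.1]
          · simp
          · intro b _ hb
            simp [Ne.symm hb]
          · simp
        · simp
      · intro b _ hb
        simp [Ne.symm hb]
      · simp
    rw [h]
    refine Matrix.posSemidef_sum _ fun k _ => ?_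
    exact hM.mul_mul_conjTranspose_same _
  · intro M
    simp only [Matrix.trace_sum]
    have : ∀ k, (K k * M * (K k)ᴴ).trace = ((K k)ᴴ * K k * M).trace := by
      intro k
      rw [Matrix.trace_mul_comm, Matrix.mul_assoc, ← Matrix.mul_assoc]
    simp only [this, ← Matrix.trace_sum, ← Finset.sum_mul, hK, Matrix.one_mul]

end

/-- the Kraus operators of the generalized amplitude damping map -/
noncomputable def gadKraus (γ ν : ℝ) : Fin 4 → Matrix Bool Bool ℂ := fun k =>
  Matrix.of fun s t =>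
    if k = 0 then
      (if s = false ∧ t = false then ((Real.sqrt (1 - ν) : ℝ) : ℂ)
        else if s = true ∧ t = true then ((Real.sqrt (1 - ν) * Real.sqrt (1 - γ) : ℝ) : ℂ) else 0)
    else if k = 1 then
      (if s = false ∧ t = true then ((Real.sqrt (1 - ν) * Real.sqrt γ : ℝ) : ℂ) else 0)
    else if k = 2 then
      (if s = false ∧ t = false then ((Real.sqrt ν * Real.sqrt (1 - γ) : ℝ) : ℂ)
        else if s = true ∧ t = true then ((Real.sqrt ν : ℝ) : ℂ) else 0)
    else
      (if s = true ∧ t = false then ((Real.sqrt ν * Real.sqrt γ : ℝ) : ℂ) else 0)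

theorem gadKraus_sum {γ ν : ℝ} (hγ : γ ∈ Set.Icc (0 : ℝ) 1) (hν : ν ∈ Set.Icc (0 : ℝ) 1) :
    ∑ k, (gadKraus γ ν k)ᴴ * gadKraus γ ν k = 1 := by
  have h1 : ((Real.sqrt ν : ℝ) : ℂ) * ((Real.sqrt ν : ℝ) : ℂ) = ν := by
    rw [← Complex.ofReal_mul, Real.mul_self_sqrt hν.1]
  have h2 : ((Real.sqrt (1 - ν) : ℝ) : ℂ) * ((Real.sqrt (1 - ν) : ℝ) : ℂ) = 1 - ν := by
    rw [← Complex.ofReal_mul, Real.mul_self_sqrt (by linarith [hν.2])]; push_cast; ring
  have h3 : ((Real.sqrt γ : ℝ) : ℂ) * ((Real.sqrt γ : ℝ) : ℂ) = γ := by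
    rw [← Complex.ofReal_mul, Real.mul_self_sqrt hγ.1]
  have h4 : ((Real.sqrt (1 - γ) : ℝ) : ℂ) * ((Real.sqrt (1 - γ) : ℝ) : ℂ) = 1 - γ := by
    rw [← Complex.ofReal_mul, Real.mul_self_sqrt (by linarith [hγ.2])]; push_cast; ring
  ext s t
  cases s <;> cases t <;>
    simp [Fin.sum_univ_four, Matrix.mul_apply, gadKraus, Matrix.add_apply]
  · linear_combination h2 + ((Real.sqrt (1 - γ) : ℝ) : ℂ) * ((Real.sqrt (1 - γ) : ℝ) : ℂ) * h1 +
      (ν : ℂ) * h4 + ((Real.sqrt γ : ℝ) : ℂ) * ((Real.sqrt γ : ℝ) : ℂ) * h1 + (ν : ℂ) * h3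
  · linear_combination h1 + ((Real.sqrt (1 - γ) : ℝ) : ℂ) * ((Real.sqrt (1 - γ) : ℝ) : ℂ) * h2 +
      (1 - ν : ℂ) * h4 + ((Real.sqrt γ : ℝ) : ℂ) * ((Real.sqrt γ : ℝ) : ℂ) * h2 + (1 - ν : ℂ) * h3

theorem gadMap_eq_kraus {γ ν : ℝ} (hγ : γ ∈ Set.Icc (0 : ℝ) 1) (hν : ν ∈ Set.Icc (0 : ℝ) 1) :
    gadMap γ ν = fun M : Matrix Bool Bool ℂ => ∑ k, gadKraus γ ν k * M * (gadKraus γ ν k)ᴴ := by
  have h1 : ((Real.sqrt ν : ℝ) : ℂ) * ((Real.sqrt ν : ℝ) : ℂ) = ν := by
    rw [← Complex.ofReal_mul, Real.mul_self_sqrt hν.1]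
  have h2 : ((Real.sqrt (1 - ν) : ℝ) : ℂ) * ((Real.sqrt (1 - ν) : ℝ) : ℂ) = 1 - ν := by
    rw [← Complex.ofReal_mul, Real.mul_self_sqrt (by linarith [hν.2])]; push_cast; ring
  have h3 : ((Real.sqrt γ : ℝ) : ℂ) * ((Real.sqrt γ : ℝ) : ℂ) = γ := by
    rw [← Complex.ofReal_mul, Real.mul_self_sqrt hγ.1]
  have h4 : ((Real.sqrt (1 - γ) : ℝ) : ℂ) * ((Real.sqrt (1 - γ) : ℝ) : ℂ) = 1 - γ := by
    rw [← Complex.ofReal_mul, Real.mul_self_sqrt (by linarith [hγ.2])]; push_cast; ring
  funext M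
  ext s t
  cases s <;> cases t <;>
    simp [Fin.sum_univ_four, Matrix.mul_apply, gadKraus, Matrix.add_apply, gadMap]
  · linear_combination (-(M false false)) * h2 - M false false *
      (((Real.sqrt (1 - γ) : ℝ) : ℂ) * ((Real.sqrt (1 - γ) : ℝ) : ℂ) * h1 +
      (ν : ℂ) * h4) - M true true * (((Real.sqrt γ : ℝ) : ℂ) * ((Real.sqrt γ : ℝ) : ℂ) * h2 + (1 - ν : ℂ) * h3)
  · linear_combination (-(M false true)) * ((Real.sqrt (1 - γ) : ℝ) : ℂ) * h2 -
      (M false true) * ((Real.sqrt (1 - γ) : ℝ) : ℂ) * h1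
  · linear_combination (-(M true false)) * ((Real.sqrt (1 - γ) : ℝ) : ℂ) * h2 -
      (M true false) * ((Real.sqrt (1 - γ) : ℝ) : ℂ) * h1
  · linear_combination (-(M true true)) * h1 - M true true *
      (((Real.sqrt (1 - γ) : ℝ) : ℂ) * ((Real.sqrt (1 - γ) : ℝ) : ℂ) * h2 +
      (1 - ν : ℂ) * h4) - M false false * (((Real.sqrt γ : ℝ) : ℂ) * ((Real.sqrt γ : ℝ) : ℂ) * h1 + (ν : ℂ) * h3)

theorem gadMap_isChannel {γ ν : ℝ} (hγ : γ ∈ Set.Icc (0 : ℝ) 1) (hν : ν ∈ Set.Icc (0 : ℝ) 1) :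
    IsChannel (gadMap γ ν) := by
  rw [gadMap_eq_kraus hγ hν]
  exact isChannel_of_kraus _ (gadKraus_sum hγ hν)

/-- product Kraus operators -/
noncomputable def powKraus {κ : Type*} (n : ℕ) (K : κ → Matrix Bool Bool ℂ) (f : Fin n → κ) :
    Matrix (Fin n → Bool) (Fin n → Bool) ℂ :=
  Matrix.of fun σ τ => ∏ i, K (f i) (σ i) (τ i)

theorem powKraus_sum {κ : Type*} [Fintype κ] [DecidableEq κ] (n : ℕ) (K : κ → Matrix Bool Bool ℂ)
    (hK : ∑ k, (K k)ᴴ * K k = 1) : ∑ f : Fin n → κ, (powKraus n K f)ᴴ * powKraus n K f = 1 := by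
  ext σ τ
  have hK' : ∀ s t : Bool, ∑ x : Bool, ∑ k, star (K k x s) * K k x t = if s = t then 1 else 0 := by
    intro s t
    have := congrFun (congrFun hK s) t
    rw [Matrix.sum_apply] at this
    simp only [Matrix.mul_apply, Matrix.conjTranspose_apply, Matrix.one_apply] at this
    rw [Finset.sum_comm, this]
  rw [Matrix.sum_apply]
  simp only [Matrix.mul_apply, Matrix.conjTranspose_apply, powKraus, Matrix.of_apply, star_prod,
    ← Finset.prod_mul_distrib]
  rw [Finset.sum_comm]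
  have h1 : ∀ ρ : Fin n → Bool,
      ∑ f : Fin n → κ, ∏ i, (star (K (f i) (ρ i) (σ i)) * K (f i) (ρ i) (τ i)) =
        ∏ i, ∑ k, (star (K k (ρ i) (σ i)) * K k (ρ i) (τ i)) := by
    intro ρ
    rw [Finset.prod_univ_sum, Fintype.piFinset_univ]
  simp only [h1]
  have h2 : ∑ ρ : Fin n → Bool, ∏ i, ∑ k, (star (K k (ρ i) (σ i)) * K k (ρ i) (τ i)) =
      ∏ i, ∑ x : Bool, ∑ k, (star (K k x (σ i)) * K k x (τ i)) := by
    rw [Finset.prod_univ_sum, Fintype.piFinset_univ]
  rw [h2]
  simp only [hK', Matrix.one_apply]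
  by_cases h : σ = τ
  · subst h; simp
  · rw [if_neg h]
    obtain ⟨i, hi⟩ := Function.ne_iff.mp h
    exact Finset.prod_eq_zero (Finset.mem_univ i) (if_neg hi)

theorem qubitPower_eq_kraus {κ : Type*} [Fintype κ] [DecidableEq κ] (n : ℕ)
    (K : κ → Matrix Bool Bool ℂ) :
    qubitPower n (fun M : Matrix Bool Bool ℂ => ∑ k, K k * M * (K k)ᴴ) =
      fun M => ∑ f : Fin n → κ, powKraus n K f * M * (powKraus n K f)ᴴ := by
  have hc : ∀ s t s' t' : Bool,
      qubitCoeff (fun M : Matrix Bool Bool ℂ => ∑ k, K k * M * (K k)ᴴ) s t s' t' =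
        ∑ k, K k s s' * star (K k t t') := by
    intro s t s' t'
    simp only [qubitCoeff, Matrix.sum_apply]
    refine Finset.sum_congr rfl fun k _ => ?_
    simp only [Matrix.mul_apply, Matrix.conjTranspose_apply, Matrix.single_apply]
    rw [Finset.sum_eq_single t']
    · congr 1
      rw [Finset.sum_eq_single s']
      · simp
      · intro b _ hb
        simp [Ne.symm hb]
      · simp
    · intro b _ hb
      simp [Ne.symm hb]
    · simp
  funext M
  ext σ τ
  simp only [qubitPower, Matrix.of_apply, hc, Matrix.sum_apply]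
  have h1 : ∀ σ' τ' : Fin n → Bool,
      ∏ i, ∑ k, K k (σ i) (σ' i) * star (K k (τ i) (τ' i)) =
        ∑ f : Fin n → κ, ∏ i, (K (f i) (σ i) (σ' i) * star (K (f i) (τ i) (τ' i))) := by
    intro σ' τ'
    rw [Finset.prod_univ_sum, Fintype.piFinset_univ]
  simp only [h1, Matrix.mul_apply, Matrix.conjTranspose_apply, powKraus, Matrix.of_apply, star_prod,
    Finset.sum_mul, Finset.prod_mul_distrib]
  calc ∑ x, ∑ x_1, ∑ f : Fin n → κ,
        (∏ i, K (f i) (σ i) (x i)) * (∏ i, star (K (f i) (τ i) (x_1 i))) * M x x_1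
      = ∑ x, ∑ f : Fin n → κ, ∑ x_1,
        (∏ i, K (f i) (σ i) (x i)) * (∏ i, star (K (f i) (τ i) (x_1 i))) * M x x_1 := by
        refine Finset.sum_congr rfl fun x _ => Finset.sum_comm
    _ = ∑ f : Fin n → κ, ∑ x, ∑ x_1,
        (∏ i, K (f i) (σ i) (x i)) * (∏ i, star (K (f i) (τ i) (x_1 i))) * M x x_1 :=
        Finset.sum_comm
    _ = _ := by
        refine Finset.sum_congr rfl fun f _ => ?_
        rw [Finset.sum_comm]
        refine Finset.sum_congr rfl fun y _ => Finset.sum_congr rfl fun x _ => ?_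
        ring

/-- the tensor power of GAD is a channel -/
theorem qubitPower_isChannel {γ ν : ℝ} (hγ : γ ∈ Set.Icc (0 : ℝ) 1)
    (hν : ν ∈ Set.Icc (0 : ℝ) 1) (n : ℕ) : IsChannel (qubitPower n (gadMap γ ν)) := by
  rw [gadMap_eq_kraus hγ hν, qubitPower_eq_kraus]
  exact isChannel_of_kraus _ (powKraus_sum n _ (gadKraus_sum hγ hν))

/-- `(Fin (n+1) → Bool) ≃ Bool × (Fin n → Bool)` -/
def splitBits (n : ℕ) : (Fin (n + 1) → Bool) ≃ Bool × (Fin n → Bool) :=
  (Fin.consEquiv (fun _ => Bool)).symm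

/-- `qubitPower (n+1) Φ` is `qubitTensor Φ (qubitPower n Φ)` up to reindexing -/
theorem qubitPower_succ (Φ : Matrix Bool Bool ℂ → Matrix Bool Bool ℂ) (n : ℕ)
    (M : Matrix (Fin (n + 1) → Bool) (Fin (n + 1) → Bool) ℂ) :
    qubitPower (n + 1) Φ M =
      (qubitTensor Φ (qubitPower n Φ)
        (M.submatrix (splitBits n).symm (splitBits n).symm)).submatrix
          (splitBits n) (splitBits n) := by
  ext σ τ
  simp only [qubitPower, qubitTensor, Matrix.of_apply, Matrix.submatrix_apply, block]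
  rw [← (splitBits n).symm.sum_comp, Fintype.sum_prod_type]
  refine Finset.sum_congr rfl fun s' _ => ?_
  have h : ∀ x : Fin n → Bool,
      ∑ τ' : Fin (n + 1) → Bool, (∏ i, qubitCoeff Φ (σ i) (τ i) ((splitBits n).symm (s', x) i) (τ' i)) *
        M ((splitBits n).symm (s', x)) τ' =
      ∑ t' : Bool, ∑ y : Fin n → Bool, qubitCoeff Φ (splitBits n σ).1 (splitBits n τ).1 s' t' *
        ((∏ i, qubitCoeff Φ ((splitBits n σ).2 i) ((splitBits n τ).2 i) (x i) (y i)) *
          M ((splitBits n).symm (s', x)) ((splitBits n).symm (t', y))) := by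
    intro x
    rw [← (splitBits n).symm.sum_comp, Fintype.sum_prod_type]
    refine Finset.sum_congr rfl fun t' _ => Finset.sum_congr rfl fun y _ => ?_
    rw [Fin.prod_univ_succ, mul_assoc]
    rfl
  simp only [h]
  rw [Finset.sum_comm]
  refine Finset.sum_congr rfl fun t' _ => ?_
  simp only [Finset.mul_sum]

/-- Holevo information is invariant under the reindexing; entropy invariance as hypothesis-free
statement is in `Ent3` (`vnEntropy_submatrix`). -/
theorem isEnsemble_submatrix {d d' : Type*} [Fintype d] [Fintype d'] (f : d' ≃ d) {m : ℕ}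
    {q : Fin m → ℝ} {ρ : Fin m → Matrix d d ℂ} (h : IsEnsemble q ρ) :
    IsEnsemble q (fun a => (ρ a).submatrix f f) := by
  refine ⟨h.1, h.2.1, fun a => ⟨(h.2.2 a).1.submatrix f, ?_⟩⟩
  rw [← (h.2.2 a).2]
  simp only [Matrix.trace, Matrix.diag_apply, Matrix.submatrix_apply]
  exact f.sum_comp (fun i => ρ a i i)



/-- the entropy does not change when the index type is renamed -/
theorem vnEntropy_submatrix_equiv {d d' : Type*} [Fintype d] [DecidableEq d] [Fintype d']
    [DecidableEq d'] (M : Matrix d d ℂ) (f : d' ≃ d) :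
    vnEntropy (M.submatrix f f) = vnEntropy M := by
  by_cases h : M.IsHermitian
  · have h' : (M.submatrix f f).IsHermitian := h.submatrix f
    unfold vnEntropy
    rw [dif_pos h, dif_pos h']
    congr 1
    have e1 := h.roots_charpoly_eq_eigenvalues
    have e2 := h'.roots_charpoly_eq_eigenvalues
    have hc : (M.submatrix f f).charpoly = M.charpoly := by
      have := Matrix.charpoly_reindex f.symm M
      simpa [Matrix.reindex_apply] using this
    rw [hc, e1] at e2
    have e3 := congrArg (fun s : Multiset ℂ => (s.map fun z => z.re * Real.log z.re).sum) e2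
    simpa [Multiset.map_map, Function.comp_def] using e3.symm
  · have h' : ¬ (M.submatrix f f).IsHermitian := by
      intro h'
      apply h
      have := h'.submatrix f.symm
      simpa [Matrix.submatrix_submatrix] using this
    unfold vnEntropy
    rw [dif_neg h, dif_neg h']

/-- Holevo information is invariant under the reindexing -/
theorem holevo_qubitPower_succ (Φ : Matrix Bool Bool ℂ → Matrix Bool Bool ℂ) (n m : ℕ)
    (q : Fin m → ℝ) (ρ : Fin m → Matrix (Fin (n + 1) → Bool) (Fin (n + 1) → Bool) ℂ) :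
    holevoInfo (qubitPower (n + 1) Φ) q ρ =
      holevoInfo (qubitTensor Φ (qubitPower n Φ)) q
        (fun a => (ρ a).submatrix (splitBits n).symm (splitBits n).symm) := by
  unfold holevoInfo
  have h1 : ∀ a, vnEntropy (qubitPower (n + 1) Φ (ρ a)) =
      vnEntropy (qubitTensor Φ (qubitPower n Φ)
        ((ρ a).submatrix (splitBits n).symm (splitBits n).symm)) := by
    intro a
    rw [qubitPower_succ, vnEntropy_submatrix_equiv]
  have h2 : (∑ a, (q a : ℂ) • qubitPower (n + 1) Φ (ρ a)) =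
      (∑ a, (q a : ℂ) • qubitTensor Φ (qubitPower n Φ)
        ((ρ a).submatrix (splitBits n).symm (splitBits n).symm)).submatrix
          (splitBits n) (splitBits n) := by
    ext x y
    simp [qubitPower_succ, Matrix.sum_apply]
  rw [h2, vnEntropy_submatrix_equiv]
  simp [h1]

/-- zero uses -/
theorem holevo_qubitPower_zero (Φ : Matrix Bool Bool ℂ → Matrix Bool Bool ℂ) {m : ℕ}
    {q : Fin m → ℝ} {ρ : Fin m → Matrix (Fin 0 → Bool) (Fin 0 → Bool) ℂ} (h : IsEnsemble q ρ) :
    holevoInfo (qubitPower 0 Φ) q ρ = 0 := by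
  have hz : ∀ M : Matrix (Fin 0 → Bool) (Fin 0 → Bool) ℂ, M = 1 → vnEntropy M = 0 := by
    rintro M rfl
    unfold vnEntropy
    rw [dif_pos Matrix.isHermitian_one, neg_eq_zero]
    refine Finset.sum_eq_zero fun i _ => ?_
    have e1 := (Matrix.isHermitian_one (n := Fin 0 → Bool) (α := ℂ)).trace_eq_sum_eigenvalues
    have hone : (Matrix.isHermitian_one (n := Fin 0 → Bool) (α := ℂ)).eigenvalues i = 1 := by
      have hi : ∀ j : Fin 0 → Bool, j = i := fun j => Subsingleton.elim _ _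
      have : (∑ j, (((Matrix.isHermitian_one (n := Fin 0 → Bool) (α := ℂ)).eigenvalues j : ℝ) : ℂ)) =
          (((Matrix.isHermitian_one (n := Fin 0 → Bool) (α := ℂ)).eigenvalues i : ℝ) : ℂ) := by
        rw [Fintype.sum_subsingleton _ i]
      have e2 := e1
      simp only [Matrix.trace_one, Fintype.card_unique, Nat.cast_one] at e2
      have e3 : (1 : ℂ) = (((Matrix.isHermitian_one (n := Fin 0 → Bool) (α := ℂ)).eigenvalues i : ℝ) : ℂ) := by
        rw [← this]; simpa using e2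
      exact_mod_cast e3.symm
    rw [hone]; simp
  have hd : ∀ M : Matrix (Fin 0 → Bool) (Fin 0 → Bool) ℂ, M.trace = 1 →
      M = 1 := by
    intro M hM
    ext x y
    have hxy : x = y := Subsingleton.elim _ _
    subst hxy
    rw [Matrix.trace, Fintype.sum_subsingleton _ x] at hM
    simpa using hM
  have hp : ∀ M : Matrix (Fin 0 → Bool) (Fin 0 → Bool) ℂ, M.trace = 1 →
      qubitPower 0 Φ M = 1 := by
    intro M hM
    rw [hd M hM]
    ext x y
    have hxy : x = y := Subsingleton.elim _ _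
    subst hxy
    simp [qubitPower]
  have hq := h.2.1
  have ha : ∀ a, qubitPower 0 Φ (ρ a) = 1 := fun a => hp _ (h.2.2 a).2
  unfold holevoInfo
  have hs : (∑ a, (q a : ℂ) • qubitPower 0 Φ (ρ a)) = 1 := by
    simp only [ha]
    rw [← Finset.sum_smul]
    have : (∑ a, (q a : ℂ)) = 1 := by exact_mod_cast congrArg (fun r : ℝ => (r : ℂ)) hq
    rw [this, one_smul]
  rw [hs, hz _ rfl]
  simp [ha, hz _ rfl]

end Crest.Agent.R341
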