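import Crest.Agent.R341.Defs

/-! Row 341: the facts on `trf` used by `TwiseC` / `Key3A`. -/

set_option autoImplicit false

namespace Crest.Agent.R341

open Matrix Crest.Quantum
open scoped ComplexOrder

variable {n : Type*} [Fintype n] [DecidableEq n]

theorem trf_of_isHermitian (f : ℝ → ℝ) {A : Matrix n n ℂ} (h : A.IsHermitian) :
    trf f A = ∑ i, f (h.eigenvalues i) := by
  rw [trf, dif_pos h]

theorem trf_log_eq_log_det {A : Matrix n n ℂ} (hA : A.PosDef) :
    trf Real.log A = Real.log A.det.re := by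
  rw [trf_of_isHermitian _ hA.1, hA.1.det_eq_prod_eigenvalues]
  have h1 : (∏ i, ((hA.1.eigenvalues i : ℝ) : ℂ)).re = ∏ i, hA.1.eigenvalues i := by
    rw [← Complex.ofReal_prod, Complex.ofReal_re]
  rw [show (∏ i, (RCLike.ofReal (hA.1.eigenvalues i) : ℂ)) = ∏ i, ((hA.1.eigenvalues i : ℝ) : ℂ)
    from rfl, h1, Real.log_prod]
  intro i _
  exact (hA.eigenvalues_pos i).ne'

/-- `Tr f(t + A)` is `∑ f(t + λ_i)` -/
theorem trf_add_smul_one (f : ℝ → ℝ) {A : Matrix n n ℂ} (hA : A.IsHermitian) (t : ℝ) :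
    trf f ((t : ℂ) • 1 + A) = ∑ i, f (t + hA.eigenvalues i) := by
  have hB : ((t : ℂ) • (1 : Matrix n n ℂ) + A).IsHermitian := by
    refine Matrix.IsHermitian.add ?_ hA
    rw [Matrix.IsHermitian, Matrix.conjTranspose_smul, Matrix.conjTranspose_one]
    simp
  rw [trf_of_isHermitian _ hB]
  have e1 := hA.roots_charpoly_eq_eigenvalues
  have e2 := hB.roots_charpoly_eq_eigenvalues
  set U : Matrix n n ℂ := (hA.eigenvectorUnitary : Matrix n n ℂ) with hU
  have hUU : star U * U = 1 := Unitary.coe_star_mul_self hA.eigenvectorUnitary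
  have hUU' : U * star U = 1 := Unitary.coe_mul_star_self hA.eigenvectorUnitary
  have hsp : A = U * diagonal (fun i => ((hA.eigenvalues i : ℝ) : ℂ)) * star U := by
    conv_lhs => rw [hA.spectral_theorem]
    rw [Unitary.conjStarAlgAut_apply]
    rfl
  have hBsp : (t : ℂ) • (1 : Matrix n n ℂ) + A
      = U * diagonal (fun i => ((t + hA.eigenvalues i : ℝ) : ℂ)) * star U := by
    have hd : diagonal (fun i => ((t + hA.eigenvalues i : ℝ) : ℂ))
        = (t : ℂ) • (1 : Matrix n n ℂ) + diagonal (fun i => ((hA.eigenvalues i : ℝ) : ℂ)) := by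
      rw [Matrix.smul_one_eq_diagonal, Matrix.diagonal_add]
      congr 1
      funext i
      push_cast
      rfl
    rw [hd, Matrix.mul_add, Matrix.add_mul, ← hsp, Matrix.mul_smul, Matrix.mul_one,
      Matrix.smul_mul, hUU']
  have hch : ((t : ℂ) • (1 : Matrix n n ℂ) + A).charpoly
      = ∏ i, (Polynomial.X - Polynomial.C ((t + hA.eigenvalues i : ℝ) : ℂ)) := by
    rw [hBsp, Matrix.mul_assoc, Matrix.charpoly_mul_comm, Matrix.mul_assoc, hUU, Matrix.mul_one,
      Matrix.charpoly_diagonal]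
  have hr : ((t : ℂ) • (1 : Matrix n n ℂ) + A).charpoly.roots
      = Finset.univ.val.map (fun i => ((t + hA.eigenvalues i : ℝ) : ℂ)) := by
    have h2 := Polynomial.roots_multiset_prod_X_sub_C
      (Finset.univ.val.map (fun i : n => ((t + hA.eigenvalues i : ℝ) : ℂ)))
    rw [Multiset.map_map] at h2
    rw [hch]
    exact h2
  rw [hr] at e2
  have e3 := congrArg (fun s : Multiset ℂ => (s.map fun z => f z.re).sum) e2
  simpa [Multiset.map_map, Function.comp_def] using e3.symm

end Crest.Agent.R341
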