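import Crest.Agent.R341.Ent2
import Crest.Agent.R341.Defs

/-! Row 341: the facts on `trf` used by `TwiseC`. -/

namespace Crest.Agent.R341

open Matrix Crest.Quantum
open scoped ComplexOrder

variable {n : Type*} [Fintype n] [DecidableEq n]

theorem trf_of_isHermitian (f : ℝ → ℝ) {A : Matrix n n ℂ} (h : A.IsHermitian) :
    trf f A = ∑ i, f (h.eigenvalues i) := by
  unfold trf
  rw [dif_pos h]

theorem det_smul_one_add {A : Matrix n n ℂ} (hA : A.IsHermitian) (t : ℝ) :
    ((t : ℂ) • (1 : Matrix n n ℂ) + A).det = ((∏ i, (t + hA.eigenvalues i) : ℝ) : ℂ) := by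
  set U : Matrix n n ℂ := (hA.eigenvectorUnitary : Matrix n n ℂ) with hU
  have hUU : IsUni U := eigU hA
  have h1 : (t : ℂ) • (1 : Matrix n n ℂ) + A =
      U * Matrix.diagonal (fun i => ((t + hA.eigenvalues i : ℝ) : ℂ)) * Uᴴ := by
    have h2 : Matrix.diagonal (fun i => ((t + hA.eigenvalues i : ℝ) : ℂ)) =
        (t : ℂ) • (1 : Matrix n n ℂ) + Matrix.diagonal (fun i => ((hA.eigenvalues i : ℝ) : ℂ)) := by
      ext i j
      by_cases hij : i = j
      · subst hij; simp
      · simp [Matrix.diagonal_apply_ne _ hij, Matrix.one_apply_ne hij]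
    rw [h2, Matrix.mul_add, Matrix.add_mul]
    have h3 : U * ((t : ℂ) • (1 : Matrix n n ℂ)) * Uᴴ = (t : ℂ) • (1 : Matrix n n ℂ) := by
      rw [Matrix.mul_smul, Matrix.smul_mul, Matrix.mul_one, hUU.right]
    rw [h3]
    congr 1
    exact (spec_eig hA).symm
  rw [h1, Matrix.det_mul, Matrix.det_mul, Matrix.det_diagonal]
  have h4 : U.det * Uᴴ.det = 1 := by
    rw [← Matrix.det_mul, hUU.right, Matrix.det_one]
  have : U.det * (∏ i, ((t + hA.eigenvalues i : ℝ) : ℂ)) * Uᴴ.det =
      (U.det * Uᴴ.det) * ∏ i, ((t + hA.eigenvalues i : ℝ) : ℂ) := by ring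
  rw [this, h4, one_mul]
  push_cast
  rfl

theorem trf_log_shift' {t : ℝ} (ht : 0 < t) {A : Matrix n n ℂ} (hA : A.PosSemidef) :
    trf (fun x => Real.log (t + x)) A = Real.log ((t : ℂ) • (1 : Matrix n n ℂ) + A).det.re := by
  rw [trf_of_isHermitian _ hA.1, det_smul_one_add hA.1, Complex.ofReal_re,
    Real.log_prod (fun i _ => (by have := hA.eigenvalues_nonneg i; positivity))]

end Crest.Agent.R341
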