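import Mathlib
import Crest.Prelude.Def_QState

/-! Row 341, task T4a: `logdet_tangent` (same statement as in the skeleton `Twise.lean`). -/


namespace Crest.Agent.R341

open Matrix
open scoped ComplexOrder

variable {e : Type*} [Fintype e] [DecidableEq e]

namespace TwA

theorem exists_spectral {A : Matrix e e ℂ} (hA : A.PosDef) : ∃ (F : Matrix e e ℂ) (α : e → ℝ),
    (∀ i, 0 < α i) ∧ F * Fᴴ = 1 ∧ Fᴴ * F = 1 ∧ A = F * diagonal (fun i => (α i : ℂ)) * Fᴴ ∧
      A.det.re = ∏ i, α i := by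
  refine ⟨hA.1.eigenvectorUnitary, hA.1.eigenvalues, fun i => hA.eigenvalues_pos i, ?_, ?_, ?_, ?_⟩
  · exact Unitary.coe_mul_star_self _
  · exact Unitary.coe_star_mul_self _
  · exact hA.1.spectral_theorem
  · rw [hA.1.det_eq_prod_eigenvalues, ← RCLike.ofReal_prod]
    rfl

theorem sum_conj_mul {ι κ : Type*} [Fintype ι] (Z : Matrix ι κ ℂ) (j : κ) :
    ((Zᴴ * Z) j j) = ((∑ i, Complex.normSq (Z i j) : ℝ) : ℂ) := by
  simp only [Matrix.mul_apply, Matrix.conjTranspose_apply]
  push_cast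
  refine Finset.sum_congr rfl fun i _ => ?_
  rw [Complex.normSq_eq_conj_mul_self]
  rfl

theorem sum_conj_diag_mul {ι κ : Type*} [Fintype ι] [DecidableEq ι] (Z : Matrix ι κ ℂ)
    (μ : ι → ℝ) (j : κ) :
    ((Zᴴ * diagonal (fun i => (μ i : ℂ)) * Z) j j) =
      ((∑ i, Complex.normSq (Z i j) * μ i : ℝ) : ℂ) := by
  rw [Matrix.mul_apply]
  simp only [Matrix.mul_diagonal, Matrix.conjTranspose_apply]
  push_cast
  refine Finset.sum_congr rfl fun i _ => ?_
  rw [Complex.normSq_eq_conj_mul_self]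
  simp
  ring

theorem mul_conj_apply {ι κ : Type*} [Fintype κ] (Z : Matrix ι κ ℂ) (i : ι) :
    ((Z * Zᴴ) i i).re = ∑ j, Complex.normSq (Z i j) := by
  have : ((Z * Zᴴ) i i) = ((∑ j, Complex.normSq (Z i j) : ℝ) : ℂ) := by
    simp only [Matrix.mul_apply, Matrix.conjTranspose_apply]
    push_cast
    refine Finset.sum_congr rfl fun j _ => ?_
    rw [Complex.normSq_eq_conj_mul_self, mul_comm]
    rfl
  rw [this, Complex.ofReal_re]

/-- Peierls / Jensen for `log det` with an isometry. -/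
theorem logdet_jensen {ι : Type*} [Fintype ι] [DecidableEq ι] {Y : Matrix e e ℂ} (hY : Y.PosDef)
    (μ : ι → ℝ) (hμ : ∀ i, 0 < μ i) (W : Matrix ι e ℂ) (hW : Wᴴ * W = 1)
    (hYW : Y = Wᴴ * diagonal (fun i => (μ i : ℂ)) * W) :
    ∑ i, Real.log (μ i) * ((W * Wᴴ) i i).re ≤ Real.log Y.det.re := by
  obtain ⟨T, lam, hlam, hT1, hT2, hYT, hdet⟩ := exists_spectral hY
  rw [hdet, Real.log_prod (fun i _ => (hlam i).ne')]
  set Z : Matrix ι e ℂ := W * T with hZ
  have h1 : Zᴴ * Z = 1 := by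
    rw [hZ, Matrix.conjTranspose_mul, Matrix.mul_assoc, ← Matrix.mul_assoc Wᴴ, hW, Matrix.one_mul, hT2]
  have h2 : Zᴴ * diagonal (fun i => (μ i : ℂ)) * Z = diagonal (fun i => (lam i : ℂ)) := by
    have : Zᴴ * diagonal (fun i => (μ i : ℂ)) * Z = Tᴴ * Y * T := by
      rw [hZ, Matrix.conjTranspose_mul, hYW]
      simp only [Matrix.mul_assoc]
    rw [this, hYT]
    calc Tᴴ * (T * diagonal (fun i => (lam i : ℂ)) * Tᴴ) * T
        = (Tᴴ * T) * diagonal (fun i => (lam i : ℂ)) * (Tᴴ * T) := by simp only [Matrix.mul_assoc]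
      _ = _ := by rw [hT2, Matrix.one_mul, Matrix.mul_one]
  have h3 : Z * Zᴴ = W * Wᴴ := by
    rw [hZ, Matrix.conjTranspose_mul, Matrix.mul_assoc, ← Matrix.mul_assoc T, hT1, Matrix.one_mul]
  have h4 : ∀ j, ∑ i, Complex.normSq (Z i j) = 1 := by
    intro j
    have := sum_conj_mul Z j
    rw [h1, Matrix.one_apply_eq] at this
    exact_mod_cast this.symm
  have h5 : ∀ j, ∑ i, Complex.normSq (Z i j) * μ i = lam j := by
    intro j
    have := sum_conj_diag_mul Z μ j
    rw [h2, Matrix.diagonal_apply_eq] at this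
    exact_mod_cast this.symm
  have h6 : ∀ j, ∑ i, Complex.normSq (Z i j) * Real.log (μ i) ≤ Real.log (lam j) := by
    intro j
    have := strictConcaveOn_log_Ioi.concaveOn.le_map_sum (t := Finset.univ)
      (w := fun i => Complex.normSq (Z i j)) (p := μ) (fun i _ => Complex.normSq_nonneg _)
      (h4 j) (fun i _ => hμ i)
    simp only [smul_eq_mul] at this
    rwa [h5] at this
  calc ∑ i, Real.log (μ i) * ((W * Wᴴ) i i).re
      = ∑ i, ∑ j, Complex.normSq (Z i j) * Real.log (μ i) := by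
        refine Finset.sum_congr rfl fun i _ => ?_
        rw [← h3, mul_conj_apply, Finset.mul_sum]
        exact Finset.sum_congr rfl fun j _ => mul_comm _ _
    _ = ∑ j, ∑ i, Complex.normSq (Z i j) * Real.log (μ i) := Finset.sum_comm
    _ ≤ ∑ j, Real.log (lam j) := Finset.sum_le_sum fun j _ => h6 j


/-- real diagonal matrix -/
abbrev dg (f : e → ℝ) : Matrix e e ℂ := Matrix.diagonal (fun i => (f i : ℂ))

theorem dg_mul (f g : e → ℝ) : dg f * dg g = dg (fun i => f i * g i) := by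
  simp [dg, Matrix.diagonal_mul_diagonal]

theorem dg_conj (f : e → ℝ) : (dg f)ᴴ = dg f := by
  rw [dg, Matrix.diagonal_conjTranspose]
  congr 1
  funext i
  simp

theorem dg_one : dg (fun _ : e => (1 : ℝ)) = 1 := by
  simp [dg]

theorem det_dg (f : e → ℝ) : (dg f).det = ((∏ i, f i : ℝ) : ℂ) := by
  simp [dg]

theorem fromRows_diag {A B : Matrix e e ℂ} (u v : e → ℝ) :
    (fromRows A B)ᴴ * diagonal (fun i => ((Sum.elim u v i : ℝ) : ℂ)) * fromRows A B =
      Aᴴ * dg u * A + Bᴴ * dg v * B := by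
  ext i j
  rw [Matrix.mul_apply, Fintype.sum_sum_type, Matrix.add_apply, Matrix.mul_apply, Matrix.mul_apply]
  simp [Matrix.mul_diagonal, Matrix.conjTranspose_apply, dg]

theorem sum_diag {F X : Matrix e e ℂ} {α θ : e → ℝ} (h : X = F * dg α * Fᴴ) :
    ∑ a, ((Fᴴ * dg θ * F) a a).re * α a = ∑ i, θ i * (X i i).re := by
  have h1 : (Fᴴ * dg θ * F * dg α).trace = (dg θ * X).trace := by
    rw [h, Matrix.mul_assoc, Matrix.mul_assoc, Matrix.trace_mul_comm]
    simp only [Matrix.mul_assoc]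
  have h2 : (Fᴴ * dg θ * F * dg α).trace.re = ∑ a, ((Fᴴ * dg θ * F) a a).re * α a := by
    simp only [Matrix.trace, Matrix.diag_apply, Complex.re_sum]
    refine Finset.sum_congr rfl fun i _ => ?_
    rw [dg, Matrix.mul_diagonal, Complex.re_mul_ofReal]
  have h3 : (dg θ * X).trace.re = ∑ i, θ i * (X i i).re := by
    simp only [Matrix.trace, Matrix.diag_apply, Complex.re_sum]
    refine Finset.sum_congr rfl fun i _ => ?_
    rw [dg, Matrix.diagonal_mul, Complex.re_ofReal_mul]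
  rw [← h2, h1, h3]

theorem conj_dg_nonneg {F : Matrix e e ℂ} {θ : e → ℝ} (hθ : ∀ i, 0 ≤ θ i) (a : e) :
    0 ≤ ((Fᴴ * dg θ * F) a a).re := by
  rw [sum_conj_diag_mul, Complex.ofReal_re]
  exact Finset.sum_nonneg fun i _ => mul_nonneg (Complex.normSq_nonneg _) (hθ i)

theorem posDef_re {A : Matrix e e ℂ} (hA : A.PosDef) : 0 < A.det.re := by
  have := hA.det_pos
  exact (Complex.lt_def.1 this).1

theorem posDef_dg {f : e → ℝ} (hf : ∀ i, 0 < f i) : (dg f).PosDef := by
  rw [dg, Matrix.posDef_diagonal_iff]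
  intro i
  exact_mod_cast hf i

theorem posDef_dg_conj {f : e → ℝ} (hf : ∀ i, 0 < f i) {A : Matrix e e ℂ} (hA : A.PosDef) :
    (dg f * A * dg f).PosDef := by
  have := hA.conjTranspose_mul_mul_same (B := dg f) (by
    apply Matrix.mulVec_injective_of_isUnit
    exact (posDef_dg hf).isUnit)
  rwa [dg_conj] at this

end TwA

open TwA

/-- tangent inequality for `log det (P + K Q⁻¹ K) - log det P`, `K` diagonal.
Proof: trace Jensen for `log` with the isometry `(√(1-Θ); √Θ)`, `Θ_i = k_i²/(p_i q_i + k_i²)`, applied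
to `X₁ ⊕ X₂⁻¹`, `X₁ = p^{-1/2} P p^{-1/2}`, `X₂ = q^{-1/2} Q q^{-1/2}`, and `log x ≤ x - 1`. -/
theorem logdet_tangent {P Q : Matrix e e ℂ} (hP : P.PosDef) (hQ : Q.PosDef)
    {k p q : e → ℝ} (hk : ∀ i, 0 < k i) (hp : ∀ i, 0 < p i) (hq : ∀ i, 0 < q i) :
    Real.log P.det.re +
        ∑ i, (Real.log (1 + k i ^ 2 / (p i * q i)) -
          k i ^ 2 / (p i * q i + k i ^ 2) *
            (((P i i).re / p i - 1) + ((Q i i).re / q i - 1))) ≤
      Real.log (P + Matrix.diagonal (fun i => (k i : ℂ)) * Q⁻¹ *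
        Matrix.diagonal (fun i => (k i : ℂ))).det.re := by
  have hD : ∀ i, 0 < p i * q i + k i ^ 2 := fun i => by
    have := hk i; have := hp i; have := hq i; positivity
  set θ : e → ℝ := fun i => k i ^ 2 / (p i * q i + k i ^ 2) with hθ
  have hθ0 : ∀ i, 0 < θ i := fun i => div_pos (pow_pos (hk i) 2) (hD i)
  have hθ1 : ∀ i, 1 - θ i = p i * q i / (p i * q i + k i ^ 2) := fun i => by
    simp only [hθ]; have := (hD i).ne'; field_simp; ring
  have hθ2 : ∀ i, 0 < 1 - θ i := fun i => by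
    rw [hθ1]; exact div_pos (mul_pos (hp i) (hq i)) (hD i)
  set s : e → ℝ := fun i => Real.sqrt (q i / (p i * q i + k i ^ 2)) with hs
  have hs0 : ∀ i, 0 < s i := fun i => Real.sqrt_pos.2 (div_pos (hq i) (hD i))
  set R : Matrix e e ℂ := P + dg k * Q⁻¹ * dg k with hR
  have hRpd : R.PosDef := hP.add (posDef_dg_conj hk hQ.inv)
  set rp : e → ℝ := fun i => (Real.sqrt (p i))⁻¹ with hrp
  have hrp0 : ∀ i, 0 < rp i := fun i => inv_pos.2 (Real.sqrt_pos.2 (hp i))
  set rq : e → ℝ := fun i => (Real.sqrt (q i))⁻¹ with hrq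
  have hrq0 : ∀ i, 0 < rq i := fun i => inv_pos.2 (Real.sqrt_pos.2 (hq i))
  set X₁ : Matrix e e ℂ := dg rp * P * dg rp with hX₁
  set X₂ : Matrix e e ℂ := dg rq * Q * dg rq with hX₂
  have hX₁pd : X₁.PosDef := posDef_dg_conj hrp0 hP
  have hX₂pd : X₂.PosDef := posDef_dg_conj hrq0 hQ
  obtain ⟨F, α, hα, hF1, hF2, hFX, hFdet⟩ := exists_spectral hX₁pd
  obtain ⟨G, β, hβ, hG1, hG2, hGX, hGdet⟩ := exists_spectral hX₂pd
  -- inverse of X₂
  have hinv1 : X₂⁻¹ = G * dg (fun i => (β i)⁻¹) * Gᴴ := by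
    apply Matrix.inv_eq_right_inv
    rw [hGX]
    calc G * dg β * Gᴴ * (G * dg (fun i => (β i)⁻¹) * Gᴴ)
        = G * (dg β * (Gᴴ * G) * dg (fun i => (β i)⁻¹)) * Gᴴ := by simp only [Matrix.mul_assoc]
      _ = 1 := by
        rw [hG2, Matrix.mul_one, dg_mul]
        have : (fun i => β i * (β i)⁻¹) = fun _ => (1 : ℝ) := by
          funext i; exact mul_inv_cancel₀ (hβ i).ne'
        rw [this, dg_one, Matrix.mul_one, hG1]
  have hinv2 : X₂⁻¹ = dg (fun i => Real.sqrt (q i)) * Q⁻¹ * dg (fun i => Real.sqrt (q i)) := by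
    apply Matrix.inv_eq_right_inv
    have e1 : dg rq * dg (fun i => Real.sqrt (q i)) = 1 := by
      rw [dg_mul]
      have : (fun i => rq i * Real.sqrt (q i)) = fun _ => (1 : ℝ) := by
        funext i; exact inv_mul_cancel₀ (Real.sqrt_pos.2 (hq i)).ne'
      rw [this, dg_one]
    have e2 : Q * Q⁻¹ = 1 := Matrix.mul_nonsing_inv _ ((Matrix.isUnit_iff_isUnit_det _).1 hQ.isUnit)
    calc dg rq * Q * dg rq * (dg (fun i => Real.sqrt (q i)) * Q⁻¹ * dg (fun i => Real.sqrt (q i)))
        = dg rq * (Q * (dg rq * dg (fun i => Real.sqrt (q i))) * Q⁻¹) *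
            dg (fun i => Real.sqrt (q i)) := by simp only [Matrix.mul_assoc]
      _ = 1 := by rw [e1, Matrix.mul_one, e2, Matrix.mul_one, e1]
  set A : Matrix e e ℂ := Fᴴ * dg (fun i => Real.sqrt (1 - θ i)) with hA
  set B : Matrix e e ℂ := Gᴴ * dg (fun i => Real.sqrt (θ i)) with hB
  set W : Matrix (e ⊕ e) e ℂ := fromRows A B with hW
  have hA1 : ∀ u : e → ℝ, Aᴴ * dg u * A = dg (fun i => Real.sqrt (1 - θ i)) * (F * dg u * Fᴴ) *
      dg (fun i => Real.sqrt (1 - θ i)) := by
    intro u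
    rw [hA, Matrix.conjTranspose_mul, dg_conj, Matrix.conjTranspose_conjTranspose]
    simp only [Matrix.mul_assoc]
  have hB1 : ∀ u : e → ℝ, Bᴴ * dg u * B = dg (fun i => Real.sqrt (θ i)) * (G * dg u * Gᴴ) *
      dg (fun i => Real.sqrt (θ i)) := by
    intro u
    rw [hB, Matrix.conjTranspose_mul, dg_conj, Matrix.conjTranspose_conjTranspose]
    simp only [Matrix.mul_assoc]
  have hWW : Wᴴ * W = 1 := by
    have h1 := fromRows_diag (A := A) (B := B) (fun _ => 1) (fun _ => 1)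
    have h2 : (diagonal (fun i => ((Sum.elim (fun _ : e => (1 : ℝ)) (fun _ : e => (1 : ℝ)) i : ℝ) : ℂ)) :
        Matrix (e ⊕ e) (e ⊕ e) ℂ) = 1 := by
      rw [← Matrix.diagonal_one]
      congr 1
      funext i
      rcases i with i | i <;> simp
    rw [h2, Matrix.mul_one, hA1, hB1, dg_one, Matrix.mul_one, Matrix.mul_one, hF1, hG1,
      Matrix.mul_one, Matrix.mul_one, dg_mul, dg_mul] at h1
    rw [hW, h1, dg, dg, Matrix.diagonal_add, ← Matrix.diagonal_one]
    congr 1
    funext i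
    rw [Real.mul_self_sqrt (hθ2 i).le, Real.mul_self_sqrt (hθ0 i).le]
    push_cast
    ring
  set Y : Matrix e e ℂ := dg s * R * dg s with hY
  have hYpd : Y.PosDef := posDef_dg_conj hs0 hRpd
  have hYW : Y = Wᴴ * diagonal (fun i => ((Sum.elim α (fun i => (β i)⁻¹) i : ℝ) : ℂ)) * W := by
    rw [hW, fromRows_diag, hA1, hB1, ← hFX, ← hinv1, hinv2, hX₁, hY, hR, Matrix.mul_add, Matrix.add_mul]
    have hs1 : ∀ i, Real.sqrt (1 - θ i) * rp i = s i := by
      intro i
      simp only [hrp, hs]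
      rw [hθ1, ← Real.sqrt_inv, ← Real.sqrt_mul (by have := hD i; have := hp i; have := hq i; positivity)]
      congr 1
      have := (hp i).ne'
      field_simp
    have hs2 : ∀ i, Real.sqrt (θ i) * Real.sqrt (q i) = s i * k i := by
      intro i
      simp only [hs, hθ]
      rw [← Real.sqrt_mul (by have := hD i; positivity)]
      rw [show k i ^ 2 / (p i * q i + k i ^ 2) * q i = q i / (p i * q i + k i ^ 2) * k i ^ 2 by ring]
      rw [Real.sqrt_mul (by have := hD i; have := hq i; positivity), Real.sqrt_sq (hk i).le]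
    have e1 : dg (fun i => Real.sqrt (1 - θ i)) * (dg rp * P * dg rp) *
        dg (fun i => Real.sqrt (1 - θ i)) = dg s * P * dg s := by
      have a1 : dg (fun i => Real.sqrt (1 - θ i)) * dg rp = dg s := by
        rw [dg_mul]; congr 1; funext i; rw [hs1]
      have a2 : dg rp * dg (fun i => Real.sqrt (1 - θ i)) = dg s := by
        rw [dg_mul]; congr 1; funext i; rw [mul_comm, hs1]
      calc _ = (dg (fun i => Real.sqrt (1 - θ i)) * dg rp) * P *
            (dg rp * dg (fun i => Real.sqrt (1 - θ i))) := by simp only [Matrix.mul_assoc]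
        _ = _ := by rw [a1, a2]
    have e2 : dg (fun i => Real.sqrt (θ i)) * (dg (fun i => Real.sqrt (q i)) * Q⁻¹ *
        dg (fun i => Real.sqrt (q i))) * dg (fun i => Real.sqrt (θ i)) =
        dg s * (dg k * Q⁻¹ * dg k) * dg s := by
      have a1 : dg (fun i => Real.sqrt (θ i)) * dg (fun i => Real.sqrt (q i)) = dg s * dg k := by
        rw [dg_mul, dg_mul]; congr 1; funext i; rw [hs2]
      have a2 : dg (fun i => Real.sqrt (q i)) * dg (fun i => Real.sqrt (θ i)) = dg k * dg s := by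
        rw [dg_mul, dg_mul]; congr 1; funext i; rw [mul_comm, hs2, mul_comm (s i)]
      calc _ = (dg (fun i => Real.sqrt (θ i)) * dg (fun i => Real.sqrt (q i))) * Q⁻¹ *
            (dg (fun i => Real.sqrt (q i)) * dg (fun i => Real.sqrt (θ i))) := by
              simp only [Matrix.mul_assoc]
        _ = _ := by rw [a1, a2]; simp only [Matrix.mul_assoc]
    rw [e1, e2]
  have hJ := logdet_jensen hYpd (Sum.elim α (fun i => (β i)⁻¹)) (by
    intro i
    rcases i with i | i
    · exact hα i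
    · exact inv_pos.2 (hβ i)) W hWW hYW
  rw [Fintype.sum_sum_type] at hJ
  -- diagonal entries of W Wᴴ
  have hWl : ∀ a : e, ((W * Wᴴ) (Sum.inl a) (Sum.inl a)).re = 1 - ((Fᴴ * dg θ * F) a a).re := by
    intro a
    have h1 : (W * Wᴴ) (Sum.inl a) (Sum.inl a) = (A * Aᴴ) a a := by
      simp [Matrix.mul_apply, hW, Matrix.conjTranspose_apply]
    have h2 : A * Aᴴ = 1 - Fᴴ * dg θ * F := by
      rw [hA, Matrix.conjTranspose_mul, dg_conj, Matrix.conjTranspose_conjTranspose]
      calc Fᴴ * dg (fun i => Real.sqrt (1 - θ i)) * (dg (fun i => Real.sqrt (1 - θ i)) * F)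
          = Fᴴ * (dg (fun i => Real.sqrt (1 - θ i)) * dg (fun i => Real.sqrt (1 - θ i))) * F := by
            simp only [Matrix.mul_assoc]
        _ = Fᴴ * (1 - dg θ) * F := by
            rw [dg_mul, ← dg_one (e := e)]
            congr 2
            rw [dg, dg, dg, Matrix.diagonal_sub]
            congr 1
            funext i
            rw [Real.mul_self_sqrt (hθ2 i).le]
            push_cast
            ring
        _ = _ := by rw [Matrix.mul_sub, Matrix.sub_mul, Matrix.mul_one, hF2]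
    rw [h1, h2]
    simp
  have hWr : ∀ a : e, ((W * Wᴴ) (Sum.inr a) (Sum.inr a)).re = ((Gᴴ * dg θ * G) a a).re := by
    intro a
    have h1 : (W * Wᴴ) (Sum.inr a) (Sum.inr a) = (B * Bᴴ) a a := by
      simp [Matrix.mul_apply, hW, Matrix.conjTranspose_apply]
    have h2 : B * Bᴴ = Gᴴ * dg θ * G := by
      rw [hB, Matrix.conjTranspose_mul, dg_conj, Matrix.conjTranspose_conjTranspose]
      calc Gᴴ * dg (fun i => Real.sqrt (θ i)) * (dg (fun i => Real.sqrt (θ i)) * G)
          = Gᴴ * (dg (fun i => Real.sqrt (θ i)) * dg (fun i => Real.sqrt (θ i))) * G := by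
            simp only [Matrix.mul_assoc]
        _ = _ := by
            rw [dg_mul]
            congr 3
            funext i
            rw [Real.mul_self_sqrt (hθ0 i).le]
    rw [h1, h2]
  simp only [Sum.elim_inl, Sum.elim_inr, hWl, hWr, Real.log_inv] at hJ
  -- log x ≤ x - 1
  have hlog : ∀ {F X : Matrix e e ℂ} {α : e → ℝ} (_ : ∀ i, 0 < α i) (_ : F * Fᴴ = 1)
      (_ : X = F * dg α * Fᴴ), ∑ a, Real.log (α a) * ((Fᴴ * dg θ * F) a a).re ≤
        ∑ i, θ i * ((X i i).re - 1) := by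
    intro F X α hα hF1 hFX
    have h1 : ∑ a, ((Fᴴ * dg θ * F) a a).re * α a = ∑ i, θ i * (X i i).re := sum_diag hFX
    have h2 : ∑ a, ((Fᴴ * dg θ * F) a a).re * 1 = ∑ i, θ i * ((1 : Matrix e e ℂ) i i).re :=
      sum_diag (α := fun _ => 1) (by rw [dg_one, Matrix.mul_one, hF1])
    calc ∑ a, Real.log (α a) * ((Fᴴ * dg θ * F) a a).re
        ≤ ∑ a, (α a - 1) * ((Fᴴ * dg θ * F) a a).re :=
          Finset.sum_le_sum fun a _ => mul_le_mul_of_nonneg_right
            (Real.log_le_sub_one_of_pos (hα a)) (conj_dg_nonneg (fun i => (hθ0 i).le) a)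
      _ = ∑ a, ((Fᴴ * dg θ * F) a a).re * α a - ∑ a, ((Fᴴ * dg θ * F) a a).re * 1 := by
          rw [← Finset.sum_sub_distrib]
          exact Finset.sum_congr rfl fun a _ => by ring
      _ = ∑ i, θ i * ((X i i).re - 1) := by
          rw [h1, h2, ← Finset.sum_sub_distrib]
          refine Finset.sum_congr rfl fun i _ => ?_
          rw [Matrix.one_apply_eq, Complex.one_re]
          ring
  have hl1 := hlog hα hF1 hFX
  have hl2 := hlog hβ hG1 hGX
  have hdiag : ∀ {r : e → ℝ} {P : Matrix e e ℂ} (i : e),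
      ((dg r * P * dg r) i i).re = r i * r i * (P i i).re := by
    intro r P i
    simp [dg, Matrix.mul_diagonal, Matrix.diagonal_mul]
    ring
  have hx1 : ∀ i, (X₁ i i).re = (P i i).re / p i := by
    intro i
    rw [hX₁, hdiag]
    simp only [hrp]
    rw [← mul_inv, Real.mul_self_sqrt (hp i).le]
    ring
  have hx2 : ∀ i, (X₂ i i).re = (Q i i).re / q i := by
    intro i
    rw [hX₂, hdiag]
    simp only [hrq]
    rw [← mul_inv, Real.mul_self_sqrt (hq i).le]
    ring
  simp only [hx1] at hl1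
  simp only [hx2] at hl2
  -- determinants
  have hdetconj : ∀ {r : e → ℝ} {P : Matrix e e ℂ} (_ : ∀ i, 0 < r i) (_ : 0 < P.det.re),
      Real.log (dg r * P * dg r).det.re = ∑ i, Real.log (r i * r i) + Real.log P.det.re := by
    intro r P hr hP
    have h1 : (dg r * P * dg r).det = ((∏ i, (r i * r i) : ℝ) : ℂ) * P.det := by
      rw [Matrix.det_mul, Matrix.det_mul, det_dg, Finset.prod_mul_distrib]
      push_cast
      ring
    rw [h1, Complex.re_ofReal_mul, Real.log_mul (Finset.prod_pos fun i _ => mul_pos (hr i) (hr i)).ne'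
      hP.ne', Real.log_prod (fun i _ => (mul_pos (hr i) (hr i)).ne')]
  have hdY : Real.log Y.det.re = ∑ i, Real.log (s i * s i) + Real.log R.det.re :=
    hdetconj hs0 (posDef_re hRpd)
  have hdX : Real.log X₁.det.re = ∑ i, Real.log (rp i * rp i) + Real.log P.det.re :=
    hdetconj hrp0 (posDef_re hP)
  rw [hFdet, Real.log_prod (fun i _ => (hα i).ne')] at hdX
  have hJ2 : ∑ x, Real.log (α x) * (1 - ((Fᴴ * dg θ * F) x x).re) =
      ∑ x, Real.log (α x) - ∑ x, Real.log (α x) * ((Fᴴ * dg θ * F) x x).re := by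
    rw [← Finset.sum_sub_distrib]
    exact Finset.sum_congr rfl fun x _ => by ring
  have hJ3 : ∑ x, -Real.log (β x) * ((Gᴴ * dg θ * G) x x).re =
      - ∑ x, Real.log (β x) * ((Gᴴ * dg θ * G) x x).re := by
    rw [← Finset.sum_neg_distrib]
    exact Finset.sum_congr rfl fun x _ => by ring
  rw [hJ2, hJ3, hdX, hdY] at hJ
  have hfin : ∑ i, (Real.log (1 + k i ^ 2 / (p i * q i)) -
          θ i * (((P i i).re / p i - 1) + ((Q i i).re / q i - 1))) =
      ∑ i, Real.log (rp i * rp i) - ∑ i, Real.log (s i * s i) -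
        ∑ i, θ i * ((P i i).re / p i - 1) - ∑ i, θ i * ((Q i i).re / q i - 1) := by
    rw [← Finset.sum_sub_distrib, ← Finset.sum_sub_distrib, ← Finset.sum_sub_distrib]
    refine Finset.sum_congr rfl fun i _ => ?_
    have h1 : Real.log (1 + k i ^ 2 / (p i * q i)) = Real.log (rp i * rp i) - Real.log (s i * s i) := by
      rw [← Real.log_div (mul_pos (hrp0 i) (hrp0 i)).ne' (mul_pos (hs0 i) (hs0 i)).ne']
      congr 1
      simp only [hrp, hs]
      rw [← mul_inv, Real.mul_self_sqrt (hp i).le, Real.mul_self_sqrt (div_pos (hq i) (hD i)).le]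
      have := (hp i).ne'
      have := (hq i).ne'
      have := (hD i).ne'
      field_simp
    rw [h1]
    ring
  linarith [hfin]

end Crest.Agent.R341
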