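import Crest.Agent.R341.Defs

/-! Row 341, task T4b: Schur-complement lower bound of `det (t + M)`. -/

namespace Crest.Agent.R341

open Matrix Crest.Quantum
open scoped ComplexOrder

variable {e : Type*} [Fintype e] [DecidableEq e]

/-- inversion is antitone on positive definite matrices -/
theorem twb_posSemidef_inv_sub_inv {X Y : Matrix e e ℂ} (hX : X.PosDef)
    (hXY : (Y - X).PosSemidef) : (X⁻¹ - Y⁻¹).PosSemidef := by
  have hY : Y.PosDef := by
    have := hX.add_posSemidef hXY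
    simpa using this
  have hXi : X⁻¹.PosDef := hX.inv
  have : Invertible X⁻¹ := hXi.isUnit.invertible
  have : Invertible Y := hY.isUnit.invertible
  have hdet : IsUnit X.det := (Matrix.isUnit_iff_isUnit_det _).1 hX.isUnit
  have h1 : (fromBlocks X⁻¹ (1 : Matrix e e ℂ) (1 : Matrix e e ℂ)ᴴ Y).PosSemidef := by
    rw [PosDef.fromBlocks₁₁ 1 Y hXi]
    simpa [Matrix.nonsing_inv_nonsing_inv _ hdet] using hXY
  rw [PosDef.fromBlocks₂₂ X⁻¹ 1 hY] at h1
  simpa using h1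

/-- `det (1 + K) ≥ 1` for positive semidefinite `K` -/
theorem twb_one_le_det_one_add {K : Matrix e e ℂ} (hK : K.PosSemidef) :
    1 ≤ (1 + K).det.re := by
  have hH : (1 + K).IsHermitian := Matrix.isHermitian_one.add hK.1
  rw [hH.det_eq_prod_eigenvalues]
  have h2 : ((∏ i, ((hH.eigenvalues i : ℝ) : ℂ))).re = ∏ i, hH.eigenvalues i := by
    rw [← Complex.ofReal_prod, Complex.ofReal_re]
  have h3 : ∀ i, 1 ≤ hH.eigenvalues i := by
    intro i
    have h4 := hH.eigenvalues_eq i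
    rw [h4, Matrix.add_mulVec, Matrix.one_mulVec, dotProduct_add, map_add]
    have h5 : RCLike.re (star (⇑(hH.eigenvectorBasis i)) ⬝ᵥ ⇑(hH.eigenvectorBasis i)) = 1 := by
      have h6 := hH.eigenvectorBasis.orthonormal.1 i
      have h7 : inner ℂ (hH.eigenvectorBasis i) (hH.eigenvectorBasis i) = (1 : ℂ) := by
        rw [inner_self_eq_norm_sq_to_K, h6]; simp
      rw [EuclideanSpace.inner_eq_star_dotProduct] at h7
      rw [dotProduct_comm, h7]
      simp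
    rw [h5]
    have h8 := hK.re_dotProduct_nonneg (⇑(hH.eigenvectorBasis i))
    linarith
  calc (1 : ℝ) = ∏ _i : e, (1 : ℝ) := by simp
    _ ≤ ∏ i, hH.eigenvalues i := Finset.prod_le_prod (fun _ _ => zero_le_one) (fun i _ => h3 i)
    _ = _ := h2.symm

open scoped MatrixOrder in
/-- monotonicity of the determinant on positive definite matrices -/
theorem twb_det_re_le_det_re {X Y : Matrix e e ℂ} (hX : X.PosDef)
    (hXY : (Y - X).PosSemidef) : X.det.re ≤ Y.det.re := by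
  classical
  obtain ⟨R, hRh, hRX⟩ : ∃ R : Matrix e e ℂ, Rᴴ = R ∧ R * R = X :=
    ⟨CFC.sqrt X, (CFC.sqrt_nonneg X).posSemidef.1, CFC.sqrt_mul_sqrt_self X hX.posSemidef.nonneg⟩
  have hdX : X.det = ((X.det.re : ℝ) : ℂ) := by
    have h := hX.det_pos
    rw [Complex.lt_def] at h
    apply Complex.ext
    · simp
    · simpa using h.2.symm
  have hdXpos : 0 < X.det.re := by
    have h := hX.det_pos
    rw [Complex.lt_def] at h
    simpa using h.1
  have hdR : IsUnit R.det := by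
    rw [isUnit_iff_ne_zero]
    intro h
    have : X.det = 0 := by rw [← hRX, det_mul, h, zero_mul]
    rw [this] at hdXpos
    simp at hdXpos
  have hRi : R⁻¹ᴴ = R⁻¹ := by rw [conjTranspose_nonsing_inv, hRh]
  have hK' : (R⁻¹ * (Y - X) * R⁻¹).PosSemidef := by
    have := hXY.mul_mul_conjTranspose_same R⁻¹
    rwa [hRi] at this
  have hY : Y = R * (1 + R⁻¹ * (Y - X) * R⁻¹) * R := by
    have h1 : R * (R⁻¹ * (Y - X) * R⁻¹) * R = (R * R⁻¹) * (Y - X) * (R⁻¹ * R) := by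
      simp only [Matrix.mul_assoc]
    rw [Matrix.mul_add, Matrix.add_mul, h1, Matrix.mul_nonsing_inv _ hdR,
      Matrix.nonsing_inv_mul _ hdR, Matrix.mul_one, hRX, Matrix.one_mul, Matrix.mul_one]
    abel
  have hdY : Y.det = X.det * (1 + R⁻¹ * (Y - X) * R⁻¹).det := by
    conv_lhs => rw [hY, det_mul, det_mul]
    rw [← hRX, det_mul]
    ring
  rw [hdY, hdX, Complex.re_ofReal_mul, Complex.ofReal_re]
  have := twb_one_le_det_one_add hK'
  nlinarith

omit [Fintype e] in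
theorem twb_posDef_smul_one {t : ℝ} (ht : 0 < t) : ((t : ℂ) • (1 : Matrix e e ℂ)).PosDef := by
  have : (0 : ℂ) < (t : ℂ) := by exact_mod_cast ht
  exact Matrix.PosDef.one.smul this

/-- `A⁻¹ = A^{-1/2} A^{-1/2}` -/
theorem twb_inv_diag_eq {a : e → ℝ} (ha : ∀ i, 0 < a i) :
    (Matrix.diagonal (fun i => (a i : ℂ)))⁻¹ =
      Matrix.diagonal (fun i => (((Real.sqrt (a i))⁻¹ : ℝ) : ℂ)) *
        Matrix.diagonal (fun i => (((Real.sqrt (a i))⁻¹ : ℝ) : ℂ)) := by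
  apply Matrix.inv_eq_right_inv
  rw [Matrix.diagonal_mul_diagonal, Matrix.diagonal_mul_diagonal, ← Matrix.diagonal_one]
  congr 1
  funext i
  have h1 : Real.sqrt (a i) ≠ 0 := (Real.sqrt_pos.2 (ha i)).ne'
  have h2 : Real.sqrt (a i) * Real.sqrt (a i) = a i := Real.mul_self_sqrt (ha i).le
  have h3 : a i * ((Real.sqrt (a i))⁻¹ * (Real.sqrt (a i))⁻¹) = 1 := by
    field_simp
    rw [sq, h2]
  exact_mod_cast h3

omit [Fintype e] in
theorem twb_posDef_diag {a : e → ℝ} (ha : ∀ i, 0 < a i) :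
    (Matrix.diagonal (fun i => (a i : ℂ))).PosDef := by
  rw [Matrix.posDef_diagonal_iff]
  intro i
  exact_mod_cast ha i

/-- the Schur complement, `N = A^{-1/2} B` -/
theorem twb_schur_posSemidef {a : e → ℝ} (ha : ∀ i, 0 < a i) {B C : Matrix e e ℂ}
    (hP : (Matrix.fromBlocks (Matrix.diagonal (fun i => (a i : ℂ))) B Bᴴ C).PosSemidef) :
    (C - (Matrix.diagonal (fun i => (((Real.sqrt (a i))⁻¹ : ℝ) : ℂ)) * B)ᴴ *
      (Matrix.diagonal (fun i => (((Real.sqrt (a i))⁻¹ : ℝ) : ℂ)) * B)).PosSemidef := by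
  have hA := twb_posDef_diag ha
  have : Invertible (Matrix.diagonal (fun i => (a i : ℂ))) := hA.isUnit.invertible
  rw [PosDef.fromBlocks₁₁ B C hA, twb_inv_diag_eq ha] at hP
  rw [conjTranspose_mul, diagonal_conjTranspose]
  have h1 : star (fun i => (((Real.sqrt (a i))⁻¹ : ℝ) : ℂ)) =
      fun i => (((Real.sqrt (a i))⁻¹ : ℝ) : ℂ) := by
    funext i
    simp
  rw [h1]
  simpa only [Matrix.mul_assoc] using hP

/-- `Tr C' ≤ Tr C` -/
theorem trace_schur_le {a : e → ℝ} (ha : ∀ i, 0 < a i) {B C : Matrix e e ℂ}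
    (hP : (Matrix.fromBlocks (Matrix.diagonal (fun i => (a i : ℂ))) B Bᴴ C).PosSemidef) :
    ∑ i, ((B * Bᴴ) i i).re / a i ≤ C.trace.re := by
  have h := twb_schur_posSemidef ha hP
  set Si := Matrix.diagonal (fun i => (((Real.sqrt (a i))⁻¹ : ℝ) : ℂ)) with hSi
  have h1 := h.trace_nonneg
  rw [trace_sub, trace_mul_comm] at h1
  have h2 : (0 : ℝ) ≤ (C.trace - ((Si * B) * (Si * B)ᴴ).trace).re := by
    rw [Complex.le_def] at h1
    simpa using h1.1
  have h3 : (((Si * B) * (Si * B)ᴴ).trace).re = ∑ i, ((B * Bᴴ) i i).re / a i := by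
    rw [Matrix.trace, Complex.re_sum]
    apply Finset.sum_congr rfl
    intro i _
    have h4 : ((Si * B) * (Si * B)ᴴ) = Si * (B * Bᴴ) * Si := by
      rw [conjTranspose_mul, hSi, diagonal_conjTranspose]
      have h1 : star (fun i => (((Real.sqrt (a i))⁻¹ : ℝ) : ℂ)) =
          fun i => (((Real.sqrt (a i))⁻¹ : ℝ) : ℂ) := by
        funext i
        simp
      rw [h1]
      simp only [Matrix.mul_assoc]
    rw [h4, Matrix.diag_apply, hSi, Matrix.mul_diagonal, Matrix.diagonal_mul]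
    have h5 : (((Real.sqrt (a i))⁻¹ : ℝ) : ℂ) * (B * Bᴴ) i i * (((Real.sqrt (a i))⁻¹ : ℝ) : ℂ)
        = (((Real.sqrt (a i))⁻¹ * (Real.sqrt (a i))⁻¹ : ℝ) : ℂ) * (B * Bᴴ) i i := by
      push_cast; ring
    rw [h5, Complex.re_ofReal_mul, ← mul_inv, Real.mul_self_sqrt (ha i).le, inv_mul_eq_div]
  rw [Complex.sub_re, h3] at h2
  linarith

/-- push-through identity -/
theorem twb_push_through {t : ℝ} (ht : 0 < t) (N : Matrix e e ℂ) :
    (t : ℂ) • ((t : ℂ) • (1 : Matrix e e ℂ) + N * Nᴴ)⁻¹ =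
      1 - N * ((t : ℂ) • (1 : Matrix e e ℂ) + Nᴴ * N)⁻¹ * Nᴴ := by
  have h1 : ((t : ℂ) • (1 : Matrix e e ℂ) + N * Nᴴ).PosDef :=
    (twb_posDef_smul_one ht).add_posSemidef (posSemidef_self_mul_conjTranspose N)
  have h2 : ((t : ℂ) • (1 : Matrix e e ℂ) + Nᴴ * N).PosDef :=
    (twb_posDef_smul_one ht).add_posSemidef (posSemidef_conjTranspose_mul_self N)
  have hd1 := (Matrix.isUnit_iff_isUnit_det _).1 h1.isUnit
  have hd2 := (Matrix.isUnit_iff_isUnit_det _).1 h2.isUnit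
  set P := (t : ℂ) • (1 : Matrix e e ℂ) + N * Nᴴ with hPdef
  set Q := (t : ℂ) • (1 : Matrix e e ℂ) + Nᴴ * N with hQdef
  have h3 : P * N = N * Q := by
    rw [hPdef, hQdef, Matrix.add_mul, Matrix.mul_add, Matrix.smul_mul, Matrix.mul_smul,
      Matrix.one_mul, Matrix.mul_one, Matrix.mul_assoc]
  have h4 : P * (1 - N * Q⁻¹ * Nᴴ) = (t : ℂ) • (1 : Matrix e e ℂ) := by
    have h5 : P * (N * Q⁻¹ * Nᴴ) = N * Nᴴ := by
      rw [← Matrix.mul_assoc, ← Matrix.mul_assoc, h3, Matrix.mul_assoc N Q, 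
        Matrix.mul_nonsing_inv _ hd2, Matrix.mul_one]
    rw [Matrix.mul_sub, Matrix.mul_one, h5, hPdef]
    abel
  calc (t : ℂ) • P⁻¹ = P⁻¹ * ((t : ℂ) • (1 : Matrix e e ℂ)) := by
        rw [Matrix.mul_smul, Matrix.mul_one]
    _ = P⁻¹ * (P * (1 - N * Q⁻¹ * Nᴴ)) := by rw [h4]
    _ = 1 - N * Q⁻¹ * Nᴴ := by
        rw [← Matrix.mul_assoc, Matrix.nonsing_inv_mul _ hd1, Matrix.one_mul]

/-- lower bound of `det (t + M)`, `M = [[A + D, B], [Bᴴ, C]]`, `A = diag a > 0`;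
`C' = A^{-1/2} B Bᴴ A^{-1/2}`. -/
theorem det_shift_ge {a : e → ℝ} (ha : ∀ i, 0 < a i) {B C D : Matrix e e ℂ}
    (hP : (Matrix.fromBlocks (Matrix.diagonal (fun i => (a i : ℂ))) B Bᴴ C).PosSemidef)
    (hD : D.PosSemidef) {t : ℝ} (ht : 0 < t) :
    Real.log ((t : ℂ) • (1 : Matrix e e ℂ) + C).det.re +
      Real.log ((t : ℂ) • (1 : Matrix e e ℂ) + D +
        Matrix.diagonal (fun i => ((Real.sqrt (t * a i) : ℝ) : ℂ)) *
          ((t : ℂ) • (1 : Matrix e e ℂ) +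
            Matrix.diagonal (fun i => (((Real.sqrt (a i))⁻¹ : ℝ) : ℂ)) * (B * Bᴴ) *
              Matrix.diagonal (fun i => (((Real.sqrt (a i))⁻¹ : ℝ) : ℂ)))⁻¹ *
          Matrix.diagonal (fun i => ((Real.sqrt (t * a i) : ℝ) : ℂ))).det.re ≤
    Real.log ((t : ℂ) • (1 : Matrix (e ⊕ e) (e ⊕ e) ℂ) +
      Matrix.fromBlocks (Matrix.diagonal (fun i => (a i : ℂ)) + D) B Bᴴ C).det.re := by
  have hS := twb_schur_posSemidef ha hP
  set Si := Matrix.diagonal (fun i => (((Real.sqrt (a i))⁻¹ : ℝ) : ℂ)) with hSi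
  set N := Si * B with hN
  have hSiH : Siᴴ = Si := by
    rw [hSi, diagonal_conjTranspose]
    congr 1
    funext i
    simp
  have hNN : Si * (B * Bᴴ) * Si = N * Nᴴ := by
    rw [hN, conjTranspose_mul, hSiH]
    simp only [Matrix.mul_assoc]
  rw [hNN]
  set S : Matrix e e ℂ := Matrix.diagonal (fun i => ((Real.sqrt (a i) : ℝ) : ℂ)) with hSdef
  have hSt : Matrix.diagonal (fun i => ((Real.sqrt (t * a i) : ℝ) : ℂ)) =
      ((Real.sqrt t : ℝ) : ℂ) • S := by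
    rw [hSdef]
    ext i j
    by_cases hij : i = j
    · subst hij
      simp [Real.sqrt_mul ht.le]
    · simp [hij]
  rw [hSt]
  have hSH : Sᴴ = S := by
    rw [hSdef, diagonal_conjTranspose]
    congr 1
    funext i
    simp
  have hSSi : S * Si = 1 := by
    rw [hSdef, hSi, Matrix.diagonal_mul_diagonal, ← Matrix.diagonal_one]
    congr 1
    funext i
    have h1 : Real.sqrt (a i) ≠ 0 := (Real.sqrt_pos.2 (ha i)).ne'
    have h3 : Real.sqrt (a i) * (Real.sqrt (a i))⁻¹ = 1 := mul_inv_cancel₀ h1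
    exact_mod_cast h3
  have hSS : S * S = Matrix.diagonal (fun i => (a i : ℂ)) := by
    rw [hSdef, Matrix.diagonal_mul_diagonal]
    congr 1
    funext i
    have h3 : Real.sqrt (a i) * Real.sqrt (a i) = a i := Real.mul_self_sqrt (ha i).le
    exact_mod_cast h3
  have hSN : S * N = B := by
    rw [hN, ← Matrix.mul_assoc, hSSi, Matrix.one_mul]
  have hNS : Nᴴ * S = Bᴴ := by
    have h1 : (S * N)ᴴ = Nᴴ * Sᴴ := conjTranspose_mul _ _
    rw [hSH, hSN] at h1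
    exact h1.symm
  have hCP : C.PosSemidef := by
    have : C = (C - Nᴴ * N) + Nᴴ * N := by abel
    rw [this]
    exact hS.add (posSemidef_conjTranspose_mul_self N)
  have hG : ((t : ℂ) • (1 : Matrix e e ℂ) + C).PosDef := (twb_posDef_smul_one ht).add_posSemidef hCP
  have hH : ((t : ℂ) • (1 : Matrix e e ℂ) + Nᴴ * N).PosDef :=
    (twb_posDef_smul_one ht).add_posSemidef (posSemidef_conjTranspose_mul_self N)
  have hL : ((t : ℂ) • (1 : Matrix e e ℂ) + N * Nᴴ).PosDef :=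
    (twb_posDef_smul_one ht).add_posSemidef (posSemidef_self_mul_conjTranspose N)
  have hGH : (((t : ℂ) • (1 : Matrix e e ℂ) + Nᴴ * N)⁻¹ -
      ((t : ℂ) • (1 : Matrix e e ℂ) + C)⁻¹).PosSemidef := by
    apply twb_posSemidef_inv_sub_inv hH
    have : (t : ℂ) • (1 : Matrix e e ℂ) + C - ((t : ℂ) • (1 : Matrix e e ℂ) + Nᴴ * N)
        = C - Nᴴ * N := by abel
    rw [this]
    exact hS
  have hst : ((Real.sqrt t : ℝ) : ℂ) * ((Real.sqrt t : ℝ) : ℂ) = (t : ℂ) := by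
    exact_mod_cast Real.mul_self_sqrt ht.le
  have hW : (t : ℂ) • (1 : Matrix e e ℂ) + D +
      ((Real.sqrt t : ℝ) : ℂ) • S * ((t : ℂ) • (1 : Matrix e e ℂ) + N * Nᴴ)⁻¹ *
        ((Real.sqrt t : ℝ) : ℂ) • S =
      (t : ℂ) • (1 : Matrix e e ℂ) + (Matrix.diagonal (fun i => (a i : ℂ)) + D) -
        B * ((t : ℂ) • (1 : Matrix e e ℂ) + Nᴴ * N)⁻¹ * Bᴴ := by
    have h1 : ((Real.sqrt t : ℝ) : ℂ) • S * ((t : ℂ) • (1 : Matrix e e ℂ) + N * Nᴴ)⁻¹ *
        ((Real.sqrt t : ℝ) : ℂ) • S =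
        S * ((t : ℂ) • ((t : ℂ) • (1 : Matrix e e ℂ) + N * Nᴴ)⁻¹) * S := by
      rw [Matrix.smul_mul, Matrix.smul_mul, Matrix.mul_smul, smul_smul, hst, Matrix.mul_smul,
        Matrix.smul_mul]
    rw [h1, twb_push_through ht N, Matrix.mul_sub, Matrix.sub_mul, Matrix.mul_one, hSS]
    have h2 : S * (N * ((t : ℂ) • (1 : Matrix e e ℂ) + Nᴴ * N)⁻¹ * Nᴴ) * S =
        (S * N) * ((t : ℂ) • (1 : Matrix e e ℂ) + Nᴴ * N)⁻¹ * (Nᴴ * S) := by
      simp only [Matrix.mul_assoc]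
    rw [h2, hSN, hNS]
    abel
  have hWpos : ((t : ℂ) • (1 : Matrix e e ℂ) + D +
      ((Real.sqrt t : ℝ) : ℂ) • S * ((t : ℂ) • (1 : Matrix e e ℂ) + N * Nᴴ)⁻¹ *
        ((Real.sqrt t : ℝ) : ℂ) • S).PosDef := by
    apply ((twb_posDef_smul_one ht).add_posSemidef hD).add_posSemidef
    have h1 := hL.inv.posSemidef.mul_mul_conjTranspose_same (((Real.sqrt t : ℝ) : ℂ) • S)
    have h2 : (((Real.sqrt t : ℝ) : ℂ) • S)ᴴ = ((Real.sqrt t : ℝ) : ℂ) • S := by
      rw [conjTranspose_smul, hSH]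
      simp
    rwa [h2] at h1
  have hVW : ((t : ℂ) • (1 : Matrix e e ℂ) + (Matrix.diagonal (fun i => (a i : ℂ)) + D) -
      B * ((t : ℂ) • (1 : Matrix e e ℂ) + C)⁻¹ * Bᴴ -
      ((t : ℂ) • (1 : Matrix e e ℂ) + D +
      ((Real.sqrt t : ℝ) : ℂ) • S * ((t : ℂ) • (1 : Matrix e e ℂ) + N * Nᴴ)⁻¹ *
        ((Real.sqrt t : ℝ) : ℂ) • S)).PosSemidef := by
    rw [hW]
    have h1 := hGH.mul_mul_conjTranspose_same B
    rw [Matrix.mul_sub, Matrix.sub_mul] at h1
    convert h1 using 1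
    abel
  have hdet := twb_det_re_le_det_re hWpos hVW
  have hdG : 0 < ((t : ℂ) • (1 : Matrix e e ℂ) + C).det.re := by
    have h := hG.det_pos
    rw [Complex.lt_def] at h
    simpa using h.1
  have hdGr : ((t : ℂ) • (1 : Matrix e e ℂ) + C).det =
      ((((t : ℂ) • (1 : Matrix e e ℂ) + C).det.re : ℝ) : ℂ) := by
    have h := hG.det_pos
    rw [Complex.lt_def] at h
    apply Complex.ext
    · simp
    · simpa using h.2.symm
  have hdW : 0 < ((t : ℂ) • (1 : Matrix e e ℂ) + D +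
      ((Real.sqrt t : ℝ) : ℂ) • S * ((t : ℂ) • (1 : Matrix e e ℂ) + N * Nᴴ)⁻¹ *
        ((Real.sqrt t : ℝ) : ℂ) • S).det.re := by
    have h := hWpos.det_pos
    rw [Complex.lt_def] at h
    simpa using h.1
  have hblock : (t : ℂ) • (1 : Matrix (e ⊕ e) (e ⊕ e) ℂ) +
      Matrix.fromBlocks (Matrix.diagonal (fun i => (a i : ℂ)) + D) B Bᴴ C =
      Matrix.fromBlocks ((t : ℂ) • (1 : Matrix e e ℂ) +
        (Matrix.diagonal (fun i => (a i : ℂ)) + D)) B Bᴴ ((t : ℂ) • (1 : Matrix e e ℂ) + C) := by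
    rw [← Matrix.fromBlocks_one, Matrix.fromBlocks_smul, Matrix.fromBlocks_add]
    simp
  have : Invertible ((t : ℂ) • (1 : Matrix e e ℂ) + C) := hG.isUnit.invertible
  rw [hblock, Matrix.det_fromBlocks₂₂, Matrix.invOf_eq_nonsing_inv, hdGr,
    Complex.re_ofReal_mul, Complex.ofReal_re, Real.log_mul hdG.ne' (lt_of_lt_of_le hdW hdet).ne']
  exact add_le_add_right (Real.log_le_log hdW hdet) _

end Crest.Agent.R341
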