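import Crest.Agent.R341.TrfA
import Crest.Agent.R341.TwiseA
import Crest.Agent.R341.TwiseB

/-! Row 341, task T4c: assembling the `t`-wise inequality. -/

namespace Crest.Agent.R341

open Matrix Crest.Quantum
open scoped ComplexOrder

variable {e : Type*} [Fintype e] [DecidableEq e]

omit [Fintype e] in
lemma posDef_smul_one_add {t : ℝ} (ht : 0 < t) {A : Matrix e e ℂ} (hA : A.PosSemidef) :
    ((t : ℂ) • (1 : Matrix e e ℂ) + A).PosDef := by
  refine Matrix.PosDef.add_posSemidef ?_ hA
  exact Matrix.PosDef.one.smul (by exact_mod_cast ht)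

lemma trf_log_shift {t : ℝ} (ht : 0 < t) {A : Matrix e e ℂ} (hA : A.PosSemidef) :
    trf (fun x => Real.log (t + x)) A = Real.log ((t : ℂ) • (1 : Matrix e e ℂ) + A).det.re := by
  rw [trf_of_isHermitian _ hA.1, ← trf_add_smul_one Real.log hA.1 t,
    trf_log_eq_log_det (posDef_smul_one_add ht hA)]

/-- the `t`-wise inequality in final scalar form -/
theorem twise {a : e → ℝ} (ha : ∀ i, 0 < a i) {B C D : Matrix e e ℂ}
    (hP : (Matrix.fromBlocks (Matrix.diagonal (fun i => (a i : ℂ))) B Bᴴ C).PosSemidef)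
    (hD : D.PosSemidef) {y z : ℝ} (hy : 0 < y) (hz : 0 < z) {t : ℝ} (ht : 0 < t) :
    trf (fun x => Real.log (t + x)) C + trf (fun x => Real.log (t + x)) D +
      ∑ i, (Real.log (1 + t * a i / ((t + y * a i) * (t + z * a i))) -
        t * a i / ((t + y * a i) * (t + z * a i) + t * a i) *
          (((D i i).re - y * a i) / (t + y * a i) +
            (((B * Bᴴ) i i).re / a i - z * a i) / (t + z * a i))) ≤
    trf (fun x => Real.log (t + x))
      (Matrix.fromBlocks (Matrix.diagonal (fun i => (a i : ℂ)) + D) B Bᴴ C) := by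
  have hC : C.PosSemidef := by
    have := hP.submatrix (Sum.inr : e → e ⊕ e)
    have h2 : (Matrix.fromBlocks (Matrix.diagonal (fun i => (a i : ℂ))) B Bᴴ C).submatrix
        (Sum.inr : e → e ⊕ e) Sum.inr = C := by
      ext i j
      simp
    rwa [h2] at this
  have hM : (Matrix.fromBlocks (Matrix.diagonal (fun i => (a i : ℂ)) + D) B Bᴴ C).PosSemidef := by
    have h1 : (Matrix.fromBlocks D 0 0 (0 : Matrix e e ℂ)).PosSemidef := by
      have := hD.conjTranspose_mul_mul_same (Matrix.fromCols (1 : Matrix e e ℂ) (0 : Matrix e e ℂ))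
      convert this using 1
      ext i j
      rcases i with i | i <;> rcases j with j | j <;>
        simp [Matrix.mul_apply, Matrix.fromCols, Matrix.one_apply]
    have h2 := hP.add h1
    convert h2 using 1
    ext i j
    rcases i with i | i <;> rcases j with j | j <;> simp
  rw [trf_log_shift ht hC, trf_log_shift ht hD, trf_log_shift ht hM]
  have h1 := det_shift_ge ha hP hD ht
  set C' : Matrix e e ℂ := Matrix.diagonal (fun i => (((Real.sqrt (a i))⁻¹ : ℝ) : ℂ)) * (B * Bᴴ) *
              Matrix.diagonal (fun i => (((Real.sqrt (a i))⁻¹ : ℝ) : ℂ)) with hC'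
  have hC'P : C'.PosSemidef := by
    have := (Matrix.posSemidef_self_mul_conjTranspose B).mul_mul_conjTranspose_same
      (Matrix.diagonal (fun i => (((Real.sqrt (a i))⁻¹ : ℝ) : ℂ)))
    rw [Matrix.diagonal_conjTranspose] at this
    have h2 : (star fun i => (((Real.sqrt (a i))⁻¹ : ℝ) : ℂ)) =
        fun i => (((Real.sqrt (a i))⁻¹ : ℝ) : ℂ) := by
      funext i
      simp
    rwa [h2] at this
  have h2 := logdet_tangent (posDef_smul_one_add ht hD) (posDef_smul_one_add ht hC'P)
    (k := fun i => Real.sqrt (t * a i)) (p := fun i => t + y * a i) (q := fun i => t + z * a i)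
    (fun i => Real.sqrt_pos.2 (mul_pos ht (ha i)))
    (fun i => by have := ha i; positivity) (fun i => by have := ha i; positivity)
  refine le_trans ?_ h1
  rw [add_assoc]
  refine add_le_add_right ?_ _
  refine le_trans (le_of_eq ?_) h2
  congr 1
  refine Finset.sum_congr rfl fun i _ => ?_
  have hai := ha i
  have hsq : Real.sqrt (t * a i) ^ 2 = t * a i := Real.sq_sqrt (by positivity)
  have hyp : 0 < t + y * a i := by positivity
  have hzp : 0 < t + z * a i := by positivity
  have hDi : (((t : ℂ) • (1 : Matrix e e ℂ) + D) i i).re = t + (D i i).re := by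
    simp
  have hCi : (((t : ℂ) • (1 : Matrix e e ℂ) + C') i i).re = t + ((B * Bᴴ) i i).re / a i := by
    have : C' i i = (((Real.sqrt (a i))⁻¹ : ℝ) : ℂ) * (B * Bᴴ) i i *
        (((Real.sqrt (a i))⁻¹ : ℝ) : ℂ) := by
      rw [hC', Matrix.mul_diagonal, Matrix.diagonal_mul]
    have h3 : C' i i = ((1 / a i : ℝ) : ℂ) * (B * Bᴴ) i i := by
      rw [this]
      have h4 : (1 / a i : ℝ) = (Real.sqrt (a i))⁻¹ * (Real.sqrt (a i))⁻¹ := by
        rw [← mul_inv, Real.mul_self_sqrt hai.le, one_div]
      rw [h4]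
      push_cast
      ring
    rw [Matrix.add_apply, Complex.add_re, h3, Complex.re_ofReal_mul]
    simp
    ring
  rw [hDi, hCi, hsq]
  congr 3
  · field_simp
    ring
  · field_simp
    ring

end Crest.Agent.R341
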